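import Vale.Agent.P184.Ex.Alg2

/-!
# Block A: functionals on the words in `a, x, y`, the theorems of H57/A.lean
-/

namespace Vale.Agent.P184.H759

open Vale.Agent.P184.H57

lemma csum_eq (t : List Lt → ℂ) (u v : List Lt) :
    csum t u v = ∑ l : Fin v.length,
      (-1 : ℂ) ^ (u.length + (l : ℕ)) * dt t (u ++ v.take l) (v.get l) (v.drop (l + 1)) := by
  induction v generalizing u with
  | nil => simp [csum]
  | cons l v ih =>
    rw [csum, ih]
    simp only [List.length_cons]
    rw [Fin.sum_univ_succ]
    congr 1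
    · simp
    · refine Finset.sum_congr rfl fun i _ => ?_
      simp [List.append_assoc]
      left
      ring

lemma wordFun_of_closedTrace {t : List Lt → ℂ} (ht : IsClosedTrace t) : WordFun t := by
  refine ⟨fun l w => ?_, fun w => ?_, fun w hw => ?_⟩
  · simpa using ht.cyc [l] w
  · rw [csum_eq]
    have h := ht.closed w
    simp only [List.length_nil, zero_add, List.nil_append]
    rw [← h]
    refine Finset.sum_congr rfl fun i _ => ?_
    congr 1
  · have h1 : w.count .x + w.count .y = w.count .a + 1 := by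
      by_contra h
      exact hw (ht.wt w h)
    have h2 : marks w = w.count .x + w.count .y := by
      clear h1 hw
      induction w with
      | nil => simp [marks]
      | cons l w ih =>
        rw [marks] at ih ⊢
        rw [List.countP_cons, ih]
        cases l <;> simp [Lt.isMark] <;> omega
    have h3 : w.length = w.count .a + w.count .x + w.count .y := by
      clear h1 h2 hw
      induction w with
      | nil => simp
      | cons l w ih =>
        rw [List.length_cons, ih]
        cases l <;> simp <;> omega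
    omega

end Vale.Agent.P184.H759

namespace Vale.Agent.P184.H57

open Vale.Agent.P184.H759

/-- Block A. -/
theorem IsClosedTrace.bound {t : List Lt → ℂ} (ht : IsClosedTrace t) (m : ℕ) (B : ℝ)
    (hB : ∀ w : List Lt, w.length = 2 * m + 1 → ‖t w‖ ≤ B) :
    ‖t [.y] - t [.x]‖ ≤ (m + 1) * (3 * (9 / 4) ^ m) * B := by
  have hB0 : 0 ≤ B := (norm_nonneg _).trans (hB (List.replicate (2 * m + 1) .a) (by simp))
  have h := norm_sub_le (wordFun_of_closedTrace ht) m hB0 hB
  calc ‖t [.y] - t [.x]‖ ≤ 3 * (m + 1) * (9 / 4) ^ m * B := h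
    _ = (m + 1) * (3 * (9 / 4) ^ m) * B := by ring

/-- Block A, final form: with superexponentially decaying bounds, `t [y] = t [x]`. -/
theorem IsClosedTrace.eq {t : List Lt → ℂ} (ht : IsClosedTrace t) (C : ℝ) (hC : 0 ≤ C)
    (hB : ∀ w : List Lt, ∀ n : ℕ, w.length = 2 * n + 1 →
      ‖t w‖ ≤ C ^ (n + 1) * (n + 1 : ℝ) ^ (-((n : ℝ) + 1) / 2)) :
    t [.y] = t [.x] := by
  refine eq_of_bound (wordFun_of_closedTrace ht) C fun m w hw => ?_
  refine (hB w m hw).trans (le_of_eq ?_)
  have h0 : (0 : ℝ) < (m : ℝ) + 1 := by positivity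
  have e : ((m : ℝ) + 1) ^ (-((m : ℝ) + 1) / 2) = (Real.sqrt (m + 1) ^ (m + 1))⁻¹ := by
    rw [neg_div, Real.rpow_neg h0.le, Real.sqrt_eq_rpow, ← Real.rpow_natCast (_ ^ (1 / 2 : ℝ)),
      ← Real.rpow_mul h0.le]
    congr 2
    push_cast
    ring
  rw [e, div_pow, div_eq_mul_inv]

end Vale.Agent.P184.H57
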