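import Mathlib

/-!
# Block A: functionals on the words in `a, x, y` (definitions of H57/A.lean)
-/

namespace Vale.Agent.P184.H57

/-- The letters. -/
inductive Lt | a | x | y
  deriving DecidableEq

/-- The differential of the letter `l`, extended by `t`, in the context `u _ v`. -/
def dLt (t : List Lt → ℂ) (u : List Lt) (l : Lt) (v : List Lt) : ℂ :=
  match l with
  | .a => -t (u ++ [.a, .a] ++ v)
  | .x => t (u ++ v)
  | .y => t (u ++ v) - t (u ++ [.a, .y] ++ v) - t (u ++ [.y, .a] ++ v)

/-- A closed trace on the words, supported on the words with one mark more than forms. -/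
structure IsClosedTrace (t : List Lt → ℂ) : Prop where
  cyc : ∀ u v, t (u ++ v) = t (v ++ u)
  wt : ∀ w : List Lt, w.count .x + w.count .y ≠ w.count .a + 1 → t w = 0
  closed : ∀ w : List Lt, ∑ l : Fin w.length,
    (-1 : ℂ) ^ (l : ℕ) * dLt t (w.take l) (w.get l) (w.drop (l + 1)) = 0

/-- Is a letter a mark (`x` or `y`)? -/
def Lt.isMark : Lt → Bool
  | .a => false
  | .x => true
  | .y => true

end Vale.Agent.P184.H57
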