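import Vale.Agent.P184.Ex.ADefs

/-!
P184, block A.  Pure algebra in the free algebra on three odd letters `a`, `x`, `y`.

For a function `t` on words which is cyclic, closed under the odd derivation
`d a = -aa`, `d x = 1`, `d y = 1 - ay - ya`, and which vanishes on words in which the number of
marks (`x` or `y`) differs from the number of `a`s plus one, one has for every `m`

  `‖t [y] - t [x]‖ ≤ 3 (m+1) (9/4)^m c`,  `c` a bound for `t` on words of length `2m+1`.
-/

namespace Vale.Agent.P184.H759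

open Vale.Agent.P184.H57

/-- Number of marks of a word. -/
def marks (w : List Lt) : ℕ := w.countP Lt.isMark

/-- The value of `t` after applying the derivation to the letter `l` between `u` and `v`. -/
def dt (t : List Lt → ℂ) (u : List Lt) (l : Lt) (v : List Lt) : ℂ :=
  match l with
  | .a => - t (u ++ [Lt.a, Lt.a] ++ v)
  | .x => t (u ++ v)
  | .y => t (u ++ v) - t (u ++ [Lt.a, Lt.y] ++ v) - t (u ++ [Lt.y, Lt.a] ++ v)

/-- The signed sum `∑ₗ (-1)^{|u|+l} t (u v₀ … d(vₗ) …)`. -/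
def csum (t : List Lt → ℂ) : List Lt → List Lt → ℂ
  | _, [] => 0
  | u, l :: v => (-1) ^ u.length * dt t u l v + csum t (u ++ [l]) v

/-- The hypotheses on the word functional. -/
structure WordFun (t : List Lt → ℂ) : Prop where
  cyc : ∀ l w, t (l :: w) = t (w ++ [l])
  closed : ∀ w, csum t [] w = 0
  weight : ∀ w, t w ≠ 0 → 2 * marks w = w.length + 1

noncomputable section

/-- The free algebra on the three letters. -/
abbrev F := FreeAlgebra ℂ Lt

/-- Generator. -/
def gen (l : Lt) : F := FreeAlgebra.ι ℂ l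

/-- Word in the free algebra. -/
def W (w : List Lt) : F := (w.map gen).prod

@[simp] lemma W_nil : W [] = 1 := rfl
@[simp] lemma W_cons (l : Lt) (w : List Lt) : W (l :: w) = gen l * W w := by simp [W]
@[simp] lemma W_append (u v : List Lt) : W (u ++ v) = W u * W v := by simp [W]

/-- Basis of words. -/
lemma basis_apply (w : FreeMonoid Lt) : FreeAlgebra.basisFreeMonoid ℂ Lt w = W w.toList := by
  have h : (FreeAlgebra.equivMonoidAlgebraFreeMonoid (R := ℂ) (X := Lt)).symm
      (MonoidAlgebra.of ℂ (FreeMonoid Lt) w) = W w.toList := by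
    have : (FreeAlgebra.equivMonoidAlgebraFreeMonoid (R := ℂ) (X := Lt)).symm
      (MonoidAlgebra.of ℂ (FreeMonoid Lt) w) =
        MonoidAlgebra.lift ℂ (FreeAlgebra ℂ Lt) (FreeMonoid Lt)
          (FreeMonoid.lift (FreeAlgebra.ι ℂ)) (MonoidAlgebra.of ℂ (FreeMonoid Lt) w) := rfl
    rw [this, MonoidAlgebra.lift_of, FreeMonoid.lift_apply]
    rfl
  rw [← h]
  simp [FreeAlgebra.basisFreeMonoid]

theorem F_induction {P : F → Prop} (h0 : P 0) (hadd : ∀ u v, P u → P v → P (u + v))
    (hsmul : ∀ (c : ℂ) u, P u → P (c • u)) (hW : ∀ w, P (W w)) (u : F) : P u := by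
  have hu : u ∈ Submodule.span ℂ (Set.range (FreeAlgebra.basisFreeMonoid ℂ Lt)) := by
    rw [(FreeAlgebra.basisFreeMonoid ℂ Lt).span_eq]; trivial
  induction hu using Submodule.span_induction with
  | mem x hx =>
    obtain ⟨w, rfl⟩ := hx
    rw [basis_apply]
    exact hW _
  | zero => exact h0
  | add x y _ _ hx hy => exact hadd _ _ hx hy
  | smul c x _ hx => exact hsmul _ _ hx

/-- Linear extension of `t`. -/
def tF (t : List Lt → ℂ) : F →ₗ[ℂ] ℂ :=
  (FreeAlgebra.basisFreeMonoid ℂ Lt).constr ℂ (fun w => t w.toList)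

lemma tF_W (t : List Lt → ℂ) (w : List Lt) : tF t (W w) = t w := by
  have h := (FreeAlgebra.basisFreeMonoid ℂ Lt).constr_basis ℂ (fun w => t w.toList)
    (FreeMonoid.ofList w)
  rw [basis_apply] at h
  simpa [tF] using h

/-! ### The odd derivation -/

/-- Value of the derivation on letters. -/
def dl : Lt → F
  | .a => - (gen .a * gen .a)
  | .x => 1
  | .y => 1 - gen .a * gen .y - gen .y * gen .a

/-- The algebra map `u ↦ (γ u, d u; 0, u)`. -/
def Phi : F →ₐ[ℂ] Matrix (Fin 2) (Fin 2) F :=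
  FreeAlgebra.lift ℂ (fun l => !![-(gen l), dl l; 0, gen l])

lemma Phi_gen (l : Lt) : Phi (gen l) = !![-(gen l), dl l; 0, gen l] := by
  simp [Phi, gen]

/-- Parity automorphism. -/
def gam (u : F) : F := Phi u 0 0

/-- The odd derivation. -/
def dlt (u : F) : F := Phi u 0 1

lemma Phi_lower (u : F) : Phi u 1 0 = 0 ∧ Phi u 1 1 = u := by
  refine F_induction (P := fun u => Phi u 1 0 = 0 ∧ Phi u 1 1 = u) ?_ ?_ ?_ ?_ u
  · simp
  · intro u v hu hv
    simp [hu.1, hu.2, hv.1, hv.2]
  · intro c u hu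
    simp [hu.1, hu.2]
  · intro w
    induction w with
    | nil => simp
    | cons l w ih =>
      rw [W_cons, map_mul, Phi_gen]
      simp [Matrix.mul_apply, Fin.sum_univ_two, ih.1, ih.2]

lemma gam_add (u v : F) : gam (u + v) = gam u + gam v := by simp [gam]
lemma gam_sub (u v : F) : gam (u - v) = gam u - gam v := by simp [gam]
lemma gam_neg (u : F) : gam (-u) = -gam u := by simp [gam]
lemma gam_smul (c : ℂ) (u : F) : gam (c • u) = c • gam u := by simp [gam]
lemma gam_one : gam 1 = 1 := by simp [gam]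
lemma gam_gen (l : Lt) : gam (gen l) = - gen l := by simp [gam, Phi_gen]
lemma gam_mul (u v : F) : gam (u * v) = gam u * gam v := by
  simp [gam, Matrix.mul_apply, Fin.sum_univ_two, (Phi_lower v).1]

lemma dlt_add (u v : F) : dlt (u + v) = dlt u + dlt v := by simp [dlt]
lemma dlt_sub (u v : F) : dlt (u - v) = dlt u - dlt v := by simp [dlt]
lemma dlt_neg (u : F) : dlt (-u) = -dlt u := by simp [dlt]
lemma dlt_smul (c : ℂ) (u : F) : dlt (c • u) = c • dlt u := by simp [dlt]
lemma dlt_one : dlt 1 = 0 := by simp [dlt]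
lemma dlt_zero : dlt 0 = 0 := by simp [dlt]
lemma dlt_gen (l : Lt) : dlt (gen l) = dl l := by simp [dlt, Phi_gen]
lemma dlt_mul (u v : F) : dlt (u * v) = gam u * dlt v + dlt u * v := by
  simp [dlt, gam, Matrix.mul_apply, Fin.sum_univ_two, (Phi_lower v).2]

variable {t : List Lt → ℂ}

lemma tF_cyc_gen (ht : WordFun t) (l : Lt) (v : F) : tF t (gen l * v) = tF t (v * gen l) := by
  refine F_induction (P := fun v => tF t (gen l * v) = tF t (v * gen l)) ?_ ?_ ?_ ?_ v
  · simp
  · intro u v hu hv; simp [mul_add, add_mul, hu, hv]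
  · intro c u hu; simp [hu]
  · intro w
    have h1 : gen l * W w = W (l :: w) := by simp
    have h2 : W w * gen l = W (w ++ [l]) := by simp
    rw [h1, h2, tF_W, tF_W, ht.cyc]

lemma tF_cyc (ht : WordFun t) (u v : F) : tF t (u * v) = tF t (v * u) := by
  refine F_induction (P := fun u => ∀ v, tF t (u * v) = tF t (v * u)) ?_ ?_ ?_ ?_ u v
  · simp
  · intro u v hu hv w; simp [mul_add, add_mul, hu, hv]
  · intro c u hu w; simp [hu]
  · intro w
    induction w with
    | nil => simp
    | cons l w ih =>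
      intro v
      rw [W_cons, mul_assoc, tF_cyc_gen ht, mul_assoc, ih, mul_assoc]

lemma tF_dlt_aux (t : List Lt → ℂ) (u v : List Lt) :
    tF t (W u * dlt (W v)) = (-1) ^ u.length * csum t u v := by
  induction v generalizing u with
  | nil => simp [csum, dlt_one]
  | cons l v ih =>
    have h := ih (u ++ [l])
    have h1 : (-1 : ℂ) ^ u.length * (-1) ^ u.length = 1 := by
      rw [← mul_pow]; simp
    have hd : tF t (W u * dl l * W v) = dt t u l v := by
      cases l with
      | a =>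
        have : W u * dl Lt.a * W v = - W (u ++ [Lt.a, Lt.a] ++ v) := by
          simp [dl, mul_assoc]
        rw [this, map_neg, tF_W]; rfl
      | x =>
        have : W u * dl Lt.x * W v = W (u ++ v) := by
          simp [dl]
        rw [this, tF_W]; rfl
      | y =>
        have : W u * dl Lt.y * W v =
            W (u ++ v) - W (u ++ [Lt.a, Lt.y] ++ v) - W (u ++ [Lt.y, Lt.a] ++ v) := by
          simp [dl, mul_sub, sub_mul, mul_assoc]
        rw [this, map_sub, map_sub, tF_W, tF_W, tF_W]; rfl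
    have e : W u * dlt (W (l :: v)) = W u * dl l * W v - W (u ++ [l]) * dlt (W v) := by
      rw [W_cons, dlt_mul, gam_gen, dlt_gen]
      simp only [W_append, W_cons, W_nil, mul_one]
      noncomm_ring
    rw [e, map_sub, hd, h, csum]
    simp only [List.length_append, List.length_cons, List.length_nil, zero_add, pow_succ]
    linear_combination (-(dt t u l v)) * h1

lemma tF_dlt (ht : WordFun t) (u : F) : tF t (dlt u) = 0 := by
  refine F_induction (P := fun u => tF t (dlt u) = 0) ?_ ?_ ?_ ?_ u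
  · simp [dlt_zero]
  · intro u v hu hv; simp [dlt_add, hu, hv]
  · intro c u hu; simp [dlt_smul, hu]
  · intro w
    have := tF_dlt_aux t [] w
    simpa [ht.closed w] using this

/-! ### The elements -/

/-- `a` -/
def A : F := gen .a
/-- `x` -/
def X : F := gen .x
/-- `y` -/
def Y : F := gen .y
/-- `y - x` -/
def B : F := Y - X
/-- `a² + [a, b]` -/
def Q : F := A * A + A * B + B * A
/-- `x + s b` -/
def Xs (s : ℂ) : F := X + s • B
/-- `N_s` -/
def N (s : ℂ) : F := -(s * (1 - s)) • Q + Xs s * Xs s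
/-- `∂ₛ N_s` -/
def N' (s : ℂ) : F := -(1 - 2 * s) • Q + (Xs s * B + B * Xs s)
/-- `s a + X_s` -/
def om (s : ℂ) : F := s • A + Xs s
/-- `a + b` -/
def op : F := A + B
/-- `N^♯` -/
def Ns (s : ℂ) : F := -(s * (1 - s)) • (A * B + B * A) + (2 : ℂ) • (Xs s * Xs s)

lemma gam_A : gam A = -A := gam_gen _
lemma gam_X : gam X = -X := gam_gen _
lemma gam_Y : gam Y = -Y := gam_gen _
lemma gam_B : gam B = -B := by rw [B, gam_sub, gam_X, gam_Y]; abel
lemma dlt_A : dlt A = -(A * A) := dlt_gen _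
lemma dlt_X : dlt X = 1 := dlt_gen _
lemma dlt_Y : dlt Y = 1 - A * Y - Y * A := dlt_gen _
lemma dlt_B : dlt B = - (A * Y) - Y * A := by rw [B, dlt_sub, dlt_X, dlt_Y]; abel
lemma gam_Q : gam Q = Q := by
  simp only [Q, gam_add, gam_mul, gam_A, gam_B]; noncomm_ring
lemma gam_Xs (s : ℂ) : gam (Xs s) = - Xs s := by
  simp only [Xs, gam_add, gam_smul, gam_X, gam_B, smul_neg]; abel
lemma gam_N (s : ℂ) : gam (N s) = N s := by
  simp only [N, gam_add, gam_smul, gam_mul, gam_Q, gam_Xs]; simp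
lemma gam_op : gam op = - op := by
  simp only [op, gam_add, gam_A, gam_B]; abel

/-- `[Y, ω'] = N'`. -/
lemma dlt_op (s : ℂ) : dlt op = N' s - om s * op - op * om s := by
  simp only [op, N', om, Xs, Q, dlt_add, dlt_A, dlt_B]
  simp only [B]
  simp only [mul_add, add_mul, mul_sub, sub_mul, smul_mul_assoc, mul_smul_comm, smul_add,
    smul_sub]
  module

/-- `[Y, X_s] = 1 + N^♯`. -/
lemma dlt_Xs (s : ℂ) : dlt (Xs s) = 1 + Ns s - om s * Xs s - Xs s * om s := by
  simp only [Ns, om, Xs, dlt_add, dlt_smul, dlt_X, dlt_B]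
  simp only [B]
  simp only [mul_add, add_mul, mul_sub, sub_mul, smul_mul_assoc, mul_smul_comm, smul_add,
    smul_sub, smul_smul]
  module

/-- Bianchi: `[Y, N] = 0`. -/
lemma dlt_N (s : ℂ) : dlt (N s) = N s * om s - om s * N s := by
  simp only [N, dlt_add, dlt_smul, dlt_mul, gam_Xs, dlt_Xs, Q, gam_A, gam_B, dlt_A, dlt_B]
  simp only [Ns, om, Xs, B]
  simp only [mul_add, add_mul, mul_sub, sub_mul, smul_mul_assoc, mul_smul_comm, smul_add,
    smul_sub, mul_assoc, smul_smul, mul_neg, neg_mul, smul_neg, mul_one, one_mul]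
  module

lemma gam_N_pow (s : ℂ) (i : ℕ) : gam (N s ^ i) = N s ^ i := by
  induction i with
  | zero => simp [gam_one]
  | succ i ih => rw [pow_succ, gam_mul, ih, gam_N]

lemma dlt_N_pow (s : ℂ) (i : ℕ) : dlt (N s ^ i) = N s ^ i * om s - om s * N s ^ i := by
  induction i with
  | zero => simp [dlt_one]
  | succ i ih =>
    rw [pow_succ, dlt_mul, gam_N_pow, ih, dlt_N]
    noncomm_ring

lemma key_comm (s : ℂ) (i j : ℕ) :
    dlt (Xs s * (N s ^ i * op * N s ^ j)) =
      (1 + Ns s) * (N s ^ i * op * N s ^ j) - Xs s * (N s ^ i * N' s * N s ^ j)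
       + (Xs s * (N s ^ i * op * N s ^ j)) * om s - om s * (Xs s * (N s ^ i * op * N s ^ j)) := by
  rw [dlt_mul, dlt_mul, dlt_mul, gam_mul, gam_Xs, gam_N_pow, gam_op, dlt_N_pow, dlt_N_pow,
    dlt_op s, dlt_Xs]
  generalize N s ^ i = P
  generalize N s ^ j = R
  noncomm_ring

lemma tF_key (ht : WordFun t) (s : ℂ) (i j : ℕ) :
    tF t (Xs s * (N s ^ i * N' s * N s ^ j)) =
      tF t (N s ^ i * op * N s ^ j) + tF t (Ns s * (N s ^ i * op * N s ^ j)) := by
  have h := tF_dlt ht (Xs s * (N s ^ i * op * N s ^ j))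
  rw [key_comm, map_sub, map_add, map_sub, tF_cyc ht _ (om s), add_mul, map_add, one_mul] at h
  linear_combination -h

/-! ### The counting derivation -/

/-- The algebra map `u ↦ (u, c u; 0, u)`, `c` counting marks. -/
def PhiC : F →ₐ[ℂ] Matrix (Fin 2) (Fin 2) F :=
  FreeAlgebra.lift ℂ (fun l => !![gen l, if l.isMark then gen l else 0; 0, gen l])

lemma PhiC_gen (l : Lt) :
    PhiC (gen l) = !![gen l, if l.isMark then gen l else 0; 0, gen l] := by
  simp [PhiC, gen]

/-- The derivation counting marks. -/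
def cc (u : F) : F := PhiC u 0 1

lemma PhiC_lower (u : F) : PhiC u 1 0 = 0 ∧ PhiC u 1 1 = u ∧ PhiC u 0 0 = u := by
  refine F_induction (P := fun u => PhiC u 1 0 = 0 ∧ PhiC u 1 1 = u ∧ PhiC u 0 0 = u)
    ?_ ?_ ?_ ?_ u
  · simp
  · intro u v hu hv
    simp [hu, hv]
  · intro c u hu
    simp [hu]
  · intro w
    induction w with
    | nil => simp
    | cons l w ih =>
      rw [W_cons, map_mul, PhiC_gen]
      simp [Matrix.mul_apply, Fin.sum_univ_two, ih]

lemma cc_add (u v : F) : cc (u + v) = cc u + cc v := by simp [cc]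
lemma cc_sub (u v : F) : cc (u - v) = cc u - cc v := by simp [cc]
lemma cc_zero : cc 0 = 0 := by simp [cc]
lemma cc_one : cc 1 = 0 := by simp [cc]
lemma cc_smul (c : ℂ) (u : F) : cc (c • u) = c • cc u := by simp [cc]
lemma cc_mul (u v : F) : cc (u * v) = u * cc v + cc u * v := by
  simp [cc, Matrix.mul_apply, Fin.sum_univ_two, PhiC_lower]
lemma cc_A : cc A = 0 := by simp [cc, A, PhiC_gen, Lt.isMark]
lemma cc_X : cc X = X := by simp [cc, X, PhiC_gen, Lt.isMark]
lemma cc_Y : cc Y = Y := by simp [cc, Y, PhiC_gen, Lt.isMark]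
lemma cc_B : cc B = B := by rw [B, cc_sub, cc_X, cc_Y]
lemma cc_op : cc op = B := by rw [op, cc_add, cc_A, cc_B, zero_add]
lemma cc_N (s : ℂ) : cc (N s) = Ns s := by
  simp only [N, Ns, Q, Xs, cc_add, cc_mul, cc_smul, cc_A, cc_B, cc_X]
  simp only [mul_zero, zero_mul, add_zero, zero_add]
  module

lemma cc_W (w : List Lt) : cc (W w) = (marks w : ℂ) • W w := by
  induction w with
  | nil => simp [cc_one, marks]
  | cons l w ih =>
    rw [W_cons, cc_mul, ih]
    have hg : cc (gen l) = if l.isMark then gen l else 0 := by simp [cc, PhiC_gen]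
    rw [hg]
    by_cases h : l.isMark
    · simp only [h, marks, List.countP_cons, if_true, mul_smul_comm]
      push_cast
      rw [add_smul, one_smul]
    · simp [h, marks]

/-- Homogeneous elements. -/
def Hm (n : ℕ) : Submodule ℂ F := Submodule.span ℂ {u | ∃ w : List Lt, w.length = n ∧ W w = u}

lemma W_mem_Hm (w : List Lt) : W w ∈ Hm w.length := Submodule.subset_span ⟨w, rfl, rfl⟩

lemma Hm_mul {i j : ℕ} {u v : F} (hu : u ∈ Hm i) (hv : v ∈ Hm j) : u * v ∈ Hm (i + j) := by
  have h := Submodule.mul_mem_mul hu hv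
  rw [Hm, Hm, Submodule.span_mul_span] at h
  refine Submodule.span_mono ?_ h
  rintro _ ⟨_, ⟨w, hw, rfl⟩, _, ⟨w', hw', rfl⟩, rfl⟩
  exact ⟨w ++ w', by simp [hw, hw'], by simp⟩

lemma gen_mem (l : Lt) : gen l ∈ Hm 1 := Submodule.subset_span ⟨[l], rfl, by simp⟩
lemma A_mem : A ∈ Hm 1 := gen_mem _
lemma X_mem : X ∈ Hm 1 := gen_mem _
lemma Y_mem : Y ∈ Hm 1 := gen_mem _
lemma B_mem : B ∈ Hm 1 := Submodule.sub_mem _ Y_mem X_mem
lemma op_mem : op ∈ Hm 1 := Submodule.add_mem _ A_mem B_mem
lemma Xs_mem (s : ℂ) : Xs s ∈ Hm 1 := Submodule.add_mem _ X_mem (Submodule.smul_mem _ _ B_mem)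
lemma Hm_mul' {u v : F} (hu : u ∈ Hm 1) (hv : v ∈ Hm 1) : u * v ∈ Hm 2 :=
  Hm_mul (i := 1) (j := 1) hu hv
lemma Q_mem : Q ∈ Hm 2 := by
  have h1 := Hm_mul' A_mem A_mem
  have h2 := Hm_mul' A_mem B_mem
  have h3 := Hm_mul' B_mem A_mem
  rw [Q]
  exact Submodule.add_mem _ (Submodule.add_mem _ h1 h2) h3
lemma N_mem (s : ℂ) : N s ∈ Hm 2 := by
  have h1 := Submodule.smul_mem _ (-(s * (1 - s))) Q_mem
  have h2 := Hm_mul' (Xs_mem s) (Xs_mem s)
  rw [N]
  exact Submodule.add_mem _ h1 h2
lemma N_pow_mem (s : ℂ) (m : ℕ) : N s ^ m ∈ Hm (2 * m) := by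
  induction m with
  | zero => exact Submodule.subset_span ⟨[], rfl, by simp⟩
  | succ m ih => rw [pow_succ]; exact Hm_mul ih (N_mem s)

lemma tF_cc (ht : WordFun t) (m : ℕ) {u : F} (hu : u ∈ Hm (2 * m + 1)) :
    tF t (cc u) = (m + 1) * tF t u := by
  refine Submodule.span_induction (p := fun u _ => tF t (cc u) = (m + 1) * tF t u)
    ?_ ?_ ?_ ?_ hu
  · rintro _ ⟨w, hw, rfl⟩
    rw [cc_W, map_smul, tF_W, smul_eq_mul]
    by_cases h0 : t w = 0
    · simp [h0]
    · have := ht.weight w h0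
      have h2 : marks w = m + 1 := by omega
      rw [h2]; push_cast; ring
  · simp [cc_zero]
  · intro u v _ _ hu hv; simp [cc_add, hu, hv]; ring
  · intro c u _ hu; simp [cc_smul, hu]; ring

lemma cc_N_pow_tF (ht : WordFun t) (s : ℂ) (m : ℕ) :
    tF t (op * cc (N s ^ m)) =
      ∑ i ∈ Finset.range m, tF t (Ns s * (N s ^ i * op * N s ^ (m - 1 - i))) := by
  have h : ∀ m : ℕ, cc (N s ^ m) =
      ∑ i ∈ Finset.range m, N s ^ (m - 1 - i) * Ns s * N s ^ i := by
    intro m
    induction m with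
    | zero => simp [cc_one]
    | succ m ih =>
      rw [pow_succ', cc_mul, ih, cc_N, Finset.sum_range_succ, Finset.mul_sum]
      congr 1
      · refine Finset.sum_congr rfl fun i hi => ?_
        have hi' := Finset.mem_range.1 hi
        have e : m + 1 - 1 - i = (m - 1 - i) + 1 := by omega
        rw [e, pow_succ']; simp only [mul_assoc]
      · simp
  rw [h m, Finset.mul_sum, map_sum]
  refine Finset.sum_congr rfl fun i hi => ?_
  have e1 : op * (N s ^ (m - 1 - i) * Ns s * N s ^ i) =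
      (op * N s ^ (m - 1 - i)) * (Ns s * N s ^ i) := by simp only [mul_assoc]
  rw [e1, tF_cyc ht]; simp only [mul_assoc]

/-- The sum of `t (X N^i N' N^j)`, `i + j = m - 1`. -/
lemma sum_key (ht : WordFun t) (s : ℂ) (m : ℕ) :
    ∑ i ∈ Finset.range m, tF t (Xs s * (N s ^ i * N' s * N s ^ (m - 1 - i))) =
      m * tF t (op * N s ^ (m - 1)) + ((m + 1) * tF t (op * N s ^ m) - tF t (B * N s ^ m)) := by
  have h1 : ∀ i ∈ Finset.range m, tF t (Xs s * (N s ^ i * N' s * N s ^ (m - 1 - i))) =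
      tF t (op * N s ^ (m - 1)) + tF t (Ns s * (N s ^ i * op * N s ^ (m - 1 - i))) := by
    intro i hi
    have hi' := Finset.mem_range.1 hi
    rw [tF_key ht]
    congr 1
    rw [mul_assoc, tF_cyc ht, mul_assoc, ← pow_add]
    congr 3; omega
  rw [Finset.sum_congr rfl h1, Finset.sum_add_distrib, ← cc_N_pow_tF ht]
  simp only [Finset.sum_const, Finset.card_range, nsmul_eq_mul]
  congr 1
  have h2 := tF_cc ht m (u := op * N s ^ m)
    (by have := Hm_mul op_mem (N_pow_mem s m); rwa [add_comm] at this)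
  rw [cc_mul, cc_op, map_add] at h2
  linear_combination h2

end

end Vale.Agent.P184.H759
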