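import Vale.Agent.P184.Ex.Alg

/-!
P184, block A, second part: calculus in `s`, integration and the final estimate.
-/

namespace Vale.Agent.P184.H759

open Vale.Agent.P184.H57

noncomputable section

variable {t : List Lt → ℂ}

/-! ### Expansion in `s` -/

/-- coefficient of `s` in `N_s` -/
def N1 : F := -Q + X * B + B * X
/-- coefficient of `s²` in `N_s` -/
def N2 : F := Q + B * B

lemma N_expand (s : ℂ) : N s = X * X + s • N1 + (s ^ 2) • N2 := by
  simp only [N, N1, N2, Xs]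
  simp only [mul_add, add_mul, smul_mul_assoc, mul_smul_comm, smul_add, smul_smul]
  module

lemma N'_expand (s : ℂ) : N' s = N1 + (2 * s) • N2 := by
  simp only [N', N1, N2, Xs]
  simp only [mul_add, add_mul, smul_mul_assoc, mul_smul_comm, smul_add]
  module

/-- Derivative of `s ↦ τ (N_s^m)` for a linear functional `τ`. -/
lemma hasDerivAt_pow (m : ℕ) (τ : F →ₗ[ℂ] ℂ) (s : ℝ) :
    HasDerivAt (fun s : ℝ => τ (N s ^ m))
      (∑ i ∈ Finset.range m, τ (N s ^ i * N' s * N s ^ (m - 1 - i))) s := by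
  induction m generalizing τ with
  | zero => simpa using hasDerivAt_const s (τ 1)
  | succ m ih =>
    -- `τ_k u = τ (A_k u)`
    let τ0 : F →ₗ[ℂ] ℂ := τ ∘ₗ LinearMap.mulLeft ℂ (X * X)
    let τ1 : F →ₗ[ℂ] ℂ := τ ∘ₗ LinearMap.mulLeft ℂ N1
    let τ2 : F →ₗ[ℂ] ℂ := τ ∘ₗ LinearMap.mulLeft ℂ N2
    have hs : HasDerivAt (fun s : ℝ => (s : ℂ)) 1 s := Complex.ofRealCLM.hasDerivAt
    have hs2 : HasDerivAt (fun s : ℝ => (s : ℂ) ^ 2) (2 * (s : ℂ)) s := by
      have h := hs.mul hs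
      have e : (fun s : ℝ => (s : ℂ) ^ 2) = (fun s : ℝ => (s : ℂ)) * (fun s : ℝ => (s : ℂ)) := by
        funext s; simp [sq]
      rw [e]
      exact h.congr_deriv (by ring)
    have h := ((ih τ0).add (hs.mul (ih τ1))).add (hs2.mul (ih τ2))
    have e1 : (fun s : ℝ => τ (N s ^ (m + 1))) =
        fun s : ℝ => τ0 (N s ^ m) + (s : ℂ) * τ1 (N s ^ m) + (s : ℂ) ^ 2 * τ2 (N s ^ m) := by
      funext s
      rw [pow_succ']
      generalize hR : N (s : ℂ) ^ m = R
      rw [N_expand]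
      simp only [τ0, τ1, τ2, LinearMap.comp_apply, LinearMap.mulLeft_apply]
      rw [add_mul, add_mul, map_add, map_add, smul_mul_assoc, smul_mul_assoc, map_smul, map_smul,
        smul_eq_mul, smul_eq_mul]
    rw [e1]
    refine h.congr_deriv ?_
    rw [Finset.sum_range_succ']
    have e2 : ∀ i ∈ Finset.range m,
        τ (N s ^ (i + 1) * N' s * N s ^ (m + 1 - 1 - (i + 1))) =
          τ0 (N s ^ i * N' s * N s ^ (m - 1 - i)) +
          (s : ℂ) * τ1 (N s ^ i * N' s * N s ^ (m - 1 - i)) +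
          (s : ℂ) ^ 2 * τ2 (N s ^ i * N' s * N s ^ (m - 1 - i)) := by
      intro i _
      have e3 : m + 1 - 1 - (i + 1) = m - 1 - i := by omega
      rw [e3, pow_succ']
      generalize N' (s : ℂ) = U
      generalize N (s : ℂ) ^ (m - 1 - i) = R
      generalize hP : N (s : ℂ) ^ i = P
      rw [N_expand]
      simp only [τ0, τ1, τ2, LinearMap.comp_apply, LinearMap.mulLeft_apply, add_mul,
        smul_mul_assoc, map_add, map_smul, smul_eq_mul, mul_assoc]
    rw [Finset.sum_congr rfl e2]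
    simp only [Finset.sum_add_distrib, ← Finset.mul_sum]
    have e4 : τ (N (s : ℂ) ^ 0 * N' s * N s ^ (m + 1 - 1 - 0)) =
        τ1 (N s ^ m) + 2 * (s : ℂ) * τ2 (N s ^ m) := by
      simp only [pow_zero, one_mul, Nat.add_sub_cancel, Nat.sub_zero]
      generalize N (s : ℂ) ^ m = R
      rw [N'_expand]
      simp only [τ1, τ2, LinearMap.comp_apply, LinearMap.mulLeft_apply, add_mul,
        smul_mul_assoc, map_add, map_smul, smul_eq_mul]
    rw [e4]
    ring

/-- `ψ_m(s) = t (X_s N_s^m)` has derivative `(m+1) φ_m + m φ_{m-1}`. -/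
lemma hasDerivAt_psi (ht : WordFun t) (m : ℕ) (s : ℝ) :
    HasDerivAt (fun s : ℝ => tF t (Xs s * N s ^ m))
      ((m + 1) * tF t (op * N s ^ m) + m * tF t (op * N s ^ (m - 1))) s := by
  let τ0 : F →ₗ[ℂ] ℂ := tF t ∘ₗ LinearMap.mulLeft ℂ X
  let τ1 : F →ₗ[ℂ] ℂ := tF t ∘ₗ LinearMap.mulLeft ℂ B
  have hs : HasDerivAt (fun s : ℝ => (s : ℂ)) 1 s := Complex.ofRealCLM.hasDerivAt
  have h := (hasDerivAt_pow m τ0 s).add (hs.mul (hasDerivAt_pow m τ1 s))
  have e1 : (fun s : ℝ => tF t (Xs s * N s ^ m)) =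
      fun s : ℝ => τ0 (N s ^ m) + (s : ℂ) * τ1 (N s ^ m) := by
    funext s
    simp only [τ0, τ1, Xs, LinearMap.comp_apply, LinearMap.mulLeft_apply, add_mul,
        smul_mul_assoc, map_add, map_smul, smul_eq_mul]
  rw [e1]
  refine h.congr_deriv ?_
  have hk := sum_key ht s m
  have e2 : ∀ i ∈ Finset.range m, tF t (Xs s * (N s ^ i * N' s * N s ^ (m - 1 - i))) =
      τ0 (N s ^ i * N' s * N s ^ (m - 1 - i)) + (s : ℂ) * τ1 (N s ^ i * N' s * N s ^ (m - 1 - i)) := by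
    intro i _
    simp only [τ0, τ1, Xs, LinearMap.comp_apply, LinearMap.mulLeft_apply, add_mul,
        smul_mul_assoc, map_add, map_smul, smul_eq_mul]
  rw [Finset.sum_congr rfl e2, Finset.sum_add_distrib, ← Finset.mul_sum] at hk
  have e3 : τ1 (N (s : ℂ) ^ m) = tF t (B * N s ^ m) := rfl
  rw [e3]
  linear_combination hk

lemma continuous_phi (m : ℕ) : Continuous (fun s : ℝ => tF t (op * N s ^ m)) := by
  refine continuous_iff_continuousAt.2 fun s => ?_
  exact (hasDerivAt_pow m (tF t ∘ₗ LinearMap.mulLeft ℂ op) s).continuousAt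

/-- `J_m = ∫₀¹ t ((a+b) N_s^m) ds`. -/
def J (t : List Lt → ℂ) (m : ℕ) : ℂ := ∫ s in (0 : ℝ)..1, tF t (op * N (s : ℂ) ^ m)

lemma Xs_zero : Xs 0 = X := by simp [Xs]
lemma Xs_one : Xs 1 = Y := by simp [Xs, B]
lemma N_zero : N 0 = X * X := by simp [N, Xs_zero]
lemma N_one : N 1 = Y * Y := by simp [N, Xs_one]

lemma tF_pow_mark (ht : WordFun t) (l : Lt) (hl : l.isMark = true) (m : ℕ) (hm : m ≠ 0) :
    tF t (gen l * (gen l * gen l) ^ m) = 0 := by
  have e : gen l * (gen l * gen l) ^ m = W (List.replicate (2 * m + 1) l) := by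
    rw [W, List.map_replicate, List.prod_replicate, pow_succ', pow_mul, sq]
  rw [e, tF_W]
  by_contra h
  have := ht.weight _ h
  have h2 : marks (List.replicate (2 * m + 1) l) = 2 * m + 1 := by
    rw [marks, List.countP_replicate]; simp [hl]
  rw [h2, List.length_replicate] at this
  omega

lemma J_rec (ht : WordFun t) (m : ℕ) :
    ((m : ℂ) + 1 + 1) * J t (m + 1) + (m + 1) * J t m = 0 := by
  have hint : ∫ s in (0 : ℝ)..1, (((m + 1 : ℕ) + 1 : ℂ) * tF t (op * N s ^ (m + 1)) +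
      ((m + 1 : ℕ) : ℂ) * tF t (op * N s ^ (m + 1 - 1))) =
      tF t (Xs (1 : ℝ) * N (1 : ℝ) ^ (m + 1)) - tF t (Xs (0 : ℝ) * N (0 : ℝ) ^ (m + 1)) := by
    refine intervalIntegral.integral_eq_sub_of_hasDerivAt
      (f := fun s : ℝ => tF t (Xs s * N s ^ (m + 1))) (fun s _ => hasDerivAt_psi ht (m + 1) s) ?_
    refine Continuous.intervalIntegrable ?_ _ _
    exact (continuous_const.mul (continuous_phi (m + 1))).add
      (continuous_const.mul (continuous_phi m))
  have e1 : tF t (Xs ((1 : ℝ) : ℂ) * N ((1 : ℝ) : ℂ) ^ (m + 1)) = 0 := by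
    rw [Complex.ofReal_one, Xs_one, N_one]
    exact tF_pow_mark ht .y rfl _ (Nat.succ_ne_zero m)
  have e0 : tF t (Xs ((0 : ℝ) : ℂ) * N ((0 : ℝ) : ℂ) ^ (m + 1)) = 0 := by
    rw [Complex.ofReal_zero, Xs_zero, N_zero]
    exact tF_pow_mark ht .x rfl _ (Nat.succ_ne_zero m)
  rw [e1, e0, sub_zero, intervalIntegral.integral_add, intervalIntegral.integral_const_mul,
    intervalIntegral.integral_const_mul] at hint
  · have : m + 1 - 1 = m := rfl
    rw [this] at hint
    simpa [J] using hint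
  · exact ((continuous_const.mul (continuous_phi (m + 1)))).intervalIntegrable _ _
  · exact ((continuous_const.mul (continuous_phi m))).intervalIntegrable _ _

lemma J_zero (ht : WordFun t) : J t 0 = t [.y] - t [.x] := by
  have h : tF t op = t [.y] - t [.x] := by
    have e : op = W [.a] + (W [.y] - W [.x]) := by simp [op, A, B, X, Y]
    rw [e, map_add, map_sub, tF_W, tF_W, tF_W]
    have : t [.a] = 0 := by
      by_contra h
      have := ht.weight _ h
      simp [marks, Lt.isMark] at this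
    rw [this, zero_add]
  simp [J, h]

lemma J_eq (ht : WordFun t) (m : ℕ) :
    ((m : ℂ) + 1) * J t m = (-1) ^ m * (t [.y] - t [.x]) := by
  induction m with
  | zero => simp [J_zero ht]
  | succ m ih =>
    have h := J_rec ht m
    push_cast
    rw [pow_succ]
    linear_combination h - ih

/-! ### Bounds -/

/-- `u` is a combination of words of length `n` with total mass at most `c`. -/
def Bd (n : ℕ) (c : ℝ) (u : F) : Prop :=
  ∀ (τ : F →ₗ[ℂ] ℂ) (C : ℝ), 0 ≤ C → (∀ w : List Lt, w.length = n → ‖τ (W w)‖ ≤ C) →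
    ‖τ u‖ ≤ c * C

lemma Bd_W (w : List Lt) : Bd w.length 1 (W w) := by
  intro τ C _ h
  simpa using h w rfl

lemma Bd_gen (l : Lt) : Bd 1 1 (gen l) := by
  have := Bd_W [l]
  simpa using this

lemma Bd.add {n : ℕ} {c d : ℝ} {u v : F} (hu : Bd n c u) (hv : Bd n d v) :
    Bd n (c + d) (u + v) := by
  intro τ C hC h
  rw [map_add, add_mul]
  exact (norm_add_le _ _).trans (add_le_add (hu τ C hC h) (hv τ C hC h))

lemma Bd.smul {n : ℕ} {c : ℝ} {u : F} (hu : Bd n c u) (z : ℂ) : Bd n (‖z‖ * c) (z • u) := by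
  intro τ C hC h
  rw [map_smul, norm_smul, mul_assoc]
  exact mul_le_mul_of_nonneg_left (hu τ C hC h) (norm_nonneg _)

lemma Bd.mono {n : ℕ} {c d : ℝ} {u : F} (hu : Bd n c u) (h : c ≤ d) : Bd n d u := by
  intro τ C hC hw
  exact (hu τ C hC hw).trans (mul_le_mul_of_nonneg_right h hC)

lemma Bd.neg {n : ℕ} {c : ℝ} {u : F} (hu : Bd n c u) : Bd n c (-u) := by
  intro τ C hC hw
  rw [map_neg, norm_neg]
  exact hu τ C hC hw

lemma Bd.mul {n m : ℕ} {c d : ℝ} {u v : F} (hc : 0 ≤ d) (hu : Bd n c u) (hv : Bd m d v) :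
    Bd (n + m) (c * d) (u * v) := by
  intro τ C hC h
  have h1 : ∀ w : List Lt, w.length = n → ‖τ (W w * v)‖ ≤ d * C := by
    intro w hw
    refine hv (τ ∘ₗ LinearMap.mulLeft ℂ (W w)) C hC ?_
    intro w' hw'
    have := h (w ++ w') (by simp [hw, hw'])
    simpa using this
  have h2 := hu (τ ∘ₗ LinearMap.mulRight ℂ v) (d * C) (mul_nonneg hc hC) (by simpa using h1)
  rw [mul_assoc]
  simpa using h2

lemma Bd_op : Bd 1 3 op := by
  have h := (Bd_gen .a).add ((Bd_gen .y).add (Bd_gen .x).neg)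
  have e : gen .a + (gen .y + - gen .x) = op := by simp [op, A, B, X, Y, sub_eq_add_neg]
  rw [e] at h
  exact h.mono (by norm_num)

lemma Bd_Q : Bd 2 5 Q := by
  have hA : Bd 1 1 A := Bd_gen .a
  have hB : Bd 1 2 B := by
    have h := (Bd_gen .y).add (Bd_gen .x).neg
    have e : gen .y + - gen .x = B := by simp [B, X, Y, sub_eq_add_neg]
    rw [e] at h
    exact h.mono (by norm_num)
  have h1 := hA.mul zero_le_one hA
  have h2 := hA.mul zero_le_two hB
  have h3 := hB.mul zero_le_one hA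
  have h := (h1.add h2).add h3
  rw [Q]
  exact h.mono (by norm_num)

lemma Bd_Xs (s : ℝ) (h0 : 0 ≤ s) (h1 : s ≤ 1) : Bd 1 1 (Xs s) := by
  have h := ((Bd_gen .x).smul (1 - s : ℂ)).add ((Bd_gen .y).smul (s : ℂ))
  have e : (1 - s : ℂ) • gen .x + (s : ℂ) • gen .y = Xs s := by
    simp only [Xs, B, X, Y, smul_sub, sub_smul, one_smul]; abel
  rw [e] at h
  refine h.mono ?_
  have e1 : ‖(1 - s : ℂ)‖ = 1 - s := by
    rw [← Complex.ofReal_one, ← Complex.ofReal_sub, Complex.norm_real, Real.norm_eq_abs,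
      abs_of_nonneg (by linarith)]
  have e2 : ‖(s : ℂ)‖ = s := by rw [Complex.norm_real, Real.norm_eq_abs, abs_of_nonneg h0]
  rw [e1, e2]; linarith

lemma Bd_N (s : ℝ) (h0 : 0 ≤ s) (h1 : s ≤ 1) : Bd 2 (9 / 4) (N s) := by
  have hX := Bd_Xs s h0 h1
  have h := ((Bd_Q.smul (-((s : ℂ) * (1 - s)))).add (hX.mul zero_le_one hX))
  refine Bd.mono h ?_
  have e1 : ‖-((s : ℂ) * (1 - s))‖ = s * (1 - s) := by
    rw [norm_neg, ← Complex.ofReal_one, ← Complex.ofReal_sub, ← Complex.ofReal_mul,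
      Complex.norm_real, Real.norm_eq_abs, abs_of_nonneg (mul_nonneg h0 (by linarith))]
  rw [e1]
  nlinarith [sq_nonneg (s - 1 / 2)]

lemma Bd_N_pow (s : ℝ) (h0 : 0 ≤ s) (h1 : s ≤ 1) (m : ℕ) :
    Bd (2 * m) ((9 / 4) ^ m) (N s ^ m) := by
  induction m with
  | zero => simpa using Bd_W []
  | succ m ih =>
    have := ih.mul (by norm_num) (Bd_N s h0 h1)
    rw [pow_succ, pow_succ]
    exact this

lemma norm_J_le (m : ℕ) {c : ℝ} (hc : 0 ≤ c) (hb : ∀ w : List Lt, w.length = 2 * m + 1 → ‖t w‖ ≤ c) :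
    ‖J t m‖ ≤ 3 * (9 / 4) ^ m * c := by
  have h : ∀ s ∈ Set.uIoc (0 : ℝ) 1, ‖tF t (op * N (s : ℂ) ^ m)‖ ≤ 3 * (9 / 4) ^ m * c := by
    intro s hs
    rw [Set.uIoc_of_le zero_le_one] at hs
    have h1 := Bd_op.mul (by positivity) (Bd_N_pow s hs.1.le hs.2 m)
    refine h1 (tF t) c hc ?_
    intro w hw
    rw [tF_W]
    exact hb w (by omega)
  have := intervalIntegral.norm_integral_le_of_norm_le_const h
  simpa [J] using this

/-- **Block A.** -/
theorem norm_sub_le (ht : WordFun t) (m : ℕ) {c : ℝ} (hc : 0 ≤ c)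
    (hb : ∀ w : List Lt, w.length = 2 * m + 1 → ‖t w‖ ≤ c) :
    ‖t [.y] - t [.x]‖ ≤ 3 * (m + 1) * (9 / 4) ^ m * c := by
  have h := J_eq ht m
  have h1 : ‖((m : ℂ) + 1) * J t m‖ = (m + 1) * ‖J t m‖ := by
    rw [norm_mul]
    congr 1
    have : ((m : ℂ) + 1) = ((m + 1 : ℕ) : ℂ) := by push_cast; rfl
    rw [this, Complex.norm_natCast]; push_cast; rfl
  have h2 : ‖(-1 : ℂ) ^ m * (t [.y] - t [.x])‖ = ‖t [.y] - t [.x]‖ := by
    rw [norm_mul, norm_pow, norm_neg, norm_one, one_pow, one_mul]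
  rw [← h2, ← h, h1]
  have h3 := norm_J_le m hc hb
  have : (0 : ℝ) ≤ m + 1 := by positivity
  calc (m + 1 : ℝ) * ‖J t m‖ ≤ (m + 1) * (3 * (9 / 4) ^ m * c) :=
        mul_le_mul_of_nonneg_left h3 this
    _ = 3 * (m + 1) * (9 / 4) ^ m * c := by ring

/-- **Block A**, limit form: a cyclic closed word functional with super-exponential decay
`‖t w‖ ≤ (K / √(m+1))^(m+1)` on words of length `2m+1` satisfies `t y = t x`. -/
theorem eq_of_bound (ht : WordFun t) (K : ℝ)
    (hb : ∀ (m : ℕ) (w : List Lt), w.length = 2 * m + 1 →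
      ‖t w‖ ≤ (K / Real.sqrt (m + 1)) ^ (m + 1)) :
    t [.y] = t [.x] := by
  have hK : ∀ (m : ℕ) (w : List Lt), w.length = 2 * m + 1 →
      ‖t w‖ ≤ (|K| / Real.sqrt (m + 1)) ^ (m + 1) := by
    intro m w hw
    refine (hb m w hw).trans ((le_abs_self _).trans ?_)
    rw [abs_pow, abs_div, abs_of_nonneg (Real.sqrt_nonneg _)]
  rw [← sub_eq_zero, ← norm_eq_zero]
  refine le_antisymm ?_ (norm_nonneg _)
  have hlim : Filter.Tendsto (fun m : ℕ => 3 * ((1 : ℝ) / 2) ^ (m + 1)) Filter.atTop (nhds 0) := by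
    have h := (tendsto_pow_atTop_nhds_zero_of_lt_one (r := (1 : ℝ) / 2) (by norm_num)
      (by norm_num)).comp (Filter.tendsto_add_atTop_nat 1)
    simpa using h.const_mul 3
  refine ge_of_tendsto hlim ?_
  obtain ⟨M, hM⟩ := exists_nat_ge ((9 * |K|) ^ 2)
  filter_upwards [Filter.eventually_ge_atTop M] with m hm
  have hm1 : (0 : ℝ) < (m : ℝ) + 1 := by positivity
  have hsq : 9 * |K| ≤ Real.sqrt (m + 1) := by
    apply Real.le_sqrt_of_sq_le
    have : (M : ℝ) ≤ m := by exact_mod_cast hm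
    linarith
  have hs0 : 0 < Real.sqrt (m + 1) := Real.sqrt_pos.2 hm1
  have hc : (0 : ℝ) ≤ (|K| / Real.sqrt (m + 1)) ^ (m + 1) := by positivity
  refine (norm_sub_le ht m hc (hK m)).trans ?_
  have h1 : ((m : ℝ) + 1) ≤ 2 ^ (m + 1) := by
    have := (Nat.lt_two_pow_self (n := m + 1)).le
    exact_mod_cast this
  have h2 : (9 / 4 : ℝ) ^ m ≤ (9 / 4) ^ (m + 1) :=
    pow_le_pow_right₀ (by norm_num) (Nat.le_succ m)
  calc 3 * ((m : ℝ) + 1) * (9 / 4) ^ m * (|K| / Real.sqrt (m + 1)) ^ (m + 1)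
      ≤ 3 * 2 ^ (m + 1) * (9 / 4) ^ (m + 1) * (|K| / Real.sqrt (m + 1)) ^ (m + 1) := by
        gcongr
    _ = 3 * ((9 * |K|) / (2 * Real.sqrt (m + 1))) ^ (m + 1) := by
        rw [mul_assoc, mul_assoc, ← mul_pow, ← mul_pow]
        congr 2
        field_simp
        ring
    _ ≤ 3 * (1 / 2) ^ (m + 1) := by
        have : (9 * |K|) / (2 * Real.sqrt (m + 1)) ≤ 1 / 2 := by
          rw [div_le_div_iff₀ (by positivity) (by norm_num)]
          linarith
        gcongr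

end

end Vale.Agent.P184.H759
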