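import Vale.Agent.P184.Ex.E1

/-!
# E4 : continuity on orthants, integrability, exchange of sums and integrals
-/

open MeasureTheory
open scoped ENNReal

namespace Vale.Agent.P184.H552

open Vale.Agent.P184.H57 Vale.Agent.P184.H57.Ker

section region

variable {G : Type*} {N : ℕ}

theorem mass_sN (c : Fin N → G) (t : Fin N → ℝ) : mass (sN c t) = ∑ l, t l := by
  unfold mass sN
  rw [← Finsupp.sum_finsetSum_index (by simp) (by simp)]
  refine Finset.sum_congr rfl fun l _ => ?_
  rw [Finsupp.sum_single_index rfl]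

theorem sN_nonneg (c : Fin N → G) {t : Fin N → ℝ} (ht : ∀ l, 0 ≤ t l) (r : G) :
    0 ≤ sN c t r := by
  classical
  unfold sN
  rw [Finsupp.finsetSum_apply]
  refine Finset.sum_nonneg fun l _ => ?_
  rw [Finsupp.single_apply]
  split_ifs
  · exact ht l
  · exact le_rfl

theorem reg_iff {κ : ℝ} (c : Fin N → G) {t : Fin N → ℝ} (ht : ∀ l, 0 ≤ t l) :
    Reg κ (sN c t) ↔ |∑ l, t l - 1| < κ := by
  unfold Reg
  rw [mass_sN]
  exact ⟨fun h => h.2, fun h => ⟨sN_nonneg c ht, h⟩⟩

theorem sN_insertNth (p : Fin (N + 1)) (c : Fin (N + 1) → G) (s : Fin N → ℝ) :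
    sN c (p.insertNth 0 s) = sN (fun k => c (p.succAbove k)) s := by
  unfold sN
  rw [Fin.sum_univ_succAbove _ p]
  simp

theorem sum_insertNth (p : Fin (N + 1)) (s : Fin N → ℝ) :
    ∑ l, (p.insertNth 0 s : Fin (N + 1) → ℝ) l = ∑ l, s l := by
  rw [Fin.sum_univ_succAbove _ p]
  simp

end region

section exch

variable {α ι : Type*} [MeasurableSpace α] {μ : Measure α}

/-- Exchange of a sum over an arbitrary index set and an integral. -/
theorem hasSum_integral {F : ι → α → ℂ} (b : ι → ℝ) (hb : Summable b) (_hb0 : ∀ i, 0 ≤ b i)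
    (φ : α → ℝ) (hφ : Integrable φ μ) (hF : ∀ i, Integrable (F i) μ)
    (hbd : ∀ᵐ t ∂μ, ∀ i, ‖F i t‖ ≤ b i * φ t) :
    HasSum (fun i => ∫ t, F i t ∂μ) (∫ t, ∑' i, F i t ∂μ) := by
  have hS : (Function.support b).Countable := hb.countable_support
  have : Countable (Function.support b) := hS.to_subtype
  have h0 : ∀ i, i ∉ Function.support b → ∫ t, F i t ∂μ = 0 := by
    intro i hi
    have hi' : b i = 0 := Function.notMem_support.1 hi
    have : (fun t => F i t) =ᵐ[μ] 0 := by
      filter_upwards [hbd] with t ht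
      have := ht i
      rw [hi', zero_mul] at this
      exact norm_le_zero_iff.1 this
    rw [integral_congr_ae this]
    simp
  have h1 : ∀ i, ∫ t, ‖F i t‖ ∂μ ≤ b i * ∫ t, φ t ∂μ := by
    intro i
    rw [← integral_const_mul]
    refine integral_mono_ae (hF i).norm (hφ.const_mul _) ?_
    filter_upwards [hbd] with t ht using ht i
  have h2 : Summable fun i : Function.support b => ∫ t, ‖F i t‖ ∂μ := by
    refine Summable.of_nonneg_of_le (fun i => integral_nonneg fun _ => norm_nonneg _)
      (fun i => h1 i) ?_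
    exact (hb.mul_right _).subtype _
  have h3 := hasSum_integral_of_summable_integral_norm (μ := μ)
    (F := fun (i : Function.support b) t => F i t) (fun i => hF i) h2
  have h4 : ∫ t, ∑' i, F i t ∂μ = ∫ t, ∑' i : Function.support b, F i t ∂μ := by
    refine integral_congr_ae ?_
    filter_upwards [hbd] with t ht
    have h5 : Function.support (fun i => F i t) ⊆ Function.support b := by
      intro i hi h6
      apply hi
      have h7 := ht i
      rw [h6, zero_mul] at h7
      exact norm_le_zero_iff.1 h7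
    exact (tsum_subtype_eq_of_support_subset h5).symm
  rw [h4]
  refine (hasSum_subtype_iff_of_support_subset ?_).1 h3
  intro i hi
  by_contra h6
  exact hi (h0 i h6)

end exch

section fib

variable {A G : Type*} {N : ℕ}

/-- reindexing a sum over tuples by one entry and the others -/
theorem summable_fib {f : A × (Fin (N + 1) → G) → ℂ} (p : Fin (N + 1)) (hf : Summable f) :
    Summable (fun z : A × (Fin N → G) => ∑' h, f (z.1, p.insertNth h z.2)) ∧
      (∀ z : A × (Fin N → G), Summable fun h => f (z.1, p.insertNth h z.2)) ∧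
      ∑' z, f z = ∑' z : A × (Fin N → G), ∑' h, f (z.1, p.insertNth h z.2) := by
  let e : (A × (Fin N → G)) × G ≃ A × (Fin (N + 1) → G) :=
    { toFun := fun z => (z.1.1, p.insertNth z.2 z.1.2)
      invFun := fun z => ((z.1, fun k => z.2 (p.succAbove k)), z.2 p)
      left_inv := by
        rintro ⟨⟨a, c⟩, h⟩
        simp
      right_inv := by
        rintro ⟨a, c⟩
        simp only [Prod.mk.injEq, true_and]
        exact Fin.insertNth_self_removeNth p c }
  have h1 : Summable fun z => f (e z) := (Equiv.summable_iff e).2 hf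
  refine ⟨h1.prod, fun z => h1.prod_factor z, ?_⟩
  rw [← Equiv.tsum_eq e]
  exact h1.tsum_prod

theorem summable_fib' {f : A × (Fin (N + 1) → G) → ℝ} (p : Fin (N + 1)) (hf : Summable f) :
    Summable (fun z : A × (Fin N → G) => ∑' h, f (z.1, p.insertNth h z.2)) ∧
      (∀ z : A × (Fin N → G), Summable fun h => f (z.1, p.insertNth h z.2)) ∧
      ∑' z, f z = ∑' z : A × (Fin N → G), ∑' h, f (z.1, p.insertNth h z.2) := by
  let e : (A × (Fin N → G)) × G ≃ A × (Fin (N + 1) → G) :=
    { toFun := fun z => (z.1.1, p.insertNth z.2 z.1.2)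
      invFun := fun z => ((z.1, fun k => z.2 (p.succAbove k)), z.2 p)
      left_inv := by
        rintro ⟨⟨a, c⟩, h⟩
        simp
      right_inv := by
        rintro ⟨a, c⟩
        simp only [Prod.mk.injEq, true_and]
        exact Fin.insertNth_self_removeNth p c }
  have h1 : Summable fun z => f (e z) := (Equiv.summable_iff e).2 hf
  refine ⟨h1.prod, fun z => h1.prod_factor z, ?_⟩
  rw [← Equiv.tsum_eq e]
  exact h1.tsum_prod

end fib

end Vale.Agent.P184.H552
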