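import Mathlib

/-!
# Block B: Pfaffians of lists of forms and marks (definitions)
-/

namespace Vale.Agent.P184.H57

variable {ι : Type*}

/-- The pairing of forms (functions on `ι`, `Sum.inl`) and marks (`Sum.inr`). -/
def pr : (ι → ℝ) ⊕ ι → (ι → ℝ) ⊕ ι → ℝ
  | .inl f, .inr i => f i
  | .inr i, .inl f => -f i
  | .inl _, .inl _ => 0
  | .inr _, .inr _ => 0

/-- The Pfaffian of a list. -/
noncomputable def Pf : List ((ι → ℝ) ⊕ ι) → ℝ
  | [] => 1
  | v :: L => ∑ k : Fin L.length, (-1 : ℝ) ^ (k : ℕ) * pr v (L.get k) * Pf (L.eraseIdx k)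
termination_by L => L.length
decreasing_by
  have := k.2
  simp only [List.length_eraseIdx, List.length_cons]
  split_ifs <;> omega

end Vale.Agent.P184.H57
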