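import Vale.Agent.P184.Ex.Pf
import Vale.Agent.P184.Ex.BDef

set_option linter.all false

/-! Block B1: the recursive Pfaffian is the exterior algebra Pfaffian; formal properties. -/

noncomputable section

namespace Vale.Agent.P184.H460

open Vale.Agent.P184.H57 (pr Pf)

variable {ι : Type*}

/-- forms and (finitely supported) combinations of marks -/
abbrev VV (ι : Type*) := (ι → ℝ) × (ι →₀ ℝ)

/-- the embedding of entries -/
def emb : (ι → ℝ) ⊕ ι → VV ι
  | .inl f => (f, 0)
  | .inr i => (0, Finsupp.single i 1)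

/-- evaluation of a mark combination at a form -/
def evF (m : ι →₀ ℝ) (f : ι → ℝ) : ℝ := m.sum fun i c => c * f i

theorem evF_add_left (m m' : ι →₀ ℝ) (f : ι → ℝ) : evF (m + m') f = evF m f + evF m' f := by
  classical
  unfold evF
  rw [Finsupp.sum_add_index']
  · intro i; simp
  · intro i a b; ring

theorem evF_smul_left (c : ℝ) (m : ι →₀ ℝ) (f : ι → ℝ) : evF (c • m) f = c * evF m f := by
  unfold evF
  rw [Finsupp.sum_smul_index']
  · simp only [Finsupp.sum, Finset.mul_sum, smul_eq_mul, mul_assoc]
  · intro i; simp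

theorem evF_add_right (m : ι →₀ ℝ) (f g : ι → ℝ) : evF m (f + g) = evF m f + evF m g := by
  unfold evF
  simp only [Finsupp.sum, Pi.add_apply, mul_add, Finset.sum_add_distrib]

theorem evF_smul_right (c : ℝ) (m : ι →₀ ℝ) (f : ι → ℝ) : evF m (c • f) = c * evF m f := by
  unfold evF
  simp only [Finsupp.sum, Pi.smul_apply, smul_eq_mul, Finset.mul_sum]
  refine Finset.sum_congr rfl fun i _ => by ring

theorem evF_single (i : ι) (f : ι → ℝ) : evF (Finsupp.single i 1) f = f i := by
  unfold evF
  rw [Finsupp.sum_single_index (by simp), one_mul]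

theorem evF_zero_left (f : ι → ℝ) : evF (0 : ι →₀ ℝ) f = 0 := by simp [evF]

theorem evF_zero_right (m : ι →₀ ℝ) : evF m (0 : ι → ℝ) = 0 := by simp [evF]

/-- the alternating pairing -/
def BB (ι : Type*) : LinearMap.BilinForm ℝ (VV ι) :=
  LinearMap.mk₂ ℝ (fun v w => evF w.2 v.1 - evF v.2 w.1)
    (fun v v' w => by
      simp only [Prod.fst_add, Prod.snd_add, evF_add_left, evF_add_right]; ring)
    (fun c v w => by
      simp only [Prod.smul_fst, Prod.smul_snd, evF_smul_left, evF_smul_right, smul_eq_mul]; ring)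
    (fun v w w' => by
      simp only [Prod.fst_add, Prod.snd_add, evF_add_left, evF_add_right]; ring)
    (fun c v w => by
      simp only [Prod.smul_fst, Prod.smul_snd, evF_smul_left, evF_smul_right, smul_eq_mul]; ring)

theorem BB_apply (v w : VV ι) : BB ι v w = evF w.2 v.1 - evF v.2 w.1 := rfl

theorem BB_alt : (BB ι).IsAlt := fun v => by rw [BB_apply]; ring

theorem BB_emb (v w : (ι → ℝ) ⊕ ι) : BB ι (emb v) (emb w) = pr v w := by
  rcases v with f | i <;> rcases w with g | j <;>
    simp [BB_apply, emb, pr, evF_single, evF_zero_left, evF_zero_right]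

/-- the recursion of the skeleton -/
theorem Pf_nil' : Pf ([] : List ((ι → ℝ) ⊕ ι)) = 1 := by rw [Pf]

theorem Pf_cons' (v : (ι → ℝ) ⊕ ι) (L : List ((ι → ℝ) ⊕ ι)) : Pf (v :: L) =
    ∑ k : Fin L.length, (-1 : ℝ) ^ (k : ℕ) * pr v (L.get k) * Pf (L.eraseIdx k) := by rw [Pf]

theorem eraseIdx_map' {α β : Type*} (g : α → β) (L : List α) (k : ℕ) :
    (L.map g).eraseIdx k = (L.eraseIdx k).map g := by
  induction L generalizing k with
  | nil => simp
  | cons a L ih =>
      cases k with
      | zero => simp
      | succ k => simp [ih]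

theorem Pf_eq_pf (L : List ((ι → ℝ) ⊕ ι)) : Pf L = pf (BB ι) BB_alt (L.map emb) := by
  induction h : L.length using Nat.strong_induction_on generalizing L with
  | _ n ih =>
    cases L with
    | nil => rw [Pf_nil', List.map_nil, pf_nil]
    | cons v L =>
        rw [Pf_cons', List.map_cons, pf_cons]
        refine Fintype.sum_equiv (finCongr (by simp)) _ _ fun k => ?_
        have hk : (finCongr (by simp : L.length = (L.map emb).length) k : ℕ) = k := rfl
        have hg : (L.map emb).get (finCongr (by simp) k) = emb (L.get k) := by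
          simp
        rw [hg, BB_emb, hk, eraseIdx_map']
        congr 1
        refine ih (L.eraseIdx k).length ?_ _ rfl
        have := k.2
        rw [← h, List.length_cons, List.length_eraseIdx]
        split_ifs <;> omega

/-! ### formal properties -/

theorem pf_swap_aux {V : Type*} [AddCommGroup V] [Module ℝ V] (B : LinearMap.BilinForm ℝ V)
    (hB : B.IsAlt) (A D : List V) (v w : V) :
    pf B hB (A ++ v :: w :: D) = - pf B hB (A ++ w :: v :: D) := by
  rw [pf_eq, pf_eq, wd_append, wd_append, wd_cons, wd_cons, wd_cons, wd_cons, ← mul_assoc,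
    ← mul_assoc, ← mul_assoc, ← mul_assoc, mul_assoc (wd A), iota_swap v w, mul_neg, neg_mul,
    map_neg, ← mul_assoc]

theorem pf_move_aux {V : Type*} [AddCommGroup V] [Module ℝ V] (B : LinearMap.BilinForm ℝ V)
    (hB : B.IsAlt) (A C D : List V) (v : V) :
    pf B hB (A ++ v :: (C ++ D)) = (-1) ^ C.length * pf B hB (A ++ C ++ v :: D) := by
  rw [pf_eq, pf_eq, wd_append, wd_append, wd_cons, wd_cons, wd_append, wd_append, ← mul_assoc,
    ← mul_assoc, mul_assoc (wd A), iota_wd]
  simp only [mul_smul_comm, smul_mul_assoc, map_smul, smul_eq_mul, mul_assoc]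

theorem pf_dup_aux {V : Type*} [AddCommGroup V] [Module ℝ V] (B : LinearMap.BilinForm ℝ V)
    (hB : B.IsAlt) (A C D : List V) (v : V) :
    pf B hB (A ++ v :: (C ++ v :: D)) = 0 := by
  rw [pf_move_aux, pf_eq, wd_append, wd_cons, wd_cons, ← mul_assoc (ExteriorAlgebra.ι ℝ v),
    iota_sq, zero_mul, mul_zero, map_zero, mul_zero]

/-- Antisymmetry. -/
theorem Pf_swap (A B : List ((ι → ℝ) ⊕ ι)) (v w : (ι → ℝ) ⊕ ι) :
    Pf (A ++ v :: w :: B) = -Pf (A ++ w :: v :: B) := by
  simp only [Pf_eq_pf, List.map_append, List.map_cons]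
  exact pf_swap_aux _ _ _ _ _ _

/-- Moving an entry. -/
theorem Pf_move (A B D : List ((ι → ℝ) ⊕ ι)) (v : (ι → ℝ) ⊕ ι) :
    Pf (A ++ v :: (B ++ D)) = (-1) ^ B.length * Pf (A ++ B ++ v :: D) := by
  simp only [Pf_eq_pf, List.map_append, List.map_cons]
  rw [pf_move_aux, List.length_map]

/-- Equal entries. -/
theorem Pf_dup (A B D : List ((ι → ℝ) ⊕ ι)) (v : (ι → ℝ) ⊕ ι) :
    Pf (A ++ v :: B ++ v :: D) = 0 := by
  simp only [Pf_eq_pf, List.map_append, List.map_cons]
  rw [List.append_assoc, List.cons_append, pf_dup_aux]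

/-- The Pfaffian depends only on the pairings: reindexing of the marks, restriction of the
forms. -/
theorem Pf_map {ι' : Type*} (φ : (ι → ℝ) ⊕ ι → (ι' → ℝ) ⊕ ι') (L : List ((ι → ℝ) ⊕ ι))
    (h : ∀ v ∈ L, ∀ w ∈ L, pr (φ v) (φ w) = pr v w) : Pf (L.map φ) = Pf L := by
  induction hn : L.length using Nat.strong_induction_on generalizing L with
  | _ n ih =>
    cases L with
    | nil => rw [List.map_nil, Pf_nil', Pf_nil']
    | cons v L =>
        rw [List.map_cons, Pf_cons', Pf_cons']
        symm
        refine Fintype.sum_equiv (finCongr (by simp)) _ _ fun k => ?_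
        have hk : (finCongr (by simp : L.length = (L.map φ).length) k : ℕ) = k := rfl
        have hg : (L.map φ).get (finCongr (by simp) k) = φ (L.get k) := by
          simp
        rw [hg, hk, eraseIdx_map', h v (by simp) (L.get k) (by simp)]
        congr 1
        symm
        refine ih (L.eraseIdx k).length ?_ _ ?_ rfl
        · have := k.2
          rw [← hn, List.length_cons, List.length_eraseIdx]
          split_ifs <;> omega
        · intro a ha b hb
          exact h a (List.mem_cons_of_mem _ ((List.eraseIdx_sublist _ _).subset ha)) b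
            (List.mem_cons_of_mem _ ((List.eraseIdx_sublist _ _).subset hb))

end Vale.Agent.P184.H460
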