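import Vale.Agent.P184.Ex.B1

set_option linter.all false

/-! Block B, second part: parity, counting, linearity, expansion along a mark, Hadamard bound. -/

noncomputable section

namespace Vale.Agent.P184.H460

open Vale.Agent.P184.H57 (pr Pf)

variable {ι : Type*}

/-- Odd length. -/
theorem Pf_odd (L : List ((ι → ℝ) ⊕ ι)) (h : Odd L.length) : Pf L = 0 := by
  induction hn : L.length using Nat.strong_induction_on generalizing L with
  | _ n ih =>
    cases L with
    | nil => simp at h
    | cons v L =>
        rw [Pf_cons']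
        refine Finset.sum_eq_zero fun k _ => ?_
        have hk := k.2
        have hl : (L.eraseIdx k).length = L.length - 1 := by
          rw [List.length_eraseIdx, if_pos hk]
        rw [ih (L.eraseIdx k).length ?_ _ ?_ rfl, mul_zero]
        · rw [← hn, List.length_cons, hl]; omega
        · rw [hl]
          rw [List.length_cons] at h
          obtain ⟨m, hm⟩ := h
          exact ⟨m - 1, by omega⟩

theorem count_erase {α : Type*} (p : α → Bool) (L : List α) (k : Fin L.length) :
    L.countP p = (L.eraseIdx k).countP p + (if p (L.get k) then 1 else 0) := by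
  have h := (List.getElem_cons_eraseIdx_perm k.2).countP_eq p
  rw [← h, List.countP_cons]
  rfl

/-- The numbers of forms and marks agree. -/
theorem Pf_count (L : List ((ι → ℝ) ⊕ ι)) (h : L.countP (·.isLeft) ≠ L.countP (·.isRight)) :
    Pf L = 0 := by
  induction hn : L.length using Nat.strong_induction_on generalizing L with
  | _ n ih =>
    cases L with
    | nil => simp at h
    | cons v L =>
        rw [Pf_cons']
        refine Finset.sum_eq_zero fun k _ => ?_
        have hk := k.2
        have hl : (L.eraseIdx k).length = L.length - 1 := by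
          rw [List.length_eraseIdx, if_pos hk]
        by_cases hp : pr v (L.get k) = 0
        · rw [hp, mul_zero, zero_mul]
        · rw [ih (L.eraseIdx k).length ?_ _ ?_ rfl, mul_zero]
          · rw [← hn, List.length_cons, hl]; omega
          · intro he
            apply h
            rw [List.countP_cons, List.countP_cons, count_erase _ L k, count_erase _ L k]
            rcases v with f | i <;> rcases hw : L.get k with g | j <;> rw [hw] at hp <;>
              simp [pr] at hp ⊢ <;> omega

theorem pf_slot_sum {V : Type*} [AddCommGroup V] [Module ℝ V] (B : LinearMap.BilinForm ℝ V)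
    (hB : B.IsAlt) {κ : Type*} (s : Finset κ) (c : κ → ℝ) (f : κ → V) (A D : List V) :
    pf B hB (A ++ (∑ k ∈ s, c k • f k) :: D) = ∑ k ∈ s, c k * pf B hB (A ++ f k :: D) := by
  simp only [pf_eq, wd_append, wd_cons, map_sum, map_smul, Finset.sum_mul, Finset.mul_sum,
    smul_mul_assoc, mul_smul_comm, smul_eq_mul]

/-- Linearity in the forms. -/
theorem Pf_sum {κ : Type*} (s : Finset κ) (c : κ → ℝ) (f : κ → ι → ℝ)
    (A B : List ((ι → ℝ) ⊕ ι)) :
    Pf (A ++ .inl (fun i => ∑ k ∈ s, c k * f k i) :: B) =
      ∑ k ∈ s, c k * Pf (A ++ .inl (f k) :: B) := by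
  simp only [Pf_eq_pf, List.map_append, List.map_cons]
  rw [← pf_slot_sum]
  congr 3
  apply Prod.ext
  · funext i
    simp [emb, Prod.fst_sum, Finset.sum_apply]
  · simp [emb, Prod.snd_sum]

/-- Expansion along the indicator of `i`, if `i` is a mark occurring exactly once. -/
theorem Pf_single [DecidableEq ι] (A B : List ((ι → ℝ) ⊕ ι)) (i : ι)
    (hA : .inr i ∉ A) (hB : .inr i ∉ B) :
    Pf (.inl (Pi.single i 1) :: (A ++ .inr i :: B)) = (-1) ^ A.length * Pf (A ++ B) := by
  rw [Pf_cons']
  have hlen : A.length < (A ++ .inr i :: B).length := by simp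
  rw [Finset.sum_eq_single (⟨A.length, hlen⟩ : Fin (A ++ .inr i :: B).length)]
  · have h1 : (A ++ (.inr i : (ι → ℝ) ⊕ ι) :: B).get ⟨A.length, hlen⟩ = .inr i := by
      simp
    have h2 : (A ++ (.inr i : (ι → ℝ) ⊕ ι) :: B).eraseIdx A.length = A ++ B := by
      rw [List.eraseIdx_append_of_length_le le_rfl]
      simp
    rw [h1]
    simp only [h2, pr, Pi.single_eq_same, mul_one]
  · intro k _ hk
    have hk' : (k : ℕ) ≠ A.length := fun h => hk (Fin.ext h)
    have hmem : (A ++ (.inr i : (ι → ℝ) ⊕ ι) :: B).get k ∈ A ++ B := by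
      rw [List.get_eq_getElem]
      have hkl : (k : ℕ) < A.length + (B.length + 1) := by
        have := k.2
        simpa using this
      rw [List.mem_append]
      rcases lt_or_ge (k : ℕ) A.length with h | h
      · left
        rw [List.getElem_append_left h]
        exact List.getElem_mem _
      · right
        rw [List.getElem_append_right h]
        obtain ⟨m, hm⟩ : ∃ m, (k : ℕ) - A.length = m + 1 := ⟨(k : ℕ) - A.length - 1, by omega⟩
        simp only [hm, List.getElem_cons_succ]
        exact List.getElem_mem _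
    have hz : pr (.inl (Pi.single i 1)) ((A ++ (.inr i : (ι → ℝ) ⊕ ι) :: B).get k) = 0 := by
      rcases hw : (A ++ (.inr i : (ι → ℝ) ⊕ ι) :: B).get k with f | j
      · rfl
      · rw [hw] at hmem
        have hj : j ≠ i := by
          rintro rfl
          rcases List.mem_append.1 hmem with h | h
          · exact hA h
          · exact hB h
        simp [pr, hj]
    rw [hz]
    ring
  · intro h
    exact absurd (Finset.mem_univ _) h

/-! ### the determinant bound -/

theorem abs_Pf_perm_aux {L L' : List ((ι → ℝ) ⊕ ι)} (h : L.Perm L') :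
    ∀ A : List ((ι → ℝ) ⊕ ι), |Pf (A ++ L)| = |Pf (A ++ L')| := by
  induction h with
  | nil => intro A; rfl
  | cons x _ ih =>
      intro A
      have := ih (A ++ [x])
      simpa [List.append_assoc] using this
  | swap x y l =>
      intro A
      rw [Pf_swap, abs_neg]
  | trans _ _ ih1 ih2 =>
      intro A
      rw [ih1 A, ih2 A]

theorem abs_Pf_perm {L L' : List ((ι → ℝ) ⊕ ι)} (h : L.Perm L') : |Pf L| = |Pf L'| :=
  abs_Pf_perm_aux h []

theorem eraseIdx_ofFn {α : Type*} {n : ℕ} (f : Fin (n + 1) → α) (b : Fin (n + 1)) :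
    (List.ofFn f).eraseIdx b = List.ofFn (fun j => f (b.succAbove j)) := by
  apply List.ext_getElem
  · rw [List.length_eraseIdx]
    simp [b.2]
  · intro m h1 h2
    rw [List.getElem_eraseIdx]
    simp only [List.getElem_ofFn]
    have hm : m < n := by simpa using h2
    split_ifs with h
    · congr 1
      apply Fin.ext
      rw [Fin.succAbove_of_castSucc_lt _ _ (by rw [Fin.lt_def]; exact h)]
      rfl
    · congr 1
      apply Fin.ext
      rw [Fin.succAbove_of_le_castSucc _ _ (by rw [Fin.le_def]; simpa using h)]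
      rfl

theorem Pf_det (n : ℕ) : ∃ s : ℝ, |s| = 1 ∧ ∀ (F : Fin n → ι → ℝ) (M : Fin n → ι),
    Pf (List.ofFn (fun a => (.inl (F a) : (ι → ℝ) ⊕ ι)) ++ List.ofFn (fun b => .inr (M b))) =
      s * (Matrix.of fun a b => F a (M b)).det := by
  induction n with
  | zero => exact ⟨1, by simp, fun F M => by simp [Pf_nil']⟩
  | succ n ih =>
      obtain ⟨s, hs, h⟩ := ih
      refine ⟨(-1) ^ n * s, by rw [abs_mul, hs]; simp, fun F M => ?_⟩
      rw [List.ofFn_succ, List.cons_append, Pf_cons']
      set L1 : List ((ι → ℝ) ⊕ ι) := List.ofFn (fun a : Fin n => .inl (F a.succ)) with hL1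
      set L2 : List ((ι → ℝ) ⊕ ι) := List.ofFn (fun b : Fin (n + 1) => .inr (M b)) with hL2
      have hl1 : L1.length = n := by simp [hL1]
      have hl2 : L2.length = n + 1 := by simp [hL2]
      have hlen : n + (n + 1) = (L1 ++ L2).length := by rw [List.length_append, hl1, hl2]
      rw [← (finCongr hlen).sum_comp, Fin.sum_univ_add]
      have hA : ∀ k : Fin n, (-1 : ℝ) ^ ((finCongr hlen (Fin.castAdd (n + 1) k) : Fin _) : ℕ) *
          pr (.inl (F 0)) ((L1 ++ L2).get (finCongr hlen (Fin.castAdd (n + 1) k))) *
          Pf ((L1 ++ L2).eraseIdx ((finCongr hlen (Fin.castAdd (n + 1) k) : Fin _) : ℕ)) = 0 := by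
        intro k
        have : (L1 ++ L2).get (finCongr hlen (Fin.castAdd (n + 1) k)) = .inl (F k.succ) := by
          rw [List.get_eq_getElem]
          simp only [finCongr_apply, Fin.val_cast, Fin.val_castAdd]
          rw [List.getElem_append_left (by rw [hl1]; exact k.2)]
          simp [hL1]
        rw [this]
        simp [pr]
      have hB : ∀ k : Fin (n + 1), (-1 : ℝ) ^ ((finCongr hlen (Fin.natAdd n k) : Fin _) : ℕ) *
          pr (.inl (F 0)) ((L1 ++ L2).get (finCongr hlen (Fin.natAdd n k))) *
          Pf ((L1 ++ L2).eraseIdx ((finCongr hlen (Fin.natAdd n k) : Fin _) : ℕ)) =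
          ((-1) ^ n * s) * ((-1) ^ (k : ℕ) * (Matrix.of fun a b => F a (M b)) 0 k *
            ((Matrix.of fun a b => F a (M b)).submatrix Fin.succ k.succAbove).det) := by
        intro k
        have h1 : (L1 ++ L2).get (finCongr hlen (Fin.natAdd n k)) = .inr (M k) := by
          rw [List.get_eq_getElem]
          simp only [finCongr_apply, Fin.val_cast, Fin.val_natAdd]
          rw [List.getElem_append_right (by rw [hl1]; omega)]
          simp only [hL2, List.getElem_ofFn, hl1]
          congr 2
          apply Fin.ext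
          simp
        have h2 : ((finCongr hlen (Fin.natAdd n k) : Fin _) : ℕ) = n + k := rfl
        have h3 : (L1 ++ L2).eraseIdx (n + k) =
            L1 ++ List.ofFn (fun b => .inr ((fun b => M (k.succAbove b)) b)) := by
          rw [List.eraseIdx_append_of_length_le (by rw [hl1]; omega), hl1, Nat.add_sub_cancel_left,
            hL2, eraseIdx_ofFn]
        rw [h1, h2, h3, hL1, h (fun a => F a.succ) (fun b => M (k.succAbove b))]
        simp only [pr, Matrix.of_apply]
        have h4 : (Matrix.of fun a b => F (Fin.succ a) (M (k.succAbove b))) =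
            (Matrix.of fun a b => F a (M b)).submatrix Fin.succ k.succAbove := rfl
        rw [h4, pow_add]
        ring
      rw [Finset.sum_eq_zero (fun k _ => hA k), zero_add, Finset.sum_congr rfl (fun k _ => hB k),
        ← Finset.mul_sum, ← Matrix.det_succ_row_zero]

/-- Hadamard's inequality. -/
theorem hadamard {n : ℕ} (M : Matrix (Fin n) (Fin n) ℝ) :
    |M.det| ≤ ∏ i, √(∑ j, M i j ^ 2) := by
  classical
  have : Fact (Module.finrank ℝ (EuclideanSpace ℝ (Fin n)) = n) := ⟨by simp⟩
  set b := EuclideanSpace.basisFun (Fin n) ℝ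
  set o := b.toBasis.orientation
  have h := o.abs_volumeForm_apply_le fun i => (WithLp.toLp 2 (M i) : EuclideanSpace ℝ (Fin n))
  rw [o.volumeForm_robust b rfl] at h
  have h1 : b.toBasis.det (fun i => (WithLp.toLp 2 (M i) : EuclideanSpace ℝ (Fin n))) = M.det := by
    rw [Module.Basis.det_apply, ← Matrix.det_transpose]
    congr 1
  rw [h1] at h
  refine h.trans (le_of_eq (Finset.prod_congr rfl fun i _ => ?_))
  rw [EuclideanSpace.norm_eq]
  congr 1
  exact Finset.sum_congr rfl fun j _ => by simp

theorem det_bound {n : ℕ} (M : Matrix (Fin n) (Fin n) ℝ) (h : ∀ i j, |M i j| ≤ 1) :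
    |M.det| ≤ (n : ℝ) ^ ((n : ℝ) / 2) := by
  refine (hadamard M).trans ?_
  have h1 : ∀ i ∈ Finset.univ, √(∑ j, M i j ^ 2) ≤ √(n : ℝ) := by
    intro i _
    apply Real.sqrt_le_sqrt
    have : ∀ j ∈ Finset.univ, M i j ^ 2 ≤ (1 : ℝ) := fun j _ => by
      rw [← sq_abs]
      exact pow_le_one₀ (abs_nonneg _) (h i j)
    refine (Finset.sum_le_sum this).trans ?_
    simp
  refine (Finset.prod_le_prod (fun i _ => Real.sqrt_nonneg _) h1).trans (le_of_eq ?_)
  rw [Finset.prod_const, Finset.card_univ, Fintype.card_fin, Real.sqrt_eq_rpow,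
    ← Real.rpow_natCast, ← Real.rpow_mul (Nat.cast_nonneg n)]
  congr 1
  ring

theorem exists_split (L : List ((ι → ℝ) ⊕ ι)) : ∃ (F : List (ι → ℝ)) (M : List ι),
    L.Perm (F.map .inl ++ M.map .inr) := by
  induction L with
  | nil => exact ⟨[], [], by simp⟩
  | cons v L ih =>
      obtain ⟨F, M, h⟩ := ih
      rcases v with f | i
      · exact ⟨f :: F, M, by simpa using h.cons (.inl f)⟩
      · refine ⟨F, i :: M, ?_⟩
        refine (h.cons (.inr i)).trans ?_
        rw [List.map_cons]
        exact List.perm_middle.symm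

/-- Weak form of the Hadamard inequality: `n` forms with values bounded by `1`. -/
theorem Pf_bound (L : List ((ι → ℝ) ⊕ ι)) (n : ℕ) (hn : L.length = 2 * n)
    (h : ∀ f : ι → ℝ, .inl f ∈ L → ∀ i : ι, .inr i ∈ L → |f i| ≤ 1) :
    |Pf L| ≤ (n : ℝ) ^ ((n : ℝ) / 2) := by
  obtain ⟨F, M, hp⟩ := exists_split L
  rw [abs_Pf_perm hp]
  have hlen : F.length + M.length = 2 * n := by
    rw [← hn, hp.length_eq]; simp
  by_cases hFM : F.length = M.length
  · have hF : F.length = n := by omega
    have hM : M.length = n := by omega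
    subst hF
    obtain ⟨s, hs, hd⟩ := Pf_det (ι := ι) F.length
    have e1 : F.map (Sum.inl : (ι → ℝ) → (ι → ℝ) ⊕ ι) =
        List.ofFn (fun a => (.inl (F.get a) : (ι → ℝ) ⊕ ι)) := by
      apply List.ext_getElem <;> simp
    have e2 : M.map (Sum.inr : ι → (ι → ℝ) ⊕ ι) =
        List.ofFn (fun b : Fin F.length => (.inr (M.get (b.cast hFM)) : (ι → ℝ) ⊕ ι)) := by
      apply List.ext_getElem
      · simp [hM]
      · simp
    rw [e1, e2, hd, abs_mul, hs, one_mul]
    apply det_bound
    intro a b
    simp only [Matrix.of_apply]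
    apply h
    · apply hp.mem_iff.2
      simp
    · apply hp.mem_iff.2
      simp
  · rw [Pf_count, abs_zero]
    · positivity
    · simp only [List.countP_append, List.countP_map]
      have c1 : List.countP ((fun x : (ι → ℝ) ⊕ ι => x.isLeft) ∘ Sum.inl) F = F.length := by
        rw [List.countP_eq_length]; simp
      have c2 : List.countP ((fun x : (ι → ℝ) ⊕ ι => x.isLeft) ∘ Sum.inr) M = 0 := by
        rw [List.countP_eq_zero]; simp
      have c3 : List.countP ((fun x : (ι → ℝ) ⊕ ι => x.isRight) ∘ Sum.inl) F = 0 := by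
        rw [List.countP_eq_zero]; simp
      have c4 : List.countP ((fun x : (ι → ℝ) ⊕ ι => x.isRight) ∘ Sum.inr) M = M.length := by
        rw [List.countP_eq_length]; simp
      rw [c1, c2, c3, c4]
      omega

end Vale.Agent.P184.H460
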