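import Vale.Agent.P184.Ex.E1

/-!
# Chains, bounds of the word kernels, unfolding
-/

open MeasureTheory
open scoped ENNReal

namespace Vale.Agent.P184.H57

open Ker

set_option linter.unusedSectionVars false

namespace TData

variable {G R : Type*} [Group G] [NormedRing R] [NormOneClass R] [NormedAlgebra ℂ R]
  [CompleteSpace R] (D : TData G R) (ψ : Bump D.κ)

/-- The enlarged majorant. -/
noncomputable def b2 (g : G) : ℝ := D.b g + cv D.b D.b g

theorem cv_nonneg (g : G) : 0 ≤ cv D.b D.b g :=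
  (cv_summable D.b_nonneg D.b_nonneg D.b_sum D.b_sum).2.1 g

theorem b2_nonneg (g : G) : 0 ≤ D.b2 g := add_nonneg (D.b_nonneg g) (D.cv_nonneg g)

theorem b_le_b2 (g : G) : D.b g ≤ D.b2 g := le_add_of_nonneg_right (D.cv_nonneg g)

theorem cv_le_b2 (g : G) : cv D.b D.b g ≤ D.b2 g := le_add_of_nonneg_left (D.b_nonneg g)

/-- The constant of the letters. -/
noncomputable def CM : ℝ := max 1 D.CB

theorem one_le_CM : 1 ≤ D.CM := le_max_left _ _

theorem CM_pos : 0 < D.CM := lt_of_lt_of_le one_pos D.one_le_CM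

/-- The left part of a letter. -/
noncomputable def lA (s : G →₀ ℝ) (l : Lt) : Ker G R :=
  match l with
  | .x => D.E0
  | .y => D.V s
  | .a => D.V s

/-- The right part of a letter. -/
noncomputable def lB (s : G →₀ ℝ) (l : Lt) (u : Option D.E) : Ker G R :=
  match l, u with
  | .x, none => D.E0
  | .y, none => D.U s
  | .a, some v => diag (D.B v s) * D.E0
  | _, _ => 0

theorem lk_eq (s : G →₀ ℝ) (l : Lt) (c : G) (u : Option D.E) :
    D.lk s l c u = D.lA s l * dl c * D.lB s l u := by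
  cases l <;> cases u <;> simp [lk, lA, lB, mul_assoc]

theorem maj_zero {b : G → ℝ} (hb : ∀ g, 0 ≤ b g) : Maj (0 : Ker G R) b := by
  intro g
  have : (0 : Ker G R).co g = 0 := rfl
  rw [this, norm_zero]
  exact hb g

theorem norm_e_le_maj {k : Ker G R} {b : G → ℝ} (h : Maj k b) (p p' : G) :
    ‖k.e p p'‖ ≤ b (p⁻¹ * p') := (k.norm_e_le p p').trans (h _)

theorem lA_maj (s : G →₀ ℝ) (l : Lt) : Maj (D.lA s l) D.b := by
  cases l
  · exact D.V_maj s
  · exact D.E0_maj
  · exact D.V_maj s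

theorem maj_of_e {k : Ker G R} {b : G → ℝ} (hb : ∀ g, 0 ≤ b g)
    (h : ∀ p p', ‖k.e p p'‖ ≤ b (p⁻¹ * p')) : Maj k b := by
  intro g
  refine lp.norm_le_of_forall_le (hb g) fun p => ?_
  have h1 := h p (p * g)
  have h2 : p⁻¹ * (p * g) = g := by group
  unfold Ker.e at h1
  rw [h2] at h1
  exact h1

theorem maj_diag_mul {F : Li G R} {C : ℝ} (hF : ‖F‖ ≤ C) {k : Ker G R} {b : G → ℝ}
    (hk : Maj k b) : Maj (diag F * k) fun g => C * b g := by
  have hC : 0 ≤ C := (norm_nonneg _).trans hF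
  have hb : ∀ g, 0 ≤ b g := fun g => (norm_nonneg _).trans (hk g)
  refine maj_of_e (fun g => mul_nonneg hC (hb g)) fun p p' => ?_
  rw [diag_mul_e]
  refine (norm_mul_le _ _).trans ?_
  exact mul_le_mul ((lp.norm_apply_le_norm ENNReal.top_ne_zero F p).trans hF)
    (norm_e_le_maj hk p p') (norm_nonneg _) hC

theorem lB_maj (s : G →₀ ℝ) (hs : Reg D.κ s) (l : Lt) (u : Option D.E) :
    Maj (D.lB s l u) fun g => D.CM * D.b g := by
  have h0 : ∀ g, 0 ≤ D.CM * D.b g := fun g => mul_nonneg D.CM_pos.le (D.b_nonneg g)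
  have h1 : ∀ {k : Ker G R}, Maj k D.b → Maj k fun g => D.CM * D.b g := fun hk g =>
    (hk g).trans (le_mul_of_one_le_left (D.b_nonneg g) D.one_le_CM)
  cases l <;> cases u
  · exact maj_zero h0
  · exact maj_diag_mul ((D.B_bd _ s hs).trans (le_max_right _ _)) D.E0_maj
  · exact h1 D.E0_maj
  · exact maj_zero h0
  · exact h1 (D.U_maj s hs)
  · exact maj_zero h0

/-- Chains of majorants. -/
noncomputable def cn (p : G) : List G → G → ℝ
  | [], p' => D.b2 (p⁻¹ * p')
  | c :: L, p' => D.b2 (p⁻¹ * c) * cn c L p'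

theorem cn_nonneg (p : G) (L : List G) (p' : G) : 0 ≤ D.cn p L p' := by
  induction L generalizing p with
  | nil => exact D.b2_nonneg _
  | cons c L ih => exact mul_nonneg (D.b2_nonneg _) (ih c)

/-- The kernel of a word, on lists. -/
noncomputable def kL (s : G →₀ ℝ) (L : List (Lt × G × Option D.E)) : Ker G R :=
  (L.map fun z => D.lk s z.1 z.2.1 z.2.2).prod

theorem kL_bound_aux (s : G →₀ ℝ) (hs : Reg D.κ s) (L : List (Lt × G × Option D.E))
    (K : Ker G R) (M : ℝ) (hM : 0 ≤ M) (hK : Maj K fun g => M * D.b g) (p p' : G) :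
    ‖(K * D.kL s L).e p p'‖ ≤ M * D.CM ^ L.length * D.cn p (L.map fun z => z.2.1) p' := by
  induction L generalizing K M p with
  | nil =>
    simp only [kL, List.map_nil, List.prod_nil, mul_one, List.length_nil, pow_zero, cn]
    exact (norm_e_le_maj hK p p').trans (mul_le_mul_of_nonneg_left (D.b_le_b2 _) hM)
  | cons z L ih =>
    have h1 : K * D.kL s (z :: L) = (K * D.lA s z.1) * dl z.2.1 * (D.lB s z.1 z.2.2 * D.kL s L) := by
      simp only [kL, List.map_cons, List.prod_cons, lk_eq, mul_assoc]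
    rw [h1, mul_dl_mul_e]
    refine (norm_mul_le _ _).trans ?_
    have h2 : ‖(K * D.lA s z.1).e p z.2.1‖ ≤ M * D.b2 (p⁻¹ * z.2.1) := by
      have h3 := Maj.mul hK (D.lA_maj s z.1) (D.b_sum.mul_left M) D.b_sum
      refine (norm_e_le_maj h3 _ _).trans ?_
      have h4 : cv (fun g => M * D.b g) D.b (p⁻¹ * z.2.1) = M * cv D.b D.b (p⁻¹ * z.2.1) := by
        simp only [cv, mul_assoc, tsum_mul_left]
      rw [h4]
      exact mul_le_mul_of_nonneg_left (D.cv_le_b2 _) hM
    have h5 := ih (D.lB s z.1 z.2.2) D.CM D.CM_pos.le (D.lB_maj s hs _ _) z.2.1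
    refine (mul_le_mul h2 h5 (norm_nonneg _) (mul_nonneg hM (D.b2_nonneg _))).trans (le_of_eq ?_)
    simp only [List.length_cons, List.map_cons, cn, pow_succ]
    ring

theorem kL_bound (s : G →₀ ℝ) (hs : Reg D.κ s) (z : Lt × G × Option D.E)
    (L : List (Lt × G × Option D.E)) (p p' : G) :
    ‖(D.kL s (z :: L)).e p p'‖ ≤
      D.CM ^ (L.length + 1) * D.cn p (z.2.1 :: L.map fun z => z.2.1) p' := by
  have h1 : D.kL s (z :: L) = D.lA s z.1 * dl z.2.1 * (D.lB s z.1 z.2.2 * D.kL s L) := by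
    simp only [kL, List.map_cons, List.prod_cons, lk_eq, mul_assoc]
  rw [h1, mul_dl_mul_e]
  refine (norm_mul_le _ _).trans ?_
  have h2 : ‖(D.lA s z.1).e p z.2.1‖ ≤ D.b2 (p⁻¹ * z.2.1) :=
    (norm_e_le_maj (D.lA_maj s z.1) _ _).trans (D.b_le_b2 _)
  have h5 := D.kL_bound_aux s hs L (D.lB s z.1 z.2.2) D.CM D.CM_pos.le (D.lB_maj s hs _ _)
    z.2.1 p'
  refine (mul_le_mul h2 h5 (norm_nonneg _) (D.b2_nonneg _)).trans (le_of_eq ?_)
  simp only [cn, pow_succ]
  ring

end TData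

end Vale.Agent.P184.H57
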