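import Vale.Agent.P184.Ex.Base

/-!
# Chains, bounds of the word kernels, unfolding
-/

open MeasureTheory
open scoped ENNReal

namespace Vale.Agent.P184.H57

open Ker

set_option linter.unusedSectionVars false

namespace TData

variable {G R : Type*} [Group G] [NormedRing R] [NormOneClass R] [NormedAlgebra ℂ R]
  [CompleteSpace R] (D : TData G R) (ψ : Bump D.κ)

theorem prod_eq_cn {N : ℕ} (a d : G) (c : Fin N → G) :
    ∏ i : Fin (N + 1), D.b2 (((Fin.cons a (Fin.snoc c d : Fin (N + 1) → G) : Fin (N + 2) → G)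
      i.castSucc)⁻¹ * (Fin.cons a (Fin.snoc c d : Fin (N + 1) → G) : Fin (N + 2) → G) i.succ) =
      D.cn a (List.ofFn c) d := by
  induction N generalizing a with
  | zero =>
    simp [cn, Fin.snoc]
  | succ N ih =>
    have hc : c = Fin.cons (c 0) (fun i => c i.succ) := by
      ext i
      refine Fin.cases ?_ (fun i => ?_) i <;> simp
    have h1 : (Fin.snoc c d : Fin (N + 2) → G) =
        Fin.cons (c 0) (Fin.snoc (fun i => c i.succ) d : Fin (N + 1) → G) := by
      conv_lhs => rw [hc]
      exact (Fin.cons_snoc_eq_snoc_cons (c 0) (fun i => c i.succ) d).symm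
    rw [Fin.prod_univ_succ, h1]
    simp only [Fin.castSucc_zero, Fin.cons_zero, Fin.cons_succ]
    rw [List.ofFn_succ, cn, ← ih (c 0) fun i => c i.succ]
    congr 1

theorem ch_eq {N : ℕ} (z : {y // IsConj D.x y} × (Fin N → G)) :
    D.ch z = D.cn (D.ρ z.1) (List.ofFn z.2) (D.x * D.ρ z.1) :=
  D.prod_eq_cn _ _ _

theorem cn_smul (h p : G) (L : List G) (p' : G) :
    D.cn (h * p) (L.map (h * ·)) (h * p') = D.cn p L p' := by
  induction L generalizing p with
  | nil =>
    simp only [cn, List.map_nil]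
    congr 1
    group
  | cons c L ih =>
    simp only [cn, List.map_cons, ih]
    congr 2
    group

/-! ### Unfolding -/

theorem ρ_mul (y : G) (h : IsConj D.x y) : D.ρ y * y = D.x * D.ρ y := by
  have h1 := D.ρ_spec y h
  calc D.ρ y * y = D.ρ y * ((D.ρ y)⁻¹ * D.x * D.ρ y) := by rw [h1]
    _ = _ := by group

/-- Pairs of a point of the transversal and a point, with further points. -/
abbrev X (n : ℕ) := {y // IsConj D.x y} × G × (Fin n → G)

/-- The class of a point. -/
def cls (p : G) : {y // IsConj D.x y} :=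
  ⟨p⁻¹ * D.x * p, by
    rw [isConj_iff]
    exact ⟨p⁻¹, by group⟩⟩

/-- The group element moving the second point to the transversal. -/
def mv (p : G) : G := D.ρ (D.cls p) * p⁻¹

theorem mv_comm (p : G) : D.mv p * D.x = D.x * D.mv p := by
  have h := D.ρ_mul _ (D.cls p).2
  have h1 : D.mv p * D.x = (D.ρ (D.cls p) * (D.cls p).1) * p⁻¹ := by
    simp only [mv, cls]
    group
  rw [h1, h, mv]
  group

theorem cls_comm (h p : G) (hh : h * D.x = D.x * h) : D.cls (h * p) = D.cls p := by
  apply Subtype.ext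
  simp only [cls]
  have h1 : h⁻¹ * D.x * h = D.x := by
    rw [mul_assoc, ← hh]
    group
  calc (h * p)⁻¹ * D.x * (h * p) = p⁻¹ * (h⁻¹ * D.x * h) * p := by group
    _ = _ := by rw [h1]

theorem cls_ρ (y : {y // IsConj D.x y}) : D.cls (D.ρ y) = y := by
  apply Subtype.ext
  simp only [cls]
  exact D.ρ_spec _ y.2

/-- Exchange of the two points. -/
def swf {n : ℕ} (z : D.X n) : D.X n :=
  (D.cls z.2.1, D.mv z.2.1 * D.ρ z.1, fun l => D.mv z.2.1 * z.2.2 l)

theorem swf_swf {n : ℕ} (z : D.X n) : D.swf (D.swf z) = z := by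
  obtain ⟨y, p, c⟩ := z
  have h1 : D.cls (D.mv p * D.ρ y) = y := by
    rw [D.cls_comm _ _ (D.mv_comm p), D.cls_ρ]
  have h2 : D.mv (D.mv p * D.ρ y) = (D.mv p)⁻¹ := by
    rw [mv, h1]
    group
  simp only [swf, h1, h2]
  refine Prod.ext rfl (Prod.ext ?_ ?_)
  · simp only [mv]
    group
  · funext l
    simp

/-- Exchange of the two points. -/
def sw (n : ℕ) : D.X n ≃ D.X n := ⟨D.swf, D.swf, D.swf_swf, D.swf_swf⟩

theorem sw_F {n : ℕ} {α : Type*} (F : G → G → (Fin n → G) → α)
    (hF : ∀ h, h * D.x = D.x * h → ∀ p p' c, F (h * p) (h * p') (fun l => h * c l) = F p p' c)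
    (z : D.X n) :
    F (D.sw n z).2.1 (D.ρ (D.sw n z).1) (D.sw n z).2.2 = F (D.ρ z.1) z.2.1 z.2.2 := by
  obtain ⟨y, p, c⟩ := z
  have h1 := hF (D.mv p) (D.mv_comm p) (D.ρ y) p c
  have h2 : D.mv p * p = D.ρ (D.cls p) := by
    rw [mv]
    group
  rw [h2] at h1
  exact h1

theorem unfold_summable {n : ℕ} {α : Type*} [AddCommMonoid α] [TopologicalSpace α]
    (F : G → G → (Fin n → G) → α)
    (hF : ∀ h, h * D.x = D.x * h → ∀ p p' c, F (h * p) (h * p') (fun l => h * c l) = F p p' c)
    (hs : Summable fun z : D.X n => F (D.ρ z.1) z.2.1 z.2.2) :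
    Summable fun z : D.X n => F z.2.1 (D.ρ z.1) z.2.2 := by
  rw [← (D.sw n).summable_iff]
  refine hs.congr fun z => ?_
  exact (D.sw_F F hF z).symm

theorem unfold_tsum {n : ℕ} {α : Type*} [AddCommMonoid α] [TopologicalSpace α]
    (F : G → G → (Fin n → G) → α)
    (hF : ∀ h, h * D.x = D.x * h → ∀ p p' c, F (h * p) (h * p') (fun l => h * c l) = F p p' c) :
    ∑' z : D.X n, F (D.ρ z.1) z.2.1 z.2.2 = ∑' z : D.X n, F z.2.1 (D.ρ z.1) z.2.2 := by
  rw [← (D.sw n).tsum_eq fun z : D.X n => F z.2.1 (D.ρ z.1) z.2.2]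
  exact tsum_congr fun z => (D.sw_F F hF z).symm

end TData

/-! ### Integrals of sums -/

theorem integral_tsum_dom {ι α : Type*} [MeasurableSpace α] {μ : Measure α} (F : ι → α → ℂ)
    (B : ι → ℝ) (h : α → ℝ) (hB : Summable B) (hh : Integrable h μ)
    (hF : ∀ i, AEStronglyMeasurable (F i) μ) (hb : ∀ᵐ a ∂μ, ∀ i, ‖F i a‖ ≤ B i * h a) :
    ∑' i, ∫ a, F i a ∂μ = ∫ a, ∑' i, F i a ∂μ := by
  have hc := hB.countable_support
  have hI : ∀ i, Integrable (F i) μ := fun i =>
    (hh.const_mul (B i)).mono' (hF i) (hb.mono fun a ha => ha i)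
  have h1 : ∀ᵐ a ∂μ, ∑' i, F i a = ∑' i : Function.support B, F i a := by
    filter_upwards [hb] with a ha
    refine (tsum_subtype_eq_of_support_subset fun i hi => ?_).symm
    by_contra h0
    rw [Function.mem_support, not_not] at h0
    have := ha i
    rw [h0, zero_mul] at this
    exact hi (norm_le_zero_iff.1 this)
  have h2 : ∑' i, ∫ a, F i a ∂μ = ∑' i : Function.support B, ∫ a, F i a ∂μ := by
    refine (tsum_subtype_eq_of_support_subset (f := fun i => ∫ a, F i a ∂μ) fun i hi => ?_).symm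
    by_contra h0
    rw [Function.mem_support, not_not] at h0
    refine hi ?_
    have : F i =ᵐ[μ] 0 := by
      filter_upwards [hb] with a ha
      have := ha i
      rw [h0, zero_mul] at this
      exact norm_le_zero_iff.1 this
    simp only
    rw [integral_congr_ae this]
    simp
  rw [h2, integral_congr_ae h1]
  have : Countable (Function.support B) := hc
  refine (integral_tsum_of_summable_integral_norm (F := fun (i : Function.support B) a => F i a)
    (fun i => hI i) ?_)
  have h3 : Summable fun i : Function.support B => B i * ∫ a, h a ∂μ :=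
    (hB.subtype _).mul_right _
  refine Summable.of_nonneg_of_le (fun i => integral_nonneg fun a => norm_nonneg _) (fun i => ?_) h3
  rw [← integral_const_mul]
  refine integral_mono_ae (hI i).norm (hh.const_mul _) (hb.mono fun a ha => ha i)

end Vale.Agent.P184.H57
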