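import Vale.Agent.P184.Ex.E0

/-!
# Block E2: bump functions, continuity and derivatives
-/

open MeasureTheory Filter Topology
open scoped ENNReal

namespace Vale.Agent.P184.H57

open Ker

set_option linter.unusedSectionVars false

namespace H422

theorem exists_bump {κ : ℝ} (h : 0 < κ) (h1 : κ < 1) : Nonempty (Bump κ) := by
  let f : ContDiffBump (1 : ℝ) := ⟨κ / 4, κ / 2, by linarith, by linarith⟩
  have hr : f.rOut = κ / 2 := rfl
  have hsm : ContDiff ℝ 1 (f.normed volume) := f.contDiff_normed
  have hsup : Function.support (f.normed volume) = Metric.ball 1 f.rOut := f.support_normed_eq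
  have hz : ∀ u : ℝ, κ / 2 ≤ |u - 1| → f.normed volume u = 0 := by
    intro u hu
    by_contra hne
    have : u ∈ Function.support (f.normed volume) := hne
    rw [hsup, Metric.mem_ball, Real.dist_eq, hr] at this
    linarith
  refine ⟨⟨f.normed volume, deriv (f.normed volume), ?_, ?_, 3 * κ / 4, by linarith, ?_, ?_, ?_⟩⟩
  · intro u
    exact ((hsm.differentiable one_ne_zero) u).hasDerivAt
  · exact hsm.continuous_deriv le_rfl
  · intro u hu
    exact hz u (by linarith)
  · intro u hu
    have : f.normed volume =ᶠ[𝓝 u] fun _ => 0 := by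
      have ho : {v : ℝ | κ / 2 < |v - 1|} ∈ 𝓝 u :=
        (isOpen_lt continuous_const (continuous_id.sub continuous_const).abs).mem_nhds
          (by show κ / 2 < |u - 1|; linarith)
      filter_upwards [ho] with v hv
      exact hz v hv.le
    rw [this.deriv_eq]
    simp
  · rw [setIntegral_eq_integral_of_forall_compl_eq_zero]
    · exact f.integral_normed
    · intro u hu
      simp only [Set.mem_Ici, not_le] at hu
      refine hz u ?_
      rw [abs_of_neg (by linarith)]
      linarith

variable {G R : Type*} [Group G] [NormedRing R] [NormOneClass R] [NormedAlgebra ℂ R]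
  [CompleteSpace R]

theorem diag_add (F F' : Li G R) : (diag (F + F') : Ker G R) = diag F + diag F' := by
  ext p p'
  rw [e_add, e_diag, e_diag, e_diag]
  split_ifs <;> simp

theorem diag_sub (F F' : Li G R) : (diag (F - F') : Ker G R) = diag F - diag F' := by
  ext p p'
  rw [e_sub, e_diag, e_diag, e_diag]
  split_ifs <;> simp

theorem diag_smul (c : ℂ) (F : Li G R) : (diag (c • F) : Ker G R) = c • diag F := by
  ext p p'
  rw [e_smul, e_diag, e_diag]
  split_ifs <;> simp

/-- The diagonal as a continuous linear map. -/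
noncomputable def diagL : Li G R →L[ℂ] Ker G R :=
  LinearMap.mkContinuous
    { toFun := fun F => diag F
      map_add' := diag_add
      map_smul' := diag_smul } 1 (fun F => by
        rw [one_mul]
        exact (norm_diag F).le)

theorem diag_cont : Continuous (diag : Li G R → Ker G R) := (diagL (G := G) (R := R)).continuous

theorem diag_deriv {f : ℝ → Li G R} {f' : Li G R} {τ : ℝ} (h : HasDerivAt f f' τ) :
    HasDerivAt (fun τ => (diag (f τ) : Ker G R)) (diag f') τ := by
  have h1 := (ContinuousLinearMap.restrictScalars ℝ (diagL (G := G) (R := R))).hasFDerivAt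
    (x := f τ)
  exact h1.comp_hasDerivAt τ h

/-! ### Masses -/

theorem mass_add (s s' : G →₀ ℝ) : mass (s + s') = mass s + mass s' :=
  Finsupp.sum_add_index' (fun _ => rfl) (fun _ _ _ => rfl)

theorem mass_single (r : G) (τ : ℝ) : mass (Finsupp.single r τ) = τ :=
  Finsupp.sum_single_index rfl

theorem mass_sN {N : ℕ} (c : Fin N → G) (t : Fin N → ℝ) : mass (sN c t) = ∑ l, t l := by
  have hm : ∀ s : Finset (Fin N), mass (∑ l ∈ s, Finsupp.single (c l) (t l)) = ∑ l ∈ s, t l := by
    classical
    intro s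
    induction s using Finset.induction_on with
    | empty => simp [mass]
    | insert a s ha ih => rw [Finset.sum_insert ha, Finset.sum_insert ha, mass_add, mass_single, ih]
  exact hm _

theorem sN_nonneg {N : ℕ} (c : Fin N → G) (t : Fin N → ℝ) (ht : ∀ l, 0 ≤ t l) (r : G) :
    0 ≤ sN c t r := by
  unfold sN
  rw [Finsupp.finsetSum_apply]
  refine Finset.sum_nonneg fun l _ => ?_
  classical
  rw [Finsupp.single_apply]
  split_ifs
  · exact ht l
  · exact le_rfl

theorem le_sN {N : ℕ} (c : Fin N → G) (t : Fin N → ℝ) (ht : ∀ l, 0 ≤ t l) (i : Fin N) :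
    t i ≤ sN c t (c i) := by
  unfold sN
  rw [Finsupp.finsetSum_apply]
  classical
  have h1 : t i = (Finsupp.single (c i) (t i)) (c i) := by simp
  rw [h1]
  have h2 : (Finsupp.single (c i) (t i)) (c i) = (fun l => (Finsupp.single (c l) (t l)) (c i)) i := rfl
  rw [← h1, h1]
  refine Finset.single_le_sum (f := fun l => (Finsupp.single (c l) (t l)) (c i)) (fun l _ => ?_)
    (Finset.mem_univ i)
  show 0 ≤ (Finsupp.single (c l) (t l)) (c i)
  rw [Finsupp.single_apply]
  split_ifs
  · exact ht l
  · exact le_rfl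

theorem sN_update {N : ℕ} (c : Fin N → G) (t : Fin N → ℝ) (i : Fin N) (τ : ℝ) :
    sN c (Function.update t i τ) = sN c t + Finsupp.single (c i) (τ - t i) := by
  unfold sN
  classical
  rw [← Finset.add_sum_erase _ _ (Finset.mem_univ i), ← Finset.add_sum_erase (a := i)
    Finset.univ (fun l => Finsupp.single (c l) (t l)) (Finset.mem_univ i)]
  have h1 : ∑ x ∈ Finset.univ.erase i, Finsupp.single (c x) (Function.update t i τ x) =
      ∑ x ∈ Finset.univ.erase i, Finsupp.single (c x) (t x) := by
    refine Finset.sum_congr rfl fun l hl => ?_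
    rw [Function.update_of_ne (Finset.ne_of_mem_erase hl)]
  rw [h1, Function.update_self]
  have h2 : Finsupp.single (c i) τ = Finsupp.single (c i) (t i) + Finsupp.single (c i) (τ - t i) := by
    rw [← Finsupp.single_add]
    congr 1
    ring
  rw [h2]
  abel

theorem reg_near {κ : ℝ} {s : G →₀ ℝ} (hs : Reg κ s) {r : G} (hr : 0 < s r) :
    ∀ᶠ τ in 𝓝 (0 : ℝ), Reg κ (s + Finsupp.single r τ) := by
  have h1 : ∀ᶠ τ in 𝓝 (0 : ℝ), -(s r) < τ := lt_mem_nhds (by linarith)
  have hc : Continuous fun τ : ℝ => |mass s + τ - 1| := by fun_prop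
  have h2 : ∀ᶠ τ in 𝓝 (0 : ℝ), |mass s + τ - 1| < κ :=
    hc.continuousAt.eventually_lt continuousAt_const (by simpa using hs.2)
  filter_upwards [h1, h2] with τ h1 h2
  refine ⟨fun g => ?_, ?_⟩
  · classical
    rw [Finsupp.add_apply, Finsupp.single_apply]
    split_ifs with h
    · subst h
      linarith
    · rw [add_zero]
      exact hs.1 g
  · rw [mass_add, mass_single]
    exact h2

end H422

namespace H422

variable {G R : Type*} [Group G] [NormedRing R] [NormOneClass R] [NormedAlgebra ℂ R]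
  [CompleteSpace R] (D : TData G R)

theorem V_norm (s : G →₀ ℝ) : ‖D.V s‖ ≤ ∑' g, D.b g := (D.V_maj s).norm D.b_sum

theorem V_diff (s s' : G →₀ ℝ) (hs : Reg D.κ s) (hs' : Reg D.κ s') :
    D.V s' - D.V s = D.V s' * (D.U s - D.U s') * D.V s := by
  have h1 : D.U s * D.V s = D.E1 := D.V_right s hs
  have h2 : D.V s' * D.U s' = D.E0 := D.V_left s' hs'
  rw [mul_sub, sub_mul, mul_assoc, h1, D.V_E1, h2, D.V_E0]

theorem V_lip (s s' : G →₀ ℝ) (hs : Reg D.κ s) (hs' : Reg D.κ s') :
    ‖D.V s' - D.V s‖ ≤ (∑' g, D.b g) * ‖D.U s' - D.U s‖ * ∑' g, D.b g := by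
  rw [V_diff D s s' hs hs']
  have h0 : 0 ≤ ∑' g, D.b g := tsum_nonneg D.b_nonneg
  refine (norm_mul_le _ _).trans ?_
  refine mul_le_mul ((norm_mul_le _ _).trans ?_) (V_norm D s) (norm_nonneg _)
    (mul_nonneg h0 (norm_nonneg _))
  rw [norm_sub_rev (D.U s)]
  exact mul_le_mul_of_nonneg_right (V_norm D s') (norm_nonneg _)

theorem U_cont {N : ℕ} (c : Fin N → G) : Continuous fun t : Fin N → ℝ => D.U (sN c t) := by
  unfold TData.U
  exact (continuous_const.mul (diag_cont.comp (D.W_cont N c))).mul continuous_const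

theorem V_cont {N : ℕ} (c : Fin N → G) :
    ContinuousOn (fun t : Fin N → ℝ => D.V (sN c t)) {t | Reg D.κ (sN c t)} := by
  intro t ht
  rw [ContinuousWithinAt, tendsto_iff_norm_sub_tendsto_zero]
  have h1 : Tendsto (fun t' : Fin N → ℝ => (∑' g, D.b g) * ‖D.U (sN c t') - D.U (sN c t)‖ *
      ∑' g, D.b g) (𝓝[{t | Reg D.κ (sN c t)}] t) (𝓝 0) := by
    have h2 : Continuous fun t' : Fin N → ℝ => (∑' g, D.b g) *
        ‖D.U (sN c t') - D.U (sN c t)‖ * ∑' g, D.b g :=
      (continuous_const.mul ((U_cont D c).sub continuous_const).norm).mul continuous_const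
    have h3 := h2.tendsto t
    simp only [sub_self, norm_zero, mul_zero, zero_mul] at h3
    exact h3.mono_left nhdsWithin_le_nhds
  refine squeeze_zero' (Eventually.of_forall fun _ => norm_nonneg _) ?_ h1
  filter_upwards [self_mem_nhdsWithin] with t' ht'
  exact V_lip D _ _ ht ht'

theorem U_deriv (s : G →₀ ℝ) (r : G) (hs : Reg D.κ s) :
    HasDerivAt (fun τ : ℝ => D.U (s + Finsupp.single r τ)) (D.U s * D.aD s r) 0 := by
  have h1 : D.U s * D.aD s r = D.E1 * diag (D.W1 r s) * D.E0 := by
    have h : D.U s * D.V s = D.E1 := D.V_right s hs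
    unfold TData.aD
    rw [← mul_assoc, ← mul_assoc, h]
  rw [h1]
  unfold TData.U
  exact ((diag_deriv (D.W_deriv s r)).const_mul D.E1).mul_const D.E0

theorem V_tend (s : G →₀ ℝ) (r : G) (hs : Reg D.κ s) (hr : 0 < s r) :
    Tendsto (fun τ : ℝ => D.V (s + Finsupp.single r τ)) (𝓝 0) (𝓝 (D.V s)) := by
  rw [tendsto_iff_norm_sub_tendsto_zero]
  have h1 : Tendsto (fun τ : ℝ => (∑' g, D.b g) * ‖D.U (s + Finsupp.single r τ) - D.U s‖ *
      ∑' g, D.b g) (𝓝 0) (𝓝 0) := by
    have h2 := (U_deriv D s r hs).continuousAt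
    have h3 : Tendsto (fun τ : ℝ => D.U (s + Finsupp.single r τ)) (𝓝 0) (𝓝 (D.U s)) := by
      have := h2.tendsto
      simpa using this
    have h4 := ((tendsto_const_nhds (x := ∑' g, D.b g)).mul
      (h3.sub (tendsto_const_nhds (x := D.U s))).norm).mul (tendsto_const_nhds (x := ∑' g, D.b g))
    simpa using h4
  refine squeeze_zero' (Eventually.of_forall fun _ => norm_nonneg _) ?_ h1
  filter_upwards [reg_near hs hr] with τ hτ
  exact V_lip D _ _ hs hτ

theorem V_deriv (s : G →₀ ℝ) (r : G) (hs : Reg D.κ s) (hr : 0 < s r) :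
    HasDerivAt (fun τ : ℝ => D.V (s + Finsupp.single r τ)) (-(D.aD s r * D.V s)) 0 := by
  rw [hasDerivAt_iff_tendsto_slope_zero]
  have hU := U_deriv D s r hs
  rw [hasDerivAt_iff_tendsto_slope_zero] at hU
  have h1 : -(D.aD s r * D.V s) = -(D.V s * (D.U s * D.aD s r) * D.V s) := by
    unfold TData.aD
    have h2 : D.V s * D.U s = D.E0 := D.V_left s hs
    rw [← mul_assoc (D.V s) (D.U s), h2, ← mul_assoc D.E0, ← mul_assoc D.E0, D.V_E0]
  rw [h1]
  have hV := (V_tend D s r hs hr).mono_left (nhdsWithin_le_nhds (s := {(0 : ℝ)}ᶜ))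
  have h3 := ((hV.mul hU).mul_const (D.V s)).neg
  refine h3.congr' ?_
  filter_upwards [nhdsWithin_le_nhds (reg_near hs hr)] with τ hτ
  simp only [zero_add, Finsupp.single_zero, add_zero]
  rw [V_diff D s _ hs hτ, mul_smul_comm, smul_mul_assoc, ← smul_neg, ← neg_mul, ← mul_neg, neg_sub]

theorem lk_deriv (s : G →₀ ℝ) (r : G) (hs : Reg D.κ s) (hr : 0 < s r) (l : Lt) (c : G)
    (u : Option D.E) :
    HasDerivAt (fun τ : ℝ => D.lk (s + Finsupp.single r τ) l c u) (D.dlk s r l c u) 0 := by
  have hV := V_deriv D s r hs hr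
  have hU := U_deriv D s r hs
  have hs0 : s + Finsupp.single r (0 : ℝ) = s := by simp
  rcases l with _ | _ | _ <;> rcases u with _ | v
  · exact hasDerivAt_const _ _
  · have hB := diag_deriv (D.B_deriv v s r)
    have h := ((hV.mul_const (dl c)).mul hB).mul_const D.E0
    refine h.congr_deriv ?_
    show _ = -(D.aD s r * (D.V s * dl c * diag (D.B v s) * D.E0)) +
      D.V s * dl c * diag (D.B1 v r s) * D.E0
    rw [hs0, add_mul]
    simp only [neg_mul, mul_assoc]
  · exact hasDerivAt_const _ _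
  · exact hasDerivAt_const _ _
  · have h := (hV.mul_const (dl c)).mul hU
    refine h.congr_deriv ?_
    show _ = -(D.aD s r * (D.V s * dl c * D.U s)) + D.V s * dl c * D.U s * D.aD s r
    rw [hs0]
    simp only [neg_mul, mul_assoc]
  · exact hasDerivAt_const _ _

theorem deriv_ofFn {A : Type*} [NormedRing A] [NormedAlgebra ℝ A] (N : ℕ) (f : Fin N → ℝ → A)
    (f' : Fin N → A) (x : ℝ) (h : ∀ k, HasDerivAt (f k) (f' k) x) :
    HasDerivAt (fun τ => (List.ofFn fun k => f k τ).prod)
      (∑ l : Fin N, (List.ofFn fun k => if k = l then f' k else f k x).prod) x := by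
  induction N with
  | zero => simpa using hasDerivAt_const x (1 : A)
  | succ N ih =>
    have h1 := (h 0).mul (ih (fun k => f k.succ) (fun k => f' k.succ) (fun k => h k.succ))
    simp only [List.ofFn_succ, List.prod_cons]
    refine h1.congr_deriv ?_
    rw [Fin.sum_univ_succ]
    congr 1
    rw [Finset.mul_sum]
    refine Finset.sum_congr rfl fun l _ => ?_
    rw [if_neg (Fin.succ_ne_zero l).symm]
    simp only [Fin.succ_inj]

theorem Pw_deriv {N : ℕ} (w : Fin N → Lt) (c : Fin N → G) (u : Fin N → Option D.E)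
    (t : Fin N → ℝ) (i : Fin N) (ht : Reg D.κ (sN c t)) (hi : 0 < t i) (h0 : ∀ l, 0 ≤ t l) :
    HasDerivAt (fun τ : ℝ => D.Pw w c u (Function.update t i τ)) (D.dPw w c u t (c i)) (t i) := by
  have hr : 0 < sN c t (c i) := hi.trans_le (le_sN c t h0 i)
  have hd := deriv_ofFn N (fun k τ => D.lk (sN c t + Finsupp.single (c i) τ) (w k) (c k) (u k))
    (fun k => D.dlk (sN c t) (c i) (w k) (c k) (u k)) 0
    (fun k => lk_deriv D (sN c t) (c i) ht hr (w k) (c k) (u k))
  simp only [Finsupp.single_zero, add_zero] at hd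
  have h1 : HasDerivAt (fun τ : ℝ => τ - t i) 1 (t i) := (hasDerivAt_id _).sub_const _
  have hd' : HasDerivAt (fun τ => (List.ofFn fun k =>
      D.lk (sN c t + Finsupp.single (c i) τ) (w k) (c k) (u k)).prod)
      (D.dPw w c u t (c i)) (t i - t i) := by
    rw [sub_self]
    unfold TData.dPw
    convert hd using 1
    refine Finset.sum_congr rfl fun l _ => ?_
    congr 2
    funext k
    split_ifs with hk
    · rw [hk]
    · rfl
  have h2 := HasDerivAt.scomp (h := fun τ : ℝ => τ - t i) (t i) hd' h1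
  rw [one_smul] at h2
  refine h2.congr_of_eventuallyEq (Eventually.of_forall fun τ => ?_)
  show D.Pw w c u (Function.update t i τ) = _
  unfold TData.Pw
  rw [sN_update]
  rfl

end H422

end Vale.Agent.P184.H57
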