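import Vale.Agent.P184.Ex.Base2
import Vale.Agent.P184.Ex.E2a

/-!
# Equivariance, continuity, rotation of the words
-/

open MeasureTheory
open scoped ENNReal

namespace Vale.Agent.P184.H57

open Ker

set_option linter.unusedSectionVars false

section Tw

variable {G R : Type*} [Group G] [NormedRing R] [NormOneClass R] [NormedAlgebra ℂ R]
  [CompleteSpace R]

/-- `k'` is the image of `k` under the translation by `h` and the homomorphism `f`. -/
def Tw (f : R →+* R) (h : G) (k k' : Ker G R) : Prop :=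
  ∀ p p', k'.e (h * p) (h * p') = f (k.e p p')

theorem Tw.mul {f : R →+* R} (hf : Continuous f) {h : G} {k k' l l' : Ker G R}
    (h1 : Tw f h k k') (h2 : Tw f h l l') : Tw f h (k * l) (k' * l') := by
  intro p p'
  rw [e_mul, e_mul]
  have h3 : Summable fun q => k.e p q * l.e q p' := (e_mul_summable k l p p').of_norm
  rw [← (Equiv.mulLeft h).tsum_eq]
  simp only [Equiv.coe_mulLeft]
  have h4 := (h3.hasSum.map f hf).tsum_eq
  rw [← h4]
  refine tsum_congr fun q => ?_
  simp only [Function.comp]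
  rw [h1, h2, map_mul]

theorem Tw.dlt (f : R →+* R) (h c : G) : Tw f h (dl c : Ker G R) (dl (h * c)) := by
  classical
  intro p p'
  have h1 : (dl (h * c) : Ker G R).e (h * p) (h * p') =
      (dl (h * c) * (1 : Ker G R)).e (h * p) (h * p') := by rw [mul_one]
  have h2 : (dl c : Ker G R).e p p' = (dl c * (1 : Ker G R)).e p p' := by rw [mul_one]
  rw [h1, h2, dl_mul_e, dl_mul_e, e_one, e_one]
  by_cases hp : p = c
  · by_cases hq : p = p'
    · simp [hp, hq.symm]
    · have : h * p ≠ h * p' := fun h' => hq (mul_left_cancel h')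
      simp [hp, hq, this]
  · have : h * p ≠ h * c := fun h' => hp (mul_left_cancel h')
    simp [hp]

theorem Tw.one (f : R →+* R) (h : G) : Tw f h (1 : Ker G R) 1 := by
  classical
  intro p p'
  rw [e_one, e_one]
  by_cases hq : p = p'
  · simp [hq]
  · have : h * p ≠ h * p' := fun h' => hq (mul_left_cancel h')
    simp [hq]

theorem Tw.zero (f : R →+* R) (h : G) : Tw f h (0 : Ker G R) 0 := by
  intro p p'
  have : ∀ p p' : G, (0 : Ker G R).e p p' = 0 := fun p p' => rfl
  rw [this, this, map_zero]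

theorem Tw.diagt {f : R →+* R} {h : G} {F F' : Li G R} (hF : ∀ p, F'.1 (h * p) = f (F.1 p)) :
    Tw f h (diag F : Ker G R) (diag F') := by
  classical
  intro p p'
  rw [e_diag, e_diag]
  by_cases hq : p = p'
  · simp [hq, hF]
  · have : h * p ≠ h * p' := fun h' => hq (mul_left_cancel h')
    simp [hq]

theorem Tw.prod {f : R →+* R} (hf : Continuous f) {h : G} {n : ℕ} {k k' : Fin n → Ker G R}
    (hk : ∀ i, Tw f h (k i) (k' i)) : Tw f h (List.ofFn k).prod (List.ofFn k').prod := by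
  induction n with
  | zero => simpa using Tw.one f h
  | succ n ih =>
    rw [List.ofFn_succ, List.ofFn_succ, List.prod_cons, List.prod_cons]
    exact Tw.mul hf (hk 0) (ih fun i => hk i.succ)

end Tw

namespace TData

variable {G R : Type*} [Group G] [NormedRing R] [NormOneClass R] [NormedAlgebra ℂ R]
  [CompleteSpace R] (D : TData G R) (ψ : Bump D.κ)

theorem U_H (h : G) (hh : h * D.x = D.x * h) (s : G →₀ ℝ) :
    Tw (D.σ h) h (D.U s) (D.U (s.mapDomain (h * ·))) :=
  Tw.mul (D.σ_cont h) (Tw.mul (D.σ_cont h) (D.E1_H h hh) (Tw.diagt fun p => D.W_H h hh s p))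
    (D.E0_H h hh)

theorem U_x (s : G →₀ ℝ) : Tw D.θ D.x (D.U s) (D.U s) :=
  Tw.mul D.θ_cont (Tw.mul D.θ_cont D.E1_x (Tw.diagt fun p => D.W_x s p)) D.E0_x

theorem lk_H (h : G) (hh : h * D.x = D.x * h) (s : G →₀ ℝ) (l : Lt) (c : G) (u : Option D.E) :
    Tw (D.σ h) h (D.lk s l c u) (D.lk (s.mapDomain (h * ·)) l (h * c) u) := by
  have hf := D.σ_cont h
  cases l <;> cases u
  · exact Tw.zero _ _
  · exact Tw.mul hf (Tw.mul hf (Tw.mul hf (D.V_H h hh s) (Tw.dlt _ _ _))
      (Tw.diagt fun p => D.B_H h hh _ s p)) (D.E0_H h hh)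
  · exact Tw.mul hf (Tw.mul hf (D.E0_H h hh) (Tw.dlt _ _ _)) (D.E0_H h hh)
  · exact Tw.zero _ _
  · exact Tw.mul hf (Tw.mul hf (D.V_H h hh s) (Tw.dlt _ _ _)) (D.U_H h hh s)
  · exact Tw.zero _ _

theorem lk_x (s : G →₀ ℝ) (l : Lt) (c : G) (u : Option D.E) :
    Tw D.θ D.x (D.lk s l c u) (D.lk s l (D.x * c) u) := by
  have hf := D.θ_cont
  cases l <;> cases u
  · exact Tw.zero _ _
  · exact Tw.mul hf (Tw.mul hf (Tw.mul hf (D.V_x s) (Tw.dlt _ _ _))
      (Tw.diagt fun p => D.B_x _ s p)) D.E0_x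
  · exact Tw.mul hf (Tw.mul hf D.E0_x (Tw.dlt _ _ _)) D.E0_x
  · exact Tw.zero _ _
  · exact Tw.mul hf (Tw.mul hf (D.V_x s) (Tw.dlt _ _ _)) (D.U_x s)
  · exact Tw.zero _ _

theorem sN_map {N : ℕ} (h : G) (c : Fin N → G) (t : Fin N → ℝ) :
    (sN c t).mapDomain (h * ·) = sN (fun l => h * c l) t := by
  simp only [sN, Finsupp.mapDomain_finsetSum, Finsupp.mapDomain_single]

/-! ### Continuity -/

theorem lk_cont {N : ℕ} (c : Fin N → G) (l : Lt) (d : G) (u : Option D.E) :
    ContinuousOn (fun t : Fin N → ℝ => D.lk (sN c t) l d u) {t | Reg D.κ (sN c t)} := by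
  have hV := H422.V_cont D c
  cases l <;> cases u
  · exact continuousOn_const
  · exact ((hV.mul continuousOn_const).mul
      (H422.diag_cont.comp (D.B_cont N c _)).continuousOn).mul continuousOn_const
  · exact continuousOn_const
  · exact continuousOn_const
  · exact (hV.mul continuousOn_const).mul (H422.U_cont D c).continuousOn
  · exact continuousOn_const

theorem prod_cont {A : Type*} [NormedRing A] {X : Type*} [TopologicalSpace X] {S : Set X} {n : ℕ}
    (k : Fin n → X → A) (hk : ∀ i, ContinuousOn (k i) S) :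
    ContinuousOn (fun t => (List.ofFn fun i => k i t).prod) S := by
  induction n with
  | zero => simpa using continuousOn_const
  | succ n ih =>
    simp only [List.ofFn_succ, List.prod_cons]
    exact (hk 0).mul (ih _ fun i => hk i.succ)

theorem reg_of_orth {N : ℕ} {b : Fin N → Bool} (c : Fin N → G) {t : Fin N → ℝ}
    (ht : t ∈ orth b) (h : |∑ l, t l - 1| < D.κ) : Reg D.κ (sN c t) :=
  ⟨fun r => H422.sN_nonneg c t (fun l => (ht l).1) r, by rwa [H422.mass_sN]⟩

theorem g_zero {u : ℝ} (h : D.κ ≤ |u - 1|) : ψ.g u = 0 := ψ.supp u (ψ.r_lt.le.trans h)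

theorem g_cont : Continuous ψ.g :=
  continuous_iff_continuousAt.2 fun u => (ψ.deriv u).continuousAt

theorem gF_cont {N : ℕ} (b : Fin N → Bool) (c : Fin N → G) {E : Type*} [NormedAddCommGroup E]
    [NormedSpace ℂ E] (F : (Fin N → ℝ) → E)
    (hF : ContinuousOn F {t | Reg D.κ (sN c t)}) :
    ContinuousOn (fun t => (ψ.g (∑ l, t l) : ℂ) • F t) (orth b) := by
  have hs : Continuous fun t : Fin N → ℝ => ∑ l, t l := by fun_prop
  intro t ht
  by_cases h : |∑ l, t l - 1| < D.κ
  · have h1 : ContinuousWithinAt F (orth b) t := by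
      have h2 := hF t (D.reg_of_orth c ht h)
      refine h2.mono_of_mem_nhdsWithin ?_
      have h3 : {t : Fin N → ℝ | |∑ l, t l - 1| < D.κ} ∈ nhds t :=
        (isOpen_lt (by fun_prop) continuous_const).mem_nhds h
      filter_upwards [self_mem_nhdsWithin, mem_nhdsWithin_of_mem_nhds h3] with t' h4 h5
      exact D.reg_of_orth c h4 h5
    exact (Complex.continuous_ofReal.comp ((D.g_cont ψ).comp hs)).continuousWithinAt.smul h1
  · have h1 : ψ.r < |∑ l, t l - 1| := lt_of_lt_of_le ψ.r_lt (not_lt.1 h)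
    have h3 : {t : Fin N → ℝ | ψ.r < |∑ l, t l - 1|} ∈ nhds t :=
      (isOpen_lt continuous_const (by fun_prop)).mem_nhds h1
    have h4 : (fun t : Fin N → ℝ => (ψ.g (∑ l, t l) : ℂ) • F t) =ᶠ[nhdsWithin t (orth b)]
        fun _ => 0 := by
      filter_upwards [mem_nhdsWithin_of_mem_nhds h3] with t' h5
      simp [ψ.supp _ h5.le]
    refine ContinuousWithinAt.congr_of_eventuallyEq continuousWithinAt_const h4 ?_
    simp [ψ.supp _ h1.le]

theorem g_zero_two {u : ℝ} (h : 2 ≤ u) : ψ.g u = 0 := by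
  refine D.g_zero ψ ?_
  rw [abs_of_nonneg (by linarith)]
  linarith [D.κ_lt]

theorem gF_int {N : ℕ} (b : Fin N → Bool) (c : Fin N → G) {E : Type*} [NormedAddCommGroup E]
    [NormedSpace ℂ E] (F : (Fin N → ℝ) → E)
    (hF : ContinuousOn F {t | Reg D.κ (sN c t)}) :
    Integrable (fun t => (ψ.g (∑ l, t l) : ℂ) • F t) (muP b) := by
  refine muP_integrable b 2 _ (D.gF_cont ψ b c F hF) fun t _ h => ?_
  rw [D.g_zero_two ψ h]
  simp

theorem g_int {N : ℕ} (b : Fin N → Bool) :
    Integrable (fun t : Fin N → ℝ => |ψ.g (∑ l, t l)|) (muP b) := by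
  refine muP_integrable b 2 _ ?_ fun t _ h => ?_
  · have hs : Continuous fun t : Fin N → ℝ => ∑ l, t l := by fun_prop
    exact ((D.g_cont ψ).comp hs).abs.continuousOn
  · rw [D.g_zero_two ψ h]
    simp

end TData

end Vale.Agent.P184.H57
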