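import Mathlib

/-!
# Block C: integrals over orthants
-/

open MeasureTheory Set

namespace Vale.Agent.P184.H57

/-- Marks (`true`) are integrated over `[0, ∞)`, forms (`false`) are set to `0`. -/
noncomputable def mu (b : Bool) : Measure ℝ :=
  if b then volume.restrict (Ici 0) else Measure.dirac 0

/-- The product measure. -/
noncomputable def muP {N : ℕ} (b : Fin N → Bool) : Measure (Fin N → ℝ) :=
  Measure.pi fun l => mu (b l)

theorem mu_true : mu true = volume.restrict (Ici 0) := rfl

theorem mu_false : mu false = Measure.dirac 0 := rfl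

instance (b : Bool) : SigmaFinite (mu b) := by
  cases b
  · rw [mu_false]; infer_instance
  · rw [mu_true]; infer_instance

instance (b : Bool) : IsLocallyFiniteMeasure (mu b) := by
  cases b
  · rw [mu_false]; infer_instance
  · rw [mu_true]; infer_instance

instance {N : ℕ} (b : Fin N → Bool) : SigmaFinite (muP b) := by
  unfold muP; infer_instance

instance {N : ℕ} (b : Fin N → Bool) : IsLocallyFiniteMeasure (muP b) := by
  unfold muP; infer_instance

/-- The support of the product measure. -/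
def orth {N : ℕ} (b : Fin N → Bool) : Set (Fin N → ℝ) :=
  {t | ∀ l, 0 ≤ t l ∧ (b l = false → t l = 0)}

theorem mu_ae (b : Bool) : ∀ᵐ τ ∂mu b, 0 ≤ τ ∧ (b = false → τ = 0) := by
  cases b
  · rw [mu_false, ae_dirac_eq]
    exact ⟨le_rfl, fun _ => rfl⟩
  · rw [mu_true]
    filter_upwards [ae_restrict_mem measurableSet_Ici] with τ hτ
    exact ⟨hτ, fun h => absurd h (by simp)⟩

theorem muP_ae {N : ℕ} (b : Fin N → Bool) : ∀ᵐ t ∂muP b, t ∈ orth b := by
  have h : ∀ l, ∀ᵐ t ∂muP b, 0 ≤ t l ∧ (b l = false → t l = 0) := fun l =>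
    (Measure.tendsto_eval_ae_ae (μ := fun l => mu (b l)) (i := l)).eventually (mu_ae (b l))
  exact ae_all_iff.mpr h

theorem isClosed_orth {N : ℕ} (b : Fin N → Bool) : IsClosed (orth b) := by
  have h : orth b = ⋂ l, {t : Fin N → ℝ | 0 ≤ t l} ∩ {t : Fin N → ℝ | b l = false → t l = 0} := by
    ext t
    simp only [orth, mem_iInter, mem_inter_iff, mem_ofPred_eq]
  rw [h]
  refine isClosed_iInter fun l => IsClosed.inter ?_ ?_
  · exact isClosed_le continuous_const (continuous_apply l)
  · by_cases hb : b l = false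
    · simp only [hb, forall_const]
      exact isClosed_eq (continuous_apply l) continuous_const
    · simp [hb]

theorem isCompact_orth {N : ℕ} (b : Fin N → Bool) (K : ℝ) :
    IsCompact (orth b ∩ {t | ∑ j, t j ≤ K}) := by
  refine IsCompact.of_isClosed_subset (isCompact_univ_pi fun _ : Fin N => isCompact_Icc
    (a := (0 : ℝ)) (b := K)) ((isClosed_orth b).inter ?_) ?_
  · exact isClosed_le (continuous_finsetSum _ fun j _ => continuous_apply j) continuous_const
  · rintro t ⟨ht, hs⟩ l _
    refine ⟨(ht l).1, le_trans ?_ hs⟩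
    exact Finset.single_le_sum (fun j _ => (ht j).1) (Finset.mem_univ l)

/-- Functions continuous on the orthant and vanishing for `K ≤ ∑ t l` are integrable. -/
theorem muP_integrable {N : ℕ} (b : Fin N → Bool) {E : Type*} [NormedAddCommGroup E]
    (K : ℝ) (F : (Fin N → ℝ) → E) (hF : ContinuousOn F (orth b))
    (hK : ∀ t ∈ orth b, K ≤ ∑ j, t j → F t = 0) :
    Integrable F (muP b) := by
  have h1 : IntegrableOn F (orth b ∩ {t | ∑ j, t j ≤ K}) (muP b) :=
    (hF.mono inter_subset_left).integrableOn_compact (isCompact_orth b K)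
  have hm : MeasurableSet (orth b ∩ {t : Fin N → ℝ | ∑ j, t j ≤ K}) :=
    (isCompact_orth b K).isClosed.measurableSet
  rw [← integrable_indicator_iff hm] at h1
  refine h1.congr ?_
  filter_upwards [muP_ae b] with t ht
  by_cases hs : ∑ j, t j ≤ K
  · rw [indicator_of_mem (show t ∈ orth b ∩ {t | ∑ j, t j ≤ K} from ⟨ht, hs⟩)]
  · rw [indicator_of_notMem fun h => hs h.2, hK t ht (not_le.mp hs).le]

/-- Splitting off one variable. -/
theorem muP_split {N : ℕ} (b : Fin (N + 1) → Bool) (i : Fin (N + 1)) {E : Type*}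
    [NormedAddCommGroup E] [NormedSpace ℝ E] (F : (Fin (N + 1) → ℝ) → E) :
    ∫ t, F t ∂muP b = ∫ z : ℝ × (Fin N → ℝ), F (i.insertNth z.1 z.2)
      ∂(mu (b i)).prod (muP fun l => b (i.succAbove l)) := by
  have h := measurePreserving_piFinSuccAbove (fun l => mu (b l)) i
  have h2 := (h.symm (MeasurableEquiv.piFinSuccAbove (fun _ => ℝ) i)).integral_comp' (g := F)
  exact h2.symm

theorem muP_split_integrable {N : ℕ} (b : Fin (N + 1) → Bool) (i : Fin (N + 1)) {E : Type*}
    [NormedAddCommGroup E] (F : (Fin (N + 1) → ℝ) → E) (hF : Integrable F (muP b)) :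
    Integrable (fun z : ℝ × (Fin N → ℝ) => F (i.insertNth z.1 z.2))
      ((mu (b i)).prod (muP fun l => b (i.succAbove l))) := by
  have h := measurePreserving_piFinSuccAbove (fun l => mu (b l)) i
  exact (h.symm (MeasurableEquiv.piFinSuccAbove (fun _ => ℝ) i)).integrable_comp_of_integrable hF

theorem insertNth_mem_orth {N : ℕ} {b : Fin (N + 1) → Bool} {i : Fin (N + 1)} {τ : ℝ}
    {s : Fin N → ℝ} (hτ : 0 ≤ τ ∧ (b i = false → τ = 0))
    (hs : s ∈ orth fun l => b (i.succAbove l)) :
    (i.insertNth τ s : Fin (N + 1) → ℝ) ∈ orth b := by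
  intro l
  rcases Fin.eq_self_or_eq_succAbove i l with rfl | ⟨j, rfl⟩
  · simpa using hτ
  · simpa using hs j

theorem sum_insertNth {N : ℕ} (i : Fin (N + 1)) (τ : ℝ) (s : Fin N → ℝ) :
    ∑ j, (i.insertNth τ s : Fin (N + 1) → ℝ) j = τ + ∑ j, s j := by
  rw [Fin.sum_univ_succAbove _ i]
  simp

/-- Integration by parts. -/
theorem muP_parts {N : ℕ} (b : Fin (N + 1) → Bool) (i : Fin (N + 1)) (hi : b i = true) (K : ℝ)
    (F F' : (Fin (N + 1) → ℝ) → ℂ)
    (hF : ContinuousOn F (orth b)) (hF' : ContinuousOn F' (orth b))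
    (hd : ∀ t ∈ orth b, 0 < t i → HasDerivAt (fun τ => F (Function.update t i τ)) (F' t) (t i))
    (hK : ∀ t ∈ orth b, K ≤ ∑ j, t j → F t = 0) (hK' : ∀ t ∈ orth b, K ≤ ∑ j, t j → F' t = 0) :
    ∫ t, F' t ∂muP b = -∫ s, F (i.insertNth 0 s) ∂muP (fun l => b (i.succAbove l)) := by
  have hint := muP_integrable b K F' hF' hK'
  rw [muP_split b i F', integral_prod_symm _ (muP_split_integrable b i F' hint), ← integral_neg]
  refine integral_congr_ae ?_
  filter_upwards [muP_ae fun l => b (i.succAbove l)] with s hs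
  rw [hi, mu_true, integral_Ici_eq_integral_Ioi]
  have hmem : ∀ τ : ℝ, 0 ≤ τ → (i.insertNth τ s : Fin (N + 1) → ℝ) ∈ orth b := fun τ hτ =>
    insertNth_mem_orth ⟨hτ, fun h => by rw [hi] at h; exact absurd h (by simp)⟩ hs
  have hs0 : 0 ≤ ∑ j, s j := Finset.sum_nonneg fun j _ => (hs j).1
  have hcont : Continuous fun τ : ℝ => (i.insertNth τ s : Fin (N + 1) → ℝ) := by
    refine continuous_pi fun l => ?_
    rcases Fin.eq_self_or_eq_succAbove i l with rfl | ⟨j, rfl⟩
    · simp only [Fin.insertNth_apply_same]; exact continuous_id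
    · simp only [Fin.insertNth_apply_succAbove]; exact continuous_const
  have hcF : ContinuousOn (fun τ : ℝ => F (i.insertNth τ s)) (Ici 0) :=
    hF.comp hcont.continuousOn fun τ hτ => hmem τ hτ
  have hcF' : ContinuousOn (fun τ : ℝ => F' (i.insertNth τ s)) (Ici 0) :=
    hF'.comp hcont.continuousOn fun τ hτ => hmem τ hτ
  have hupd : ∀ τ τ' : ℝ, Function.update (i.insertNth τ s : Fin (N + 1) → ℝ) i τ' =
      i.insertNth τ' s := by
    intro τ τ'
    funext l
    rcases Fin.eq_self_or_eq_succAbove i l with rfl | ⟨j, rfl⟩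
    · simp
    · simp [Fin.succAbove_ne]
  have hderiv : ∀ τ ∈ Ioi (0 : ℝ), HasDerivAt (fun τ : ℝ => F (i.insertNth τ s))
      (F' (i.insertNth τ s)) τ := by
    intro τ hτ
    have h := hd (i.insertNth τ s) (hmem τ (le_of_lt hτ)) (by simpa using hτ)
    simpa [hupd] using h
  have hzero : ∀ τ : ℝ, 0 ≤ τ → K ≤ τ → F (i.insertNth τ s) = 0 := fun τ hτ hKτ =>
    hK _ (hmem τ hτ) (by rw [sum_insertNth]; linarith)
  have hzero' : ∀ τ : ℝ, 0 ≤ τ → K ≤ τ → F' (i.insertNth τ s) = 0 := fun τ hτ hKτ =>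
    hK' _ (hmem τ hτ) (by rw [sum_insertNth]; linarith)
  have hI : IntegrableOn (fun τ : ℝ => F' (i.insertNth τ s)) (Ioi 0) := by
    have h1 : IntegrableOn (fun τ : ℝ => F' (i.insertNth τ s)) (Icc 0 (max K 0)) :=
      (hcF'.mono Icc_subset_Ici_self).integrableOn_compact isCompact_Icc
    have h2 : IntegrableOn (fun τ : ℝ => F' (i.insertNth τ s)) (Ioi (max K 0)) := by
      refine (integrableOn_zero).congr_fun (fun τ hτ => ?_) measurableSet_Ioi
      have h3 : max K 0 < τ := hτ
      exact (hzero' τ ((le_max_right K 0).trans h3.le) ((le_max_left K 0).trans h3.le)).symm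
    refine (h1.union h2).mono_set fun τ hτ => ?_
    rcases le_or_gt τ (max K 0) with h | h
    · exact Or.inl ⟨le_of_lt hτ, h⟩
    · exact Or.inr h
  have htend : Filter.Tendsto (fun τ : ℝ => F (i.insertNth τ s)) Filter.atTop (nhds 0) := by
    refine tendsto_const_nhds.congr' ?_
    filter_upwards [Filter.eventually_ge_atTop (max K 0)] with τ hτ
    exact (hzero τ ((le_max_right K 0).trans hτ) ((le_max_left K 0).trans hτ)).symm
  rw [integral_Ioi_of_hasDerivAt_of_tendsto (hcF 0 self_mem_Ici) hderiv hI htend, zero_sub]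

/-- Variables of forms can be left out. -/
theorem muP_insert {N : ℕ} (b : Fin (N + 1) → Bool) (i : Fin (N + 1)) (hi : b i = false)
    (F : (Fin (N + 1) → ℝ) → ℂ) :
    ∫ t, F t ∂muP b = ∫ s, F (i.insertNth 0 s) ∂muP (fun l => b (i.succAbove l)) := by
  rw [muP_split b i F, hi, mu_false, Measure.dirac_prod,
    (measurableEmbedding_prodMk_left (0 : ℝ)).integral_map]

/-- Reindexing. -/
theorem muP_equiv {N : ℕ} (b : Fin N → Bool) (σ : Equiv.Perm (Fin N)) (F : (Fin N → ℝ) → ℂ) :
    ∫ t, F (fun l => t (σ l)) ∂muP b = ∫ t, F t ∂muP (fun l => b (σ l)) := by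
  have h := measurePreserving_piCongrLeft (fun l => mu (b l)) σ
  have h2 := h.integral_comp' (g := fun t => F fun l => t (σ l))
  unfold muP
  rw [← h2]
  refine integral_congr_ae (Filter.Eventually.of_forall fun t => ?_)
  simp only
  congr 1
  funext l
  exact MeasurableEquiv.piCongrLeft_apply_apply (β := fun _ => ℝ) σ t l

/-- Volume bound. -/
theorem muP_vol {N : ℕ} (b : Fin N → Bool) (g : ℝ → ℝ) (A K : ℝ) (hg : Continuous g)
    (hA : ∀ u, |g u| ≤ A) (hK : ∀ u, K ≤ u → g u = 0) (hK0 : 0 ≤ K) (c : ℝ) (hc : 0 < c) :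
    ∫ t, |g (∑ j, t j)| ∂muP b ≤ A * Real.exp (c * K) / c ^ (Finset.univ.filter fun l => b l).card := by
  have hA0 : 0 ≤ A := (abs_nonneg _).trans (hA 0)
  have hexp1 : ∀ β : Bool, ∫ τ, Real.exp (-c * τ) ∂mu β = if β then 1 / c else 1 := by
    intro β
    cases β
    · rw [mu_false, integral_dirac]; simp
    · rw [mu_true, integral_Ici_eq_integral_Ioi, integral_exp_mul_Ioi (neg_lt_zero.mpr hc) 0]
      simp
  have hexpI : ∀ β : Bool, Integrable (fun τ => Real.exp (-c * τ)) (mu β) := by
    intro β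
    cases β
    · rw [mu_false]; exact integrable_dirac (by simp)
    · rw [mu_true]
      exact Iff.mpr integrableOn_Ici_iff_integrableOn_Ioi
        (integrableOn_exp_mul_Ioi (neg_lt_zero.mpr hc) 0)
  have hprod : ∫ t : Fin N → ℝ, ∏ l, Real.exp (-c * t l) ∂muP b =
      ∏ l, if b l then 1 / c else (1 : ℝ) := by
    unfold muP
    rw [integral_fintype_prod_eq_prod (fun (l : Fin N) (τ : ℝ) => Real.exp (-c * τ))]
    exact Finset.prod_congr rfl fun l _ => hexp1 (b l)
  have hprodI : Integrable (fun t : Fin N → ℝ => ∏ l, Real.exp (-c * t l)) (muP b) := by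
    unfold muP
    exact Integrable.fintype_prod_dep (f := fun (l : Fin N) (τ : ℝ) => Real.exp (-c * τ))
      fun l => hexpI (b l)
  have hle : ∀ t ∈ orth b, |g (∑ j, t j)| ≤ A * Real.exp (c * K) * ∏ l, Real.exp (-c * t l) := by
    intro t _
    rw [← Real.exp_sum, ← Finset.mul_sum, mul_assoc, ← Real.exp_add]
    rcases le_or_gt K (∑ j, t j) with h | h
    · rw [hK _ h, abs_zero]; positivity
    · refine (hA _).trans (le_mul_of_one_le_right hA0 ?_)
      rw [Real.one_le_exp_iff]
      nlinarith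
  calc ∫ t, |g (∑ j, t j)| ∂muP b
      ≤ ∫ t, A * Real.exp (c * K) * ∏ l, Real.exp (-c * t l) ∂muP b := by
        refine integral_mono_of_nonneg (Filter.Eventually.of_forall fun t => abs_nonneg _)
          (hprodI.const_mul _) ?_
        filter_upwards [muP_ae b] with t ht using hle t ht
    _ = A * Real.exp (c * K) * ∏ l, (if b l then 1 / c else (1 : ℝ)) := by
        rw [integral_const_mul, hprod]
    _ = A * Real.exp (c * K) / c ^ (Finset.univ.filter fun l => b l).card := by
        rw [Finset.prod_ite, Finset.prod_const, Finset.prod_const_one, mul_one, one_div, inv_pow,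
          div_eq_mul_inv]

end Vale.Agent.P184.H57
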