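import Vale.Agent.P184.Ex.ListL

/-!
# E4 : closedness, definitions and exact sub-statements
-/

open MeasureTheory
open scoped ENNReal

namespace Vale.Agent.P184.H552

open Vale.Agent.P184.H57 Vale.Agent.P184.H57.Ker

variable {G R : Type*} [Group G] [NormedRing R] [NormOneClass R] [NormedAlgebra ℂ R]
  [CompleteSpace R] (D : TData G R) (ψ : Bump D.κ)

/-- The factors of a word. -/
noncomputable def fk {N : ℕ} (w : Fin N → Lt) (c : Fin N → G) (u : Fin N → Option D.E)
    (t : Fin N → ℝ) (l : Fin N) : Ker G R := D.lk (sN c t) (w l) (c l) (u l)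

/-- The Pfaffian with the form `θ_i` in front. -/
noncomputable def pf1 {N : ℕ} (w : Fin N → Lt) (c : Fin N → G) (u : Fin N → Option D.E)
    (i : Fin N) : ℝ :=
  Pf (.inl (fun _ => 1) :: .inl (Pi.single i 1) :: List.ofFn (D.sy w c u))

/-- The integral of a kernel valued function against the bump function. -/
noncomputable def kI {N : ℕ} (b : Fin N → Bool) (y : G) (K : (Fin N → ℝ) → Ker G R) : ℂ :=
  ∫ t, (ψ.g (∑ l, t l) : ℂ) * D.T ((K t).e (D.ρ y) (D.x * D.ρ y)) ∂muP b

/-- Words with the form `a` in the direction `c i` inserted in the slot `l`. -/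
noncomputable def insK {N : ℕ} (w : Fin N → Lt) (c : Fin N → G) (u : Fin N → Option D.E)
    (l : ℕ) (i : Fin N) (t : Fin N → ℝ) : Ker G R :=
  pre (fk D w c u t) l * D.aD (sN c t) (c i) * post (fk D w c u t) l

/-- the part of the derivative of the form `l` with second derivatives of `W` -/
noncomputable def secK {N : ℕ} (w : Fin N → Lt) (c : Fin N → G) (u : Fin N → Option D.E)
    (l : Fin N) (v : D.E) (i : Fin N) (t : Fin N → ℝ) : Ker G R :=
  pre (fk D w c u t) l * (D.V (sN c t) * dl (c l) * diag (D.B1 v (c i) (sN c t)) * D.E0) *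
    post (fk D w c u t) (l + 1)

/-- E4b: insertion of a form. -/
def SpecIns : Prop := ∀ {N : ℕ} (w : Fin (N + 1) → Lt) (l : Fin (N + 2)),
  HasSum (fun z : {y // IsConj D.x y} × (Fin (N + 1) → G) => ∑ u : Fin (N + 1) → Option D.E,
    ∑ i : Fin (N + 1), (pf1 D w z.2 u i : ℂ) *
      kI D ψ (TData.mark w) z.1 (insK D w z.2 u l i))
    ((-1 : ℂ) ^ (l : ℕ) * D.tF ψ (Fin.insertNth l Lt.a w : Fin (N + 2) → Lt))

/-- E4d: deletion of a mark. -/
def SpecDel : Prop := ∀ {N : ℕ} (w : Fin (N + 2) → Lt) (i : Fin (N + 2)), w i ≠ Lt.a →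
  HasSum (fun z : {y // IsConj D.x y} × (Fin (N + 2) → G) => ∑ u : Fin (N + 2) → Option D.E,
    (pf1 D w z.2 u i : ℂ) * kI D ψ (fun k => TData.mark w (i.succAbove k)) z.1
      (fun s => D.Pw w z.2 u (i.insertNth 0 s)))
    ((-1 : ℂ) ^ (i : ℕ) * D.tF ψ (fun k => w (i.succAbove k)))

/-- E4a and E4c: integration by parts, for fixed points. -/
def SpecStk : Prop := ∀ {N : ℕ} (w : Fin (N + 1) → Lt) (y : G) (c : Fin (N + 1) → G),
  ∑ u : Fin (N + 1) → Option D.E, ∑ i : Fin (N + 1), (pf1 D w c u i : ℂ) *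
    ∑ l : Fin (N + 1), (match w l with
      | .x => 0
      | .y => -kI D ψ (TData.mark w) y (insK D w c u l i) +
          kI D ψ (TData.mark w) y (insK D w c u (l + 1) i)
      | .a => -kI D ψ (TData.mark w) y (insK D w c u l i)) =
  -∑ i : Fin (N + 1), if w i = Lt.a then 0 else ∑ u : Fin (N + 1) → Option D.E,
    (pf1 D w c u i : ℂ) * kI D ψ (fun k => TData.mark w (i.succAbove k)) y
      (fun s => D.Pw w c u (i.insertNth 0 s))

end Vale.Agent.P184.H552
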