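import Vale.Agent.P184.Ex.Ana
import Vale.Agent.P184.Ex.E4Defs

/-!
# E4 : continuity of the kernels of the words
-/

open MeasureTheory
open scoped ENNReal

namespace Vale.Agent.P184.H552

open Vale.Agent.P184.H57 Vale.Agent.P184.H57.Ker

variable {G R : Type*} [Group G] [NormedRing R] [NormOneClass R] [NormedAlgebra ℂ R]
  [CompleteSpace R]

omit [NormedAlgebra ℂ R] in
theorem diag_sub (F F' : Li G R) : (diag F : Ker G R) - diag F' = diag (F - F') := by
  ext p p'
  rw [e_sub, e_diag, e_diag, e_diag]
  split_ifs
  · rfl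
  · simp

omit [NormedAlgebra ℂ R] in
theorem continuous_diag : Continuous (diag : Li G R → Ker G R) := by
  refine Metric.continuous_iff.2 fun F ε hε => ⟨ε, hε, fun F' h => ?_⟩
  rw [dist_eq_norm, diag_sub, norm_diag, ← dist_eq_norm]
  exact h

variable (D : TData G R) (ψ : Bump D.κ)

/-- the region -/
def rg {N : ℕ} (c : Fin N → G) : Set (Fin N → ℝ) := {t | Reg D.κ (sN c t)}

/-- combinations with bounded coefficients -/
theorem norm_comb_le (q : G → D.E → ℝ) (hq : ∀ p u, |q p u| ≤ 1) (F : Li G R)
    (H : D.E → Li G R) (h : ∀ p, F.1 p = ∑ u, (q p u : ℂ) • (H u).1 p) :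
    ‖F‖ ≤ ∑ u, ‖H u‖ := by
  refine lp.norm_le_of_forall_le (Finset.sum_nonneg fun _ _ => norm_nonneg _) fun p => ?_
  have h1 : F p = ∑ u, (q p u : ℂ) • (H u).1 p := h p
  rw [h1]
  refine (norm_sum_le _ _).trans (Finset.sum_le_sum fun u _ => ?_)
  rw [norm_smul]
  have h2 : ‖(q p u : ℂ)‖ ≤ 1 := by
    rw [Complex.norm_real]
    exact hq p u
  calc ‖(q p u : ℂ)‖ * ‖(H u).1 p‖ ≤ 1 * ‖(H u).1 p‖ :=
        mul_le_mul_of_nonneg_right h2 (norm_nonneg _)
    _ = ‖(H u).1 p‖ := one_mul _
    _ ≤ ‖H u‖ := lp.norm_apply_le_norm ENNReal.top_ne_zero (H u) p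

theorem W1_cont {N : ℕ} (c : Fin N → G) (r : G) :
    Continuous fun t : Fin N → ℝ => D.W1 r (sN c t) := by
  rw [continuous_iff_continuousAt]
  intro t0
  have h1 : Filter.Tendsto (fun t : Fin N → ℝ => ∑ u, ‖D.B u (sN c t) - D.B u (sN c t0)‖)
      (nhds t0) (nhds 0) := by
    have h2 : Continuous fun t : Fin N → ℝ => ∑ u, ‖D.B u (sN c t) - D.B u (sN c t0)‖ :=
      continuous_finsetSum _ fun u _ => ((D.B_cont N c u).sub continuous_const).norm
    have h3 := h2.tendsto t0
    simpa using h3
  rw [ContinuousAt, tendsto_iff_norm_sub_tendsto_zero]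
  refine squeeze_zero (fun _ => norm_nonneg _) (fun t => ?_) h1
  refine norm_comb_le D (fun p u => D.q r p u) (fun p u => D.q_bd r p u) _ _ fun p => ?_
  have h4 : (D.W1 r (sN c t) - D.W1 r (sN c t0)).1 p =
      (D.W1 r (sN c t)).1 p - (D.W1 r (sN c t0)).1 p := rfl
  rw [h4, D.W1_eq, D.W1_eq, ← Finset.sum_sub_distrib]
  refine Finset.sum_congr rfl fun u _ => ?_
  rw [← smul_sub]
  rfl

theorem B1_cont {N : ℕ} (c : Fin N → G) (v : D.E) (r : G) :
    Continuous fun t : Fin N → ℝ => D.B1 v r (sN c t) := by
  rw [continuous_iff_continuousAt]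
  intro t0
  have h1 : Filter.Tendsto (fun t : Fin N → ℝ => ∑ u, ‖D.B' v u (sN c t) - D.B' v u (sN c t0)‖)
      (nhds t0) (nhds 0) := by
    have h2 : Continuous fun t : Fin N → ℝ => ∑ u, ‖D.B' v u (sN c t) - D.B' v u (sN c t0)‖ :=
      continuous_finsetSum _ fun u _ => ((D.B'_cont N c v u).sub continuous_const).norm
    have h3 := h2.tendsto t0
    simpa using h3
  rw [ContinuousAt, tendsto_iff_norm_sub_tendsto_zero]
  refine squeeze_zero (fun _ => norm_nonneg _) (fun t => ?_) h1
  refine norm_comb_le D (fun p u => D.q r p u) (fun p u => D.q_bd r p u) _ _ fun p => ?_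
  have h4 : (D.B1 v r (sN c t) - D.B1 v r (sN c t0)).1 p =
      (D.B1 v r (sN c t)).1 p - (D.B1 v r (sN c t0)).1 p := rfl
  rw [h4, D.B1_eq, D.B1_eq, ← Finset.sum_sub_distrib]
  refine Finset.sum_congr rfl fun u _ => ?_
  rw [← smul_sub]
  rfl

section

variable {N : ℕ} (c : Fin N → G)

theorem U_cont : Continuous fun t : Fin N → ℝ => D.U (sN c t) :=
  ((continuous_const.mul (continuous_diag.comp (D.W_cont N c))).mul continuous_const)

theorem lk_cont (l : Lt) (g : G) (u : Option D.E) :
    ContinuousOn (fun t : Fin N → ℝ => D.lk (sN c t) l g u) (rg D c) := by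
  have hV : ContinuousOn (fun t : Fin N → ℝ => D.V (sN c t)) (rg D c) := D.V_cont c
  cases l <;> cases u <;> simp only [TData.lk]
  · exact continuousOn_const
  · exact ((hV.mul continuousOn_const).mul
      (continuous_diag.comp (D.B_cont N c _)).continuousOn).mul continuousOn_const
  · exact continuousOn_const
  · exact continuousOn_const
  · exact (hV.mul continuousOn_const).mul (U_cont D c).continuousOn
  · exact continuousOn_const

theorem aD_cont (r : G) :
    ContinuousOn (fun t : Fin N → ℝ => D.aD (sN c t) r) (rg D c) := by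
  have hV : ContinuousOn (fun t : Fin N → ℝ => D.V (sN c t)) (rg D c) := D.V_cont c
  exact (hV.mul (continuous_diag.comp (W1_cont D c r)).continuousOn).mul continuousOn_const

theorem dlk_cont (r : G) (l : Lt) (g : G) (u : Option D.E) :
    ContinuousOn (fun t : Fin N → ℝ => D.dlk (sN c t) r l g u) (rg D c) := by
  have hV : ContinuousOn (fun t : Fin N → ℝ => D.V (sN c t)) (rg D c) := D.V_cont c
  have ha := aD_cont D c r
  cases l <;> cases u <;> simp only [TData.dlk]
  · exact continuousOn_const
  · exact (ha.mul (lk_cont D c _ _ _)).neg.add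
      (((hV.mul continuousOn_const).mul
      (continuous_diag.comp (B1_cont D c _ _)).continuousOn).mul continuousOn_const)
  · exact continuousOn_const
  · exact continuousOn_const
  · exact (ha.mul (lk_cont D c _ _ _)).neg.add ((lk_cont D c _ _ _).mul ha)
  · exact continuousOn_const

omit [NormedAlgebra ℂ R] in
theorem listprod_cont {X : Type*} [TopologicalSpace X] {S : Set X} {n : ℕ}
    (f : Fin n → X → Ker G R) (hf : ∀ l, ContinuousOn (f l) S) :
    ContinuousOn (fun t => (List.ofFn fun l => f l t).prod) S := by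
  induction n with
  | zero => simpa using continuousOn_const
  | succ n ih =>
    have h1 : (fun t => (List.ofFn fun l => f l t).prod) =
        fun t => f 0 t * (List.ofFn fun l : Fin n => f l.succ t).prod := by
      funext t
      rw [List.ofFn_succ, List.prod_cons]
    rw [h1]
    exact (hf 0).mul (ih (fun l => f l.succ) fun l => hf l.succ)

theorem Pw_cont (w : Fin N → Lt) (u : Fin N → Option D.E) :
    ContinuousOn (D.Pw w c u) (rg D c) :=
  listprod_cont (fun l t => D.lk (sN c t) (w l) (c l) (u l)) fun _ => lk_cont D c _ _ _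

theorem dPw_cont (w : Fin N → Lt) (u : Fin N → Option D.E) (r : G) :
    ContinuousOn (fun t => D.dPw w c u t r) (rg D c) := by
  unfold TData.dPw
  refine continuousOn_finsetSum _ fun l _ => ?_
  refine listprod_cont (fun k t => if k = l then D.dlk (sN c t) r (w l) (c l) (u l) else
    D.lk (sN c t) (w k) (c k) (u k)) fun k => ?_
  by_cases h : k = l
  · simp only [h, if_true]
    exact dlk_cont D c _ _ _ _
  · simp only [h, if_false]
    exact lk_cont D c _ _ _

omit [NormedAlgebra ℂ R] in
theorem takeprod_cont {X : Type*} [TopologicalSpace X] {S : Set X} {n : ℕ}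
    (f : Fin n → X → Ker G R) (hf : ∀ l, ContinuousOn (f l) S) (m : ℕ) :
    ContinuousOn (fun t => pre (fun l => f l t) m) S := by
  induction m with
  | zero => simpa [pre] using continuousOn_const
  | succ m ih =>
    by_cases hm : m < n
    · have h1 : (fun t => pre (fun l => f l t) (m + 1)) =
          fun t => pre (fun l => f l t) m * f ⟨m, hm⟩ t := by
        funext t
        exact pre_succ (fun l => f l t) ⟨m, hm⟩
      rw [h1]
      exact ih.mul (hf _)
    · have h1 : (fun t => pre (fun l => f l t) (m + 1)) = fun t => pre (fun l => f l t) m := by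
        funext t
        unfold pre
        rw [List.take_of_length_le (by simp; omega), List.take_of_length_le (by simp; omega)]
      rw [h1]
      exact ih

omit [NormedAlgebra ℂ R] in
theorem dropprod_cont {X : Type*} [TopologicalSpace X] {S : Set X} {n : ℕ}
    (f : Fin n → X → Ker G R) (hf : ∀ l, ContinuousOn (f l) S) (m : ℕ) :
    ContinuousOn (fun t => post (fun l => f l t) m) S := by
  induction n generalizing m with
  | zero => simpa [post] using continuousOn_const
  | succ n ih =>
    cases m with
    | zero =>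
      have h1 : (fun t => post (fun l => f l t) 0) = fun t => (List.ofFn fun l => f l t).prod := by
        funext t
        simp [post]
      rw [h1]
      exact listprod_cont f hf
    | succ m =>
      have h1 : (fun t => post (fun l => f l t) (m + 1)) =
          fun t => post (fun l : Fin n => f l.succ t) m := by
        funext t
        simp [post, List.ofFn_succ]
      rw [h1]
      exact ih (fun l => f l.succ) (fun l => hf l.succ) m

theorem insK_cont (w : Fin N → Lt) (u : Fin N → Option D.E) (l : ℕ) (i : Fin N) :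
    ContinuousOn (insK D w c u l i) (rg D c) :=
  ((takeprod_cont (fun l t => fk D w c u t l) (fun _ => lk_cont D c _ _ _) l).mul
    (aD_cont D c _)).mul (dropprod_cont (fun l t => fk D w c u t l) (fun _ => lk_cont D c _ _ _) l)

theorem secK_cont (w : Fin N → Lt) (u : Fin N → Option D.E) (l : Fin N) (v : D.E) (i : Fin N) :
    ContinuousOn (secK D w c u l v i) (rg D c) := by
  have hV : ContinuousOn (fun t : Fin N → ℝ => D.V (sN c t)) (rg D c) := D.V_cont c
  exact ((takeprod_cont (fun l t => fk D w c u t l) (fun _ => lk_cont D c _ _ _) l).mul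
    (((hV.mul continuousOn_const).mul
      (continuous_diag.comp (B1_cont D c _ _)).continuousOn).mul continuousOn_const)).mul
    (dropprod_cont (fun l t => fk D w c u t l) (fun _ => lk_cont D c _ _ _) (l + 1))

end

end Vale.Agent.P184.H552
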