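import Mathlib

/-!
# Block D: kernels
-/

open scoped ENNReal

namespace Vale.Agent.P184.H57

/-- Bounded functions. -/
abbrev Li (G R : Type*) [NormedRing R] := lp (fun _ : G => R) ∞

/-- Kernels on `G` with coefficients in `R`: `k.co g p` is the entry at `(p, p g)`; the norm is
`∑ g, sup p ‖k.co g p‖`. -/
noncomputable def Ker (G R : Type*) [NormedRing R] : Type _ := lp (fun _ : G => Li G R) 1

set_option linter.unusedSectionVars false

section Conv

variable {G : Type*} [Group G]

/-- The shear of `G × G`. -/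
def shear (G : Type*) [Group G] : G × G ≃ G × G where
  toFun q := (q.1, q.1⁻¹ * q.2)
  invFun q := (q.1, q.1 * q.2)
  left_inv q := by simp
  right_inv q := by simp

theorem summable_shear {b b' : G → ℝ} (h0 : ∀ g, 0 ≤ b g) (h0' : ∀ g, 0 ≤ b' g)
    (hb : Summable b) (hb' : Summable b') :
    Summable fun q : G × G => b q.1 * b' (q.1⁻¹ * q.2) :=
  (shear G).summable_iff.2 (hb.mul_of_nonneg hb' h0 h0')

theorem summable_shear' {b b' : G → ℝ} (h0 : ∀ g, 0 ≤ b g) (h0' : ∀ g, 0 ≤ b' g)
    (hb : Summable b) (hb' : Summable b') :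
    Summable fun q : G × G => b q.2 * b' (q.2⁻¹ * q.1) :=
  (Equiv.prodComm G G).summable_iff.2 (summable_shear h0 h0' hb hb')

namespace Ker

/-- Convolution of nonnegative summable functions. -/
noncomputable def cv (b b' : G → ℝ) (g : G) : ℝ := ∑' h, b h * b' (h⁻¹ * g)

theorem cv_summable {b b' : G → ℝ} (h0 : ∀ g, 0 ≤ b g) (h0' : ∀ g, 0 ≤ b' g) (hb : Summable b)
    (hb' : Summable b') : Summable (cv b b') ∧ (∀ g, 0 ≤ cv b b' g) ∧
      (∀ g, Summable fun h => b h * b' (h⁻¹ * g)) ∧
      ∑' g, cv b b' g = (∑' g, b g) * ∑' g, b' g := by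
  have h1 := summable_shear' h0 h0' hb hb'
  refine ⟨h1.prod, fun g => tsum_nonneg fun h => mul_nonneg (h0 _) (h0' _),
    fun g => h1.prod_factor g, ?_⟩
  have h2 : ∑' g, cv b b' g = ∑' q : G × G, b q.2 * b' (q.2⁻¹ * q.1) :=
    (h1.tsum_prod).symm
  rw [h2, ← (Equiv.prodComm G G).tsum_eq]
  have h3 := (shear G).tsum_eq fun q : G × G => b q.1 * b' q.2
  simp only [Equiv.prodComm_apply, Prod.swap]
  refine Eq.trans ?_ (h3.trans ?_)
  · rfl
  · exact (hb.tsum_mul_tsum hb' (hb.mul_of_nonneg hb' h0 h0')).symm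

end Ker

end Conv

variable {G R : Type*} [Group G] [NormedRing R] [NormOneClass R]

noncomputable instance : NormedAddCommGroup (Ker G R) :=
  inferInstanceAs (NormedAddCommGroup (lp (fun _ : G => Li G R) 1))

noncomputable instance [NormedAlgebra ℂ R] : NormedSpace ℂ (Ker G R) :=
  inferInstanceAs (NormedSpace ℂ (lp (fun _ : G => Li G R) 1))

instance [CompleteSpace R] : CompleteSpace (Ker G R) :=
  inferInstanceAs (CompleteSpace (lp (fun _ : G => Li G R) 1))

/-- The coefficients. -/
def Ker.co (k : Ker G R) (g : G) : Li G R := k.1 g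

/-- The entry of `k` at `(p, p')`. -/
def Ker.e (k : Ker G R) (p p' : G) : R := (k.co (p⁻¹ * p')).1 p

/-- Right translation of bounded functions. -/
noncomputable def sh (h : G) (F : Li G R) : Li G R :=
  ⟨fun p => F.1 (p * h), by
    obtain ⟨C, hC⟩ := F.2.bddAbove
    refine memℓp_infty ⟨C, ?_⟩
    rintro _ ⟨p, rfl⟩
    exact hC ⟨p * h, rfl⟩⟩

theorem sh_apply (h : G) (F : Li G R) (p : G) : (sh h F).1 p = F.1 (p * h) := rfl

theorem norm_li_apply_le (F : Li G R) (p : G) : ‖F.1 p‖ ≤ ‖F‖ :=
  lp.norm_apply_le_norm (by simp) F p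

theorem norm_sh (h : G) (F : Li G R) : ‖sh h F‖ = ‖F‖ := by
  refine le_antisymm (lp.norm_le_of_forall_le (norm_nonneg _) fun p => ?_)
    (lp.norm_le_of_forall_le (norm_nonneg _) fun p => ?_)
  · exact norm_li_apply_le F (p * h)
  · have := norm_li_apply_le (sh h F) (p * h⁻¹)
    rw [sh_apply, inv_mul_cancel_right] at this
    exact this

theorem Ker.summable (k : Ker G R) : Summable fun g => ‖k.co g‖ := by
  have h := (lp.memℓp k).summable (by simp)
  simp only [ENNReal.toReal_one, Real.rpow_one] at h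
  exact h

theorem Ker.norm_def (k : Ker G R) : ‖k‖ = ∑' g, ‖k.co g‖ := by
  have h := lp.norm_eq_tsum_rpow (p := 1) (by simp) k
  simp only [ENNReal.toReal_one, Real.rpow_one, div_one] at h
  exact h

/-- Kernels from summable coefficients. -/
noncomputable def Ker.mk (f : G → Li G R) (hf : Summable fun g => ‖f g‖) : Ker G R :=
  ⟨f, by
    refine memℓp_gen ?_
    simpa using hf⟩

theorem Ker.co_mk (f : G → Li G R) (hf : Summable fun g => ‖f g‖) (g : G) :
    (Ker.mk f hf).co g = f g := rfl

theorem Ker.norm_term_le (k k' : Ker G R) (g h : G) :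
    ‖k.co h * sh h (k'.co (h⁻¹ * g))‖ ≤ ‖k.co h‖ * ‖k'.co (h⁻¹ * g)‖ := by
  refine (norm_mul_le _ _).trans ?_
  rw [norm_sh]

theorem Ker.norm_conv_le (k k' : Ker G R) (g : G) :
    ‖∑' h, k.co h * sh h (k'.co (h⁻¹ * g))‖ ≤
      Ker.cv (fun g => ‖k.co g‖) (fun g => ‖k'.co g‖) g := by
  have h := Ker.cv_summable (fun g => norm_nonneg (k.co g)) (fun g => norm_nonneg (k'.co g))
    k.summable k'.summable
  exact tsum_of_norm_bounded (h.2.2.1 g).hasSum fun i => Ker.norm_term_le k k' g i

theorem Ker.mul_summable [CompleteSpace R] (k k' : Ker G R) :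
    Summable fun g => ‖∑' h, k.co h * sh h (k'.co (h⁻¹ * g))‖ := by
  have h := Ker.cv_summable (fun g => norm_nonneg (k.co g)) (fun g => norm_nonneg (k'.co g))
    k.summable k'.summable
  exact Summable.of_nonneg_of_le (fun g => norm_nonneg _) (Ker.norm_conv_le k k') h.1

noncomputable instance [CompleteSpace R] : Mul (Ker G R) :=
  ⟨fun k k' => Ker.mk (fun g => ∑' h, k.co h * sh h (k'.co (h⁻¹ * g))) (Ker.mul_summable k k')⟩

theorem Ker.co_mul [CompleteSpace R] (k k' : Ker G R) (g : G) :
    (k * k').co g = ∑' h, k.co h * sh h (k'.co (h⁻¹ * g)) := rfl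

open Classical in
theorem diag_summable (F : Li G R) : Summable fun g : G => ‖if g = 1 then F else 0‖ := by
  refine summable_of_ne_finset_zero (s := {1}) fun g hg => ?_
  rw [if_neg (by simpa using hg), norm_zero]

open Classical in
/-- The diagonal kernel of a bounded function. -/
noncomputable def diag (F : Li G R) : Ker G R :=
  Ker.mk (fun g => if g = 1 then F else 0) (diag_summable F)

noncomputable instance : One (Ker G R) := ⟨diag 1⟩

namespace Ker

theorem co_ext {k k' : Ker G R} (h : ∀ g, k.co g = k'.co g) : k = k' := by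
  apply Subtype.ext
  funext g
  exact h g

theorem co_apply (k : Ker G R) (g p : G) : (k.co g).1 p = k.e p (p * g) := by
  simp [e]

@[ext] theorem ext {k k' : Ker G R} (h : ∀ p p', k.e p p' = k'.e p p') : k = k' := by
  refine co_ext fun g => Subtype.ext (funext fun p => ?_)
  rw [co_apply, co_apply, h]

theorem e_add (k k' : Ker G R) (p p' : G) : (k + k').e p p' = k.e p p' + k'.e p p' := rfl

theorem e_sub (k k' : Ker G R) (p p' : G) : (k - k').e p p' = k.e p p' - k'.e p p' := rfl

theorem e_neg (k : Ker G R) (p p' : G) : (-k).e p p' = -k.e p p' := rfl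

theorem e_zero (p p' : G) : (0 : Ker G R).e p p' = 0 := rfl

theorem e_smul [NormedAlgebra ℂ R] (c : ℂ) (k : Ker G R) (p p' : G) :
    (c • k).e p p' = c • k.e p p' := rfl

theorem norm_e_le (k : Ker G R) (p p' : G) : ‖k.e p p'‖ ≤ ‖k.co (p⁻¹ * p')‖ :=
  norm_li_apply_le _ _

theorem norm_co_le (k : Ker G R) (g : G) : ‖k.co g‖ ≤ ‖k‖ :=
  lp.norm_apply_le_norm (by simp) k g

/-- The entries as continuous linear maps. -/
noncomputable def eL [NormedAlgebra ℂ R] (p p' : G) : Ker G R →L[ℂ] R :=
  LinearMap.mkContinuous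
    { toFun := fun k => k.e p p'
      map_add' := fun k k' => e_add k k' p p'
      map_smul' := fun c k => e_smul c k p p' } 1 (fun k => by
        rw [one_mul]
        exact (norm_e_le k p p').trans (norm_co_le k _))

theorem eL_apply [NormedAlgebra ℂ R] (p p' : G) (k : Ker G R) : eL p p' k = k.e p p' := rfl

/-- Evaluation of bounded functions. -/
def evH (G R : Type*) [NormedRing R] (p : G) : Li G R →+ R where
  toFun F := F.1 p
  map_zero' := rfl
  map_add' _ _ := rfl

theorem continuous_evH (p : G) : Continuous (evH G R p) :=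
  AddMonoidHomClass.continuous_of_bound (evH G R p) 1 fun F => by
    rw [one_mul]
    exact norm_li_apply_le F p

variable [CompleteSpace R]

theorem e_mul_summable (k k' : Ker G R) (p p' : G) :
    Summable fun h => ‖k.e p h * k'.e h p'‖ := by
  have h := (cv_summable (fun g => norm_nonneg (k.co g)) (fun g => norm_nonneg (k'.co g))
    k.summable k'.summable).2.2.1 (p⁻¹ * p')
  rw [← (Equiv.mulLeft p⁻¹).summable_iff] at h
  refine Summable.of_nonneg_of_le (fun g => norm_nonneg _) (fun g => ?_) h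
  refine (norm_mul_le _ _).trans ?_
  simp only [Function.comp, Equiv.coe_mulLeft, mul_inv_rev, inv_inv]
  have e1 : g⁻¹ * p * (p⁻¹ * p') = g⁻¹ * p' := by group
  rw [e1]
  exact mul_le_mul (norm_e_le _ _ _) (norm_e_le _ _ _) (norm_nonneg _) (norm_nonneg _)

theorem e_mul (k k' : Ker G R) (p p' : G) :
    (k * k').e p p' = ∑' h, k.e p h * k'.e h p' := by
  have h := (cv_summable (fun g => norm_nonneg (k.co g)) (fun g => norm_nonneg (k'.co g))
    k.summable k'.summable).2.2.1 (p⁻¹ * p')
  have h2 : Summable fun h => k.co h * sh h (k'.co (h⁻¹ * (p⁻¹ * p'))) :=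
    Summable.of_norm_bounded h fun i => norm_term_le k k' _ i
  have h3 := (h2.hasSum.map (evH G R p) (continuous_evH p)).tsum_eq
  have h4 : (k * k').e p p' = evH G R p (∑' h, k.co h * sh h (k'.co (h⁻¹ * (p⁻¹ * p')))) := rfl
  rw [h4, ← h3, ← (Equiv.mulLeft p⁻¹).tsum_eq]
  refine tsum_congr fun g => ?_
  simp only [Function.comp, Equiv.coe_mulLeft, mul_inv_rev, inv_inv]
  have e1 : g⁻¹ * p * (p⁻¹ * p') = g⁻¹ * p' := by group
  rw [e1]
  change (k.co (p⁻¹ * g)).1 p * (k'.co (g⁻¹ * p')).1 (p * (p⁻¹ * g)) = _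
  rw [mul_inv_cancel_left]
  rfl

open Classical in
omit [CompleteSpace R] in
theorem e_diag (F : Li G R) (p p' : G) : (diag F).e p p' = if p = p' then F.1 p else 0 := by
  have h : (diag F).e p p' = (if p⁻¹ * p' = 1 then F else 0 : Li G R).1 p := rfl
  rw [h]
  by_cases hp : p = p'
  · subst hp
    simp
  · have h2 : ¬ p⁻¹ * p' = 1 := fun h2 => hp (inv_mul_eq_one.1 h2)
    rw [if_neg h2, if_neg hp]
    rfl

open Classical in
omit [CompleteSpace R] in
theorem e_one (p p' : G) : (1 : Ker G R).e p p' = if p = p' then 1 else 0 :=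
  e_diag 1 p p'

theorem diag_mul_e (F : Li G R) (k : Ker G R) (p p' : G) :
    (diag F * k).e p p' = F.1 p * k.e p p' := by
  classical
  rw [e_mul, tsum_eq_single p fun h hh => ?_]
  · rw [e_diag, if_pos rfl]
  · rw [e_diag, if_neg (Ne.symm hh), zero_mul]

theorem mul_diag_e (F : Li G R) (k : Ker G R) (p p' : G) :
    (k * diag F).e p p' = k.e p p' * F.1 p' := by
  classical
  rw [e_mul, tsum_eq_single p' fun h hh => ?_]
  · rw [e_diag, if_pos rfl]
  · rw [e_diag, if_neg hh, mul_zero]

theorem summable_assoc (k k' k'' : Ker G R) (p p' : G) :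
    Summable fun q : G × G => k.e p q.1 * k'.e q.1 q.2 * k''.e q.2 p' := by
  have h0 : Summable fun g => ‖k.co (p⁻¹ * g)‖ :=
    (Equiv.mulLeft p⁻¹).summable_iff (f := fun g => ‖k.co g‖) |>.2 k.summable
  have h1 := summable_shear (b := fun g => ‖k.co (p⁻¹ * g)‖) (b' := fun g => ‖k'.co g‖)
    (fun g => norm_nonneg _) (fun g => norm_nonneg _) h0 k'.summable
  refine Summable.of_norm_bounded (h1.mul_right ‖k''‖) fun q => ?_
  refine (norm_mul_le _ _).trans (mul_le_mul ((norm_mul_le _ _).trans ?_)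
    ((norm_e_le _ _ _).trans (norm_co_le _ _)) (norm_nonneg _) (by positivity))
  exact mul_le_mul (norm_e_le _ _ _) (norm_e_le _ _ _) (norm_nonneg _) (norm_nonneg _)

theorem mul_assoc_aux (k k' k'' : Ker G R) : k * k' * k'' = k * (k' * k'') := by
  ext p p'
  have h := summable_assoc k k' k'' p p'
  rw [e_mul, e_mul]
  have h1 : ∀ g, (k * k').e p g * k''.e g p' = ∑' l, k.e p l * k'.e l g * k''.e g p' := fun g => by
    rw [e_mul, Summable.tsum_mul_right]
    exact (e_mul_summable k k' p g).of_norm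
  have h2 : ∀ l, k.e p l * (k' * k'').e l p' = ∑' g, k.e p l * k'.e l g * k''.e g p' := fun l => by
    rw [e_mul, ← Summable.tsum_mul_left]
    · refine tsum_congr fun g => ?_
      rw [mul_assoc]
    · exact (e_mul_summable k' k'' l p').of_norm
  simp_rw [h1, h2]
  exact Summable.tsum_comm (f := fun l g => k.e p l * k'.e l g * k''.e g p') h

theorem one_mul_aux (k : Ker G R) : 1 * k = k := by
  ext p p'
  change (diag 1 * k).e p p' = _
  rw [diag_mul_e]
  exact one_mul _

theorem mul_one_aux (k : Ker G R) : k * 1 = k := by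
  ext p p'
  change (k * diag 1).e p p' = _
  rw [mul_diag_e]
  exact mul_one _

theorem norm_mul_aux (k k' : Ker G R) : ‖k * k'‖ ≤ ‖k‖ * ‖k'‖ := by
  have h := cv_summable (fun g => norm_nonneg (k.co g)) (fun g => norm_nonneg (k'.co g))
    k.summable k'.summable
  rw [norm_def, norm_def k, norm_def k', ← h.2.2.2]
  exact (k * k').summable.tsum_le_tsum (norm_conv_le k k') h.1

end Ker

/-- The Banach algebra of kernels. -/
noncomputable instance [CompleteSpace R] : NormedRing (Ker G R) :=
  { (inferInstance : NormedAddCommGroup (Ker G R)) with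
    mul := (· * ·)
    one := 1
    mul_assoc := Ker.mul_assoc_aux
    one_mul := Ker.one_mul_aux
    mul_one := Ker.mul_one_aux
    left_distrib := fun a b c => by
      ext p p'
      rw [Ker.e_mul, Ker.e_add, Ker.e_mul, Ker.e_mul, ← Summable.tsum_add]
      · exact tsum_congr fun h => by rw [Ker.e_add, mul_add]
      · exact (Ker.e_mul_summable a b p p').of_norm
      · exact (Ker.e_mul_summable a c p p').of_norm
    right_distrib := fun a b c => by
      ext p p'
      rw [Ker.e_mul, Ker.e_add, Ker.e_mul, Ker.e_mul, ← Summable.tsum_add]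
      · exact tsum_congr fun h => by rw [Ker.e_add, add_mul]
      · exact (Ker.e_mul_summable a c p p').of_norm
      · exact (Ker.e_mul_summable b c p p').of_norm
    zero_mul := fun a => by
      ext p p'
      rw [Ker.e_mul, Ker.e_zero]
      simp [Ker.e_zero]
    mul_zero := fun a => by
      ext p p'
      rw [Ker.e_mul, Ker.e_zero]
      simp [Ker.e_zero]
    norm_mul_le := Ker.norm_mul_aux }

noncomputable instance [CompleteSpace R] [NormedAlgebra ℂ R] : NormedAlgebra ℂ (Ker G R) :=
  { (inferInstance : NormedSpace ℂ (Ker G R)) with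
    toAlgebra := Algebra.ofModule (fun c a b => by
        ext p p'
        rw [Ker.e_mul, Ker.e_smul, Ker.e_mul, ← tsum_const_smul'' c]
        exact tsum_congr fun h => by rw [Ker.e_smul, smul_mul_assoc])
      (fun c a b => by
        ext p p'
        rw [Ker.e_mul, Ker.e_smul, Ker.e_mul, ← tsum_const_smul'' c]
        exact tsum_congr fun h => by rw [Ker.e_smul, mul_smul_comm])
    norm_smul_le := fun c a => norm_smul_le c a }

namespace Ker

open Classical in
theorem norm_diag (F : Li G R) : ‖diag F‖ = ‖F‖ := by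
  rw [norm_def, tsum_eq_single 1 fun g hg => ?_]
  · change ‖(if (1 : G) = 1 then F else 0 : Li G R)‖ = _
    rw [if_pos rfl]
  · change ‖(if g = 1 then F else 0 : Li G R)‖ = _
    rw [if_neg hg, norm_zero]

open Classical in
theorem dl_mem (c : G) : Memℓp (fun p : G => if p = c then (1 : R) else 0) ∞ := by
  refine memℓp_infty ⟨1, ?_⟩
  rintro _ ⟨p, rfl⟩
  dsimp only
  split_ifs <;> simp

open Classical in
/-- The projection onto the position `c`. -/
noncomputable def dl (c : G) : Ker G R := diag ⟨fun p => if p = c then 1 else 0, dl_mem c⟩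

variable [CompleteSpace R]

open Classical in
theorem dl_mul_e (c : G) (k : Ker G R) (p p' : G) :
    (dl c * k).e p p' = if p = c then k.e p p' else 0 := by
  unfold dl
  rw [diag_mul_e]
  split_ifs with h
  · change (if p = c then (1 : R) else 0) * _ = _
    rw [if_pos h, one_mul]
  · change (if p = c then (1 : R) else 0) * _ = _
    rw [if_neg h, zero_mul]

open Classical in
theorem mul_dl_e (c : G) (k : Ker G R) (p p' : G) :
    (k * dl c).e p p' = if p' = c then k.e p p' else 0 := by
  unfold dl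
  rw [mul_diag_e]
  split_ifs with h
  · change _ * (if p' = c then (1 : R) else 0) = _
    rw [if_pos h, mul_one]
  · change _ * (if p' = c then (1 : R) else 0) = _
    rw [if_neg h, mul_zero]

/-- Splitting a product at a position. -/
theorem mul_dl_mul_e (a b : Ker G R) (c p p' : G) :
    (a * dl c * b).e p p' = a.e p c * b.e c p' := by
  classical
  rw [e_mul, tsum_eq_single c fun h hh => ?_]
  · rw [mul_dl_e, if_pos rfl]
  · rw [mul_dl_e, if_neg hh, zero_mul]

/-- Majorants. -/
def Maj (k : Ker G R) (b : G → ℝ) : Prop := ∀ g, ‖k.co g‖ ≤ b g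

theorem Maj.nonneg {k : Ker G R} {b : G → ℝ} (hk : Maj k b) (g : G) : 0 ≤ b g :=
  (norm_nonneg _).trans (hk g)

theorem Maj.e_le {k : Ker G R} {b : G → ℝ} (hk : Maj k b) (p p' : G) :
    ‖k.e p p'‖ ≤ b (p⁻¹ * p') :=
  (norm_e_le _ _ _).trans (hk _)

theorem maj_of_e_le {k : Ker G R} {b : G → ℝ} (h : ∀ p p', ‖k.e p p'‖ ≤ b (p⁻¹ * p')) :
    Maj k b := by
  intro g
  have h0 : 0 ≤ b g := by
    have := (norm_nonneg _).trans (h 1 g)
    simpa using this
  refine lp.norm_le_of_forall_le h0 fun p => ?_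
  have h1 := h p (p * g)
  rw [inv_mul_cancel_left] at h1
  change ‖(k.co g).1 p‖ ≤ _
  rw [co_apply]
  exact h1

theorem Maj.mul {k k' : Ker G R} {b b' : G → ℝ} (hk : Maj k b) (hk' : Maj k' b')
    (hb : Summable b) (hb' : Summable b') : Maj (k * k') (cv b b') := by
  intro g
  have h := cv_summable (fun g => norm_nonneg (k.co g)) (fun g => norm_nonneg (k'.co g))
    k.summable k'.summable
  have h' := cv_summable hk.nonneg hk'.nonneg hb hb'
  refine (norm_conv_le k k' g).trans ((h.2.2.1 g).tsum_le_tsum (fun i => ?_) (h'.2.2.1 g))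
  exact mul_le_mul (hk i) (hk' _) (norm_nonneg _) (hk.nonneg i)

theorem Maj.add {k k' : Ker G R} {b b' : G → ℝ} (hk : Maj k b) (hk' : Maj k' b') :
    Maj (k + k') fun g => b g + b' g := fun g =>
  (norm_add_le (k.co g) (k'.co g)).trans (add_le_add (hk g) (hk' g))

open Classical in
theorem maj_diag {F : Li G R} {C : ℝ} (hF : ‖F‖ ≤ C) :
    Maj (diag F : Ker G R) fun g => open Classical in if g = 1 then C else 0 := by
  intro g
  change ‖(if g = 1 then F else 0 : Li G R)‖ ≤ if g = 1 then C else 0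
  split_ifs with h
  · exact hF
  · rw [norm_zero]

theorem Maj.norm {k : Ker G R} {b : G → ℝ} (hk : Maj k b) (hb : Summable b) :
    ‖k‖ ≤ ∑' g, b g := by
  rw [norm_def]
  exact k.summable.tsum_le_tsum hk hb

open Classical in
/-- Convolution powers. -/
noncomputable def cvp (b : G → ℝ) : ℕ → G → ℝ
  | 0 => fun g => if g = 1 then 1 else 0
  | n + 1 => cv b (cvp b n)

theorem cvp_spec (b : G → ℝ) (h0 : ∀ g, 0 ≤ b g) (hb : Summable b) (n : ℕ) :
    Summable (cvp b n) ∧ (∀ g, 0 ≤ cvp b n g) ∧ ∑' g, cvp b n g = (∑' g, b g) ^ n := by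
  classical
  induction n with
  | zero =>
    refine ⟨summable_of_ne_finset_zero (s := {1}) fun g hg => ?_, fun g => ?_, ?_⟩
    · unfold cvp
      rw [if_neg (by simpa using hg)]
    · unfold cvp
      split_ifs <;> norm_num
    · rw [tsum_eq_single 1 fun g hg => ?_, pow_zero]
      · unfold cvp
        rw [if_pos rfl]
      · unfold cvp
        rw [if_neg hg]
  | succ n ih =>
    have h := cv_summable h0 ih.2.1 hb ih.1
    refine ⟨h.1, h.2.1, ?_⟩
    change ∑' g, cv b (cvp b n) g = _
    rw [h.2.2.2, ih.2.2, pow_succ']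

theorem maj_pow {a : Ker G R} {b : G → ℝ} (ha : Maj a b) (hb : Summable b) (n : ℕ) :
    Maj (a ^ n) (cvp b n) := by
  classical
  induction n with
  | zero =>
    rw [pow_zero]
    intro g
    change ‖(if g = 1 then (1 : Li G R) else 0 : Li G R)‖ ≤ if g = 1 then 1 else 0
    split_ifs with h
    · rw [norm_one]
    · rw [norm_zero]
  | succ n ih =>
    rw [pow_succ']
    exact ha.mul ih hb (cvp_spec b ha.nonneg hb n).1

/-- The coefficients as a homomorphism. -/
def coH (G R : Type*) [Group G] [NormedRing R] (g : G) : Ker G R →+ Li G R where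
  toFun k := k.co g
  map_zero' := rfl
  map_add' _ _ := rfl

theorem continuous_coH (g : G) : Continuous (coH G R g) :=
  AddMonoidHomClass.continuous_of_bound (coH G R g) 1 fun k => by
    rw [one_mul]
    exact norm_co_le k g

/-- Uniform majorant of inverses (Neumann series): all kernels `a` with a fixed majorant `b` with
`∑ b < 1` have an inverse of `1 - a` with a fixed majorant. -/
theorem exists_inv_maj (b : G → ℝ) (h0 : ∀ g, 0 ≤ b g) (hb : Summable b) (h1 : ∑' g, b g < 1) :
    ∃ b' : G → ℝ, (∀ g, 0 ≤ b' g) ∧ Summable b' ∧ ∀ a : Ker G R, Maj a b →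
      ∃ v : Ker G R, Maj v b' ∧ (1 - a) * v = 1 ∧ v * (1 - a) = 1 := by
  have hs : Summable fun q : ℕ × G => cvp b q.1 q.2 := by
    refine (summable_prod_of_nonneg fun q => (cvp_spec b h0 hb q.1).2.1 q.2).2
      ⟨fun n => (cvp_spec b h0 hb n).1, ?_⟩
    have h2 : (fun n => ∑' g, cvp b n g) = fun n => (∑' g, b g) ^ n :=
      funext fun n => (cvp_spec b h0 hb n).2.2
    rw [h2]
    exact summable_geometric_of_lt_one (tsum_nonneg h0) h1
  have hs' : Summable fun q : G × ℕ => cvp b q.2 q.1 :=
    (Equiv.prodComm G ℕ).summable_iff.2 hs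
  refine ⟨fun g => ∑' n, cvp b n g, fun g => tsum_nonneg fun n => (cvp_spec b h0 hb n).2.1 g,
    hs'.prod, fun a ha => ?_⟩
  have hn : ‖a‖ < 1 := (ha.norm hb).trans_lt h1
  refine ⟨∑' n, a ^ n, fun g => ?_, mul_neg_geom_series a hn, geom_series_mul_neg a hn⟩
  have h3 := ((summable_geometric_of_norm_lt_one hn).hasSum.map (coH G R g)
    (continuous_coH g)).tsum_eq
  change ‖coH G R g (∑' n, a ^ n)‖ ≤ _
  rw [← h3]
  exact tsum_of_norm_bounded (hs'.prod_factor g).hasSum fun n => maj_pow ha hb n g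

theorem cst_mem (a : R) : Memℓp (fun _ : G => a) ∞ := by
  refine memℓp_infty ⟨‖a‖, ?_⟩
  rintro _ ⟨p, rfl⟩
  exact le_rfl

theorem cst_summable (a : G → R) (ha : Summable fun g => ‖a g‖) :
    Summable fun g => ‖(⟨fun _ => a g, cst_mem (a g)⟩ : Li G R)‖ := by
  refine Summable.of_nonneg_of_le (fun g => norm_nonneg _) (fun g => ?_) ha
  exact lp.norm_le_of_forall_le (norm_nonneg _) fun _ => le_rfl

/-- Constant kernels. -/
noncomputable def cst (a : G → R) (ha : Summable fun g => ‖a g‖) : Ker G R :=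
  Ker.mk (fun g => ⟨fun _ => a g, cst_mem (a g)⟩) (cst_summable a ha)

theorem cst_e (a : G → R) (ha : Summable fun g => ‖a g‖) (p p' : G) :
    (cst a ha).e p p' = a (p⁻¹ * p') := rfl

theorem maj_cst (a : G → R) (ha : Summable fun g => ‖a g‖) : Maj (cst a ha) fun g => ‖a g‖ :=
  maj_of_e_le fun _ _ => le_rfl

theorem Maj.self (k : Ker G R) : Maj k fun g => ‖k.co g‖ := fun _ => le_rfl

theorem Maj.mono {k : Ker G R} {b b' : G → ℝ} (hk : Maj k b) (h : ∀ g, b g ≤ b' g) : Maj k b' :=
  fun g => (hk g).trans (h g)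

theorem Maj.neg {k : Ker G R} {b : G → ℝ} (hk : Maj k b) : Maj (-k) b := fun g =>
  (norm_neg (k.co g)).le.trans (hk g)

theorem Maj.sub {k k' : Ker G R} {b b' : G → ℝ} (hk : Maj k b) (hk' : Maj k' b') :
    Maj (k - k') fun g => b g + b' g := fun g =>
  (norm_sub_le (k.co g) (k'.co g)).trans (add_le_add (hk g) (hk' g))

theorem Maj.smul [NormedAlgebra ℂ R] {k : Ker G R} {b : G → ℝ} (hk : Maj k b) (c : ℂ) :
    Maj (c • k) fun g => ‖c‖ * b g := fun g =>
  (norm_smul_le c (k.co g)).trans (mul_le_mul_of_nonneg_left (hk g) (norm_nonneg c))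

theorem maj_zero : Maj (0 : Ker G R) fun _ => 0 := fun g => by
  change ‖(0 : Li G R)‖ ≤ 0
  rw [norm_zero]

theorem e_sum [NormedAlgebra ℂ R] {ι : Type*} (s : Finset ι) (k : ι → Ker G R) (p p' : G) :
    (∑ i ∈ s, k i).e p p' = ∑ i ∈ s, (k i).e p p' :=
  map_sum (eL (G := G) (R := R) p p') k s

instance : NormOneClass (Ker G R) := ⟨by
  change ‖(diag 1 : Ker G R)‖ = 1
  rw [norm_diag, norm_one]⟩

end Ker

end Vale.Agent.P184.H57
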