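import Vale.Agent.P184.Ex.E0

/-!
# Block E1: majorants of the word kernels
-/

open MeasureTheory
open scoped ENNReal

namespace Vale.Agent.P184.H232

open H57 H57.Ker

set_option linter.unusedSectionVars false

section sums

variable {G : Type*}

/-- Products of a summable function over the coordinates. -/
theorem prod_summable {f : G → ℝ} (h0 : ∀ g, 0 ≤ f g) (hf : Summable f) (n : ℕ) :
    (Summable fun g : Fin n → G => ∏ i, f (g i)) ∧
      ∑' g : Fin n → G, ∏ i, f (g i) = (∑' g, f g) ^ n := by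
  induction n with
  | zero =>
    refine ⟨(hasSum_fintype _).summable, ?_⟩
    rw [tsum_fintype]
    simp
  | succ n ih =>
    have e : ∀ z : G × (Fin n → G), (∏ i, f ((Fin.consEquiv fun _ => G) z i)) =
        f z.1 * ∏ i, f (z.2 i) := by
      intro z
      rw [Fin.prod_univ_succ]
      rfl
    have hs : Summable fun z : G × (Fin n → G) => f z.1 * ∏ i, f (z.2 i) :=
      Summable.mul_of_nonneg (f := f) (g := fun c : Fin n → G => ∏ i, f (c i)) hf ih.1 h0
        fun c => Finset.prod_nonneg fun i _ => h0 (c i)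
    constructor
    · rw [← (Fin.consEquiv fun _ => G).summable_iff]
      exact hs.congr fun z => (e z).symm
    · rw [← (Fin.consEquiv fun _ => G).tsum_eq]
      calc ∑' z, ∏ i, f ((Fin.consEquiv fun _ => G) z i)
          = ∑' z : G × (Fin n → G), f z.1 * ∏ i, f (z.2 i) := tsum_congr e
        _ = (∑' g, f g) * ∑' g : Fin n → G, ∏ i, f (g i) :=
            (hf.tsum_mul_tsum ih.1 hs).symm
        _ = (∑' g, f g) ^ (n + 1) := by rw [ih.2, pow_succ']

end sums

section chains

variable {G : Type*} [Group G]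

/-- The steps of a chain from `p` to `p'` through the points `c`. -/
def steps {N : ℕ} (p p' : G) (c : Fin N → G) (i : Fin (N + 1)) : G :=
  ((Fin.cons p (Fin.snoc c p' : Fin (N + 1) → G) : Fin (N + 2) → G) i.castSucc)⁻¹ *
    (Fin.cons p (Fin.snoc c p' : Fin (N + 1) → G) : Fin (N + 2) → G) i.succ

theorem steps_zero (p p' : G) (c : Fin 0 → G) : steps p p' c 0 = p⁻¹ * p' := by
  simp [steps]
  rfl

theorem snoc_eq {N : ℕ} (p' : G) (c : Fin (N + 1) → G) :
    (Fin.snoc c p' : Fin (N + 2) → G) =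
      Fin.cons (c 0) (Fin.snoc (fun i => c i.succ) p' : Fin (N + 1) → G) := by
  rw [Fin.cons_snoc_eq_snoc_cons]
  congr 1
  exact (Fin.cons_self_tail c).symm

theorem steps_head {N : ℕ} (p p' : G) (c : Fin (N + 1) → G) : steps p p' c 0 = p⁻¹ * c 0 := by
  unfold steps
  rw [Fin.castSucc_zero, Fin.cons_zero, Fin.succ_zero_eq_one, ← Fin.succ_zero_eq_one,
    Fin.cons_succ, snoc_eq, Fin.cons_zero]

theorem steps_tail {N : ℕ} (p p' : G) (c : Fin (N + 1) → G) (i : Fin (N + 1)) :
    steps p p' c i.succ = steps (c 0) p' (fun i => c i.succ) i := by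
  unfold steps
  rw [← Fin.succ_castSucc, Fin.cons_succ, Fin.cons_succ, snoc_eq]

theorem steps_inj {N : ℕ} : ∀ (p p' q q' : G) (c d : Fin N → G),
    (∀ i, steps p p' c i = steps q q' d i) →
      p⁻¹ * p' = q⁻¹ * q' ∧ (p = q → c = d) := by
  induction N with
  | zero =>
    intro p p' q q' c d h
    refine ⟨?_, fun _ => funext fun i => i.elim0⟩
    have := h 0
    rwa [steps_zero, steps_zero] at this
  | succ N ih =>
    intro p p' q q' c d h
    have h0 := h 0
    rw [steps_head, steps_head] at h0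
    have h1 := ih (c 0) p' (d 0) q' (fun i => c i.succ) (fun i => d i.succ) fun i => by
      have := h i.succ
      rwa [steps_tail, steps_tail] at this
    refine ⟨?_, fun hpq => ?_⟩
    · calc p⁻¹ * p' = (p⁻¹ * c 0) * ((c 0)⁻¹ * p') := by group
        _ = (q⁻¹ * d 0) * ((d 0)⁻¹ * q') := by rw [h0, h1.1]
        _ = q⁻¹ * q' := by group
    · subst hpq
      have h2 : c 0 = d 0 := mul_left_cancel h0
      have h3 := h1.2 h2
      funext i
      rcases Fin.eq_zero_or_eq_succ i with rfl | ⟨j, rfl⟩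
      · exact h2
      · exact congrFun h3 j

/-- The product of a function over the steps, recursively. -/
def bd (f : G → ℝ) : G → List G → G → ℝ
  | p, [], p' => f (p⁻¹ * p')
  | p, c :: L, p' => f (p⁻¹ * c) * bd f c L p'

theorem bd_ofFn (f : G → ℝ) {N : ℕ} : ∀ (p p' : G) (c : Fin N → G),
    bd f p (List.ofFn c) p' = ∏ i, f (steps p p' c i) := by
  induction N with
  | zero =>
    intro p p' c
    rw [List.ofFn_zero, bd, Fin.prod_univ_one, steps_zero]
  | succ N ih =>
    intro p p' c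
    rw [List.ofFn_succ, bd, ih, Fin.prod_univ_succ fun i => f (steps p p' c i), steps_head]
    congr 1
    exact Finset.prod_congr rfl fun i _ => by rw [steps_tail]

theorem bd_nonneg {f : G → ℝ} (hf : ∀ g, 0 ≤ f g) : ∀ (p : G) (L : List G) (p' : G),
    0 ≤ bd f p L p'
  | _, [], _ => hf _
  | _, c :: L, p' => mul_nonneg (hf _) (bd_nonneg hf c L p')

end chains

section kernels

variable {G R : Type*} [Group G] [NormedRing R] [NormOneClass R] [NormedAlgebra ℂ R]
  [CompleteSpace R]

/-- Entrywise majorants. -/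
def EMaj (k : Ker G R) (b : G → ℝ) : Prop := ∀ p p', ‖k.e p p'‖ ≤ b (p⁻¹ * p')

theorem emaj_of_maj {k : Ker G R} {b : G → ℝ} (h : Maj k b) : EMaj k b := fun p p' =>
  (norm_e_le k p p').trans (h _)

theorem EMaj.mono {k : Ker G R} {b b' : G → ℝ} (h : EMaj k b) (hb : ∀ g, b g ≤ b' g) :
    EMaj k b' := fun p p' => (h p p').trans (hb _)

theorem EMaj.mul {k k' : Ker G R} {b b' : G → ℝ} (h0 : ∀ g, 0 ≤ b g) (h0' : ∀ g, 0 ≤ b' g)
    (hb : Summable b) (hb' : Summable b') (hk : EMaj k b) (hk' : EMaj k' b') :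
    EMaj (k * k') (cv b b') := by
  intro p p'
  have hs := (cv_summable h0 h0' hb hb').2.2.1 (p⁻¹ * p')
  have hs' : Summable fun h => b (p⁻¹ * h) * b' (h⁻¹ * p') := by
    rw [← (Equiv.mulLeft p).summable_iff]
    refine hs.congr fun h => ?_
    simp only [Function.comp, Equiv.coe_mulLeft]
    congr 2 <;> group
  have ht : ∑' h, b (p⁻¹ * h) * b' (h⁻¹ * p') = cv b b' (p⁻¹ * p') := by
    rw [← (Equiv.mulLeft p).tsum_eq]
    refine tsum_congr fun h => ?_
    simp only [Equiv.coe_mulLeft]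
    congr 2 <;> group
  have hle : ∀ h, ‖k.e p h * k'.e h p'‖ ≤ b (p⁻¹ * h) * b' (h⁻¹ * p') := fun h =>
    (norm_mul_le _ _).trans (mul_le_mul (hk p h) (hk' h p') (norm_nonneg _) (h0 _))
  rw [e_mul]
  calc ‖∑' h, k.e p h * k'.e h p'‖ ≤ ∑' h, ‖k.e p h * k'.e h p'‖ :=
        norm_tsum_le_tsum_norm (e_mul_summable k k' p p')
    _ ≤ ∑' h, b (p⁻¹ * h) * b' (h⁻¹ * p') :=
        (e_mul_summable k k' p p').tsum_le_tsum hle hs'
    _ = cv b b' (p⁻¹ * p') := ht

/-- The product of the letters `A * dl c * C`. -/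
noncomputable def prodK : List (Ker G R × G × Ker G R) → Ker G R
  | [] => 1
  | (A, c, C) :: L => A * dl c * C * prodK L

theorem cv_smul (M : ℝ) (b b' : G → ℝ) (g : G) :
    cv (fun g => M * b g) b' g = M * cv b b' g := by
  unfold cv
  rw [← tsum_mul_left]
  exact tsum_congr fun h => by ring

theorem prodK_bound {b : G → ℝ} (h0 : ∀ g, 0 ≤ b g) (hb : Summable b) {M : ℝ} (hM : 0 ≤ M) :
    ∀ (L : List (Ker G R × G × Ker G R)) (K : Ker G R), EMaj K (fun g => M * b g) →
      (∀ z ∈ L, EMaj z.1 b ∧ EMaj z.2.2 fun g => M * b g) → ∀ p p' : G,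
      ‖(K * prodK L).e p p'‖ ≤
        M ^ (L.length + 1) * bd (fun g => b g + cv b b g) p (L.map fun z => z.2.1) p' := by
  have hcv := cv_summable h0 h0 hb hb
  intro L
  induction L with
  | nil =>
    intro K hK _ p p'
    simp only [prodK, mul_one, List.length_nil, zero_add, pow_one, List.map_nil, bd]
    refine (hK p p').trans (mul_le_mul_of_nonneg_left ?_ hM)
    exact le_add_of_nonneg_right (hcv.2.1 _)
  | cons z L ih =>
    obtain ⟨A, c, C⟩ := z
    intro K hK hL p p'
    have hz := hL _ (List.mem_cons_self)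
    have h1 := ih C hz.2 (fun z hz => hL z (List.mem_cons_of_mem _ hz)) c p'
    have h2 : EMaj (K * A) fun g => M * cv b b g := by
      have := EMaj.mul (fun g => mul_nonneg hM (h0 g)) h0 (hb.mul_left M) hb hK hz.1
      exact this.mono fun g => (cv_smul M b b g).le
    have e : K * prodK ((A, c, C) :: L) = (K * A) * dl c * (C * prodK L) := by
      simp only [prodK, mul_assoc]
    rw [e, mul_dl_mul_e]
    simp only [List.length_cons, List.map_cons, bd]
    calc ‖(K * A).e p c * (C * prodK L).e c p'‖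
        ≤ (M * cv b b (p⁻¹ * c)) *
          (M ^ (L.length + 1) * bd (fun g => b g + cv b b g) c (L.map fun z => z.2.1) p') :=
          (norm_mul_le _ _).trans (mul_le_mul (h2 p c) h1 (norm_nonneg _)
            (mul_nonneg hM (hcv.2.1 _)))
      _ ≤ (M * (b (p⁻¹ * c) + cv b b (p⁻¹ * c))) *
          (M ^ (L.length + 1) * bd (fun g => b g + cv b b g) c (L.map fun z => z.2.1) p') := by
          refine mul_le_mul_of_nonneg_right (mul_le_mul_of_nonneg_left ?_ hM) ?_
          · exact le_add_of_nonneg_left (h0 _)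
          · exact mul_nonneg (pow_nonneg hM _) (bd_nonneg (fun g => add_nonneg (h0 g)
              (hcv.2.1 g)) _ _ _)
      _ = _ := by ring

theorem prodK_bound' {b : G → ℝ} (h0 : ∀ g, 0 ≤ b g) (hb : Summable b) {M : ℝ} (hM : 0 ≤ M)
    (L : List (Ker G R × G × Ker G R)) (hL : L ≠ [])
    (h : ∀ z ∈ L, EMaj z.1 b ∧ EMaj z.2.2 fun g => M * b g) (p p' : G) :
    ‖(prodK L).e p p'‖ ≤
      M ^ L.length * bd (fun g => b g + cv b b g) p (L.map fun z => z.2.1) p' := by
  have hcv := cv_summable h0 h0 hb hb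
  obtain ⟨⟨A, c, C⟩, L, rfl⟩ := List.exists_cons_of_ne_nil hL
  have hz := h _ (List.mem_cons_self)
  have h1 := prodK_bound h0 hb hM L C hz.2 (fun z hz => h z (List.mem_cons_of_mem _ hz)) c p'
  have e : prodK ((A, c, C) :: L) = A * dl c * (C * prodK L) := by
    simp only [prodK, mul_assoc]
  rw [e, mul_dl_mul_e]
  simp only [List.length_cons, List.map_cons, bd]
  calc ‖A.e p c * (C * prodK L).e c p'‖
      ≤ b (p⁻¹ * c) *
        (M ^ (L.length + 1) * bd (fun g => b g + cv b b g) c (L.map fun z => z.2.1) p') :=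
        (norm_mul_le _ _).trans (mul_le_mul (hz.1 p c) h1 (norm_nonneg _) (h0 _))
    _ ≤ (b (p⁻¹ * c) + cv b b (p⁻¹ * c)) *
        (M ^ (L.length + 1) * bd (fun g => b g + cv b b g) c (L.map fun z => z.2.1) p') := by
        refine mul_le_mul_of_nonneg_right ?_ ?_
        · exact le_add_of_nonneg_right (hcv.2.1 _)
        · exact mul_nonneg (pow_nonneg hM _) (bd_nonneg (fun g => add_nonneg (h0 g)
            (hcv.2.1 g)) _ _ _)
    _ = _ := by ring

end kernels

section data

variable {G R : Type*} [Group G] [NormedRing R] [NormOneClass R] [NormedAlgebra ℂ R]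
  [CompleteSpace R] (D : TData G R)

theorem b2_summable : Summable fun g => D.b g + cv D.b D.b g :=
  D.b_sum.add (cv_summable D.b_nonneg D.b_nonneg D.b_sum D.b_sum).1

theorem b2_nonneg (g : G) : 0 ≤ D.b g + cv D.b D.b g :=
  add_nonneg (D.b_nonneg g) ((cv_summable D.b_nonneg D.b_nonneg D.b_sum D.b_sum).2.1 g)

theorem ch_eq {N : ℕ} (z : {y // IsConj D.x y} × (Fin N → G)) :
    D.ch z = ∏ i, (fun g => D.b g + cv D.b D.b g)
      (steps (D.ρ z.1) (D.x * D.ρ z.1) z.2 i) := rfl

theorem chain_injective (N : ℕ) :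
    Function.Injective fun z : {y // IsConj D.x y} × (Fin N → G) =>
      fun i => steps (D.ρ z.1) (D.x * D.ρ z.1) z.2 i := by
  rintro ⟨⟨y, hy⟩, c⟩ ⟨⟨y', hy'⟩, c'⟩ h
  have h1 := steps_inj (D.ρ y) (D.x * D.ρ y) (D.ρ y') (D.x * D.ρ y') c c' fun i => congrFun h i
  have h2 : y = y' := by
    have := h1.1
    rw [← mul_assoc, ← mul_assoc, D.ρ_spec y hy, D.ρ_spec y' hy'] at this
    exact this
  subst h2
  have h3 := h1.2 rfl
  subst h3
  rfl

theorem ch_summable (N : ℕ) : Summable (D.ch (N := N)) := by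
  have h := (prod_summable (b2_nonneg D) (b2_summable D) (N + 1)).1
  exact (h.comp_injective (chain_injective D N)).congr fun z => ch_eq D z

theorem ch_tsum_le (N : ℕ) :
    ∑' z, D.ch (N := N) z ≤ (∑' g, (D.b g + cv D.b D.b g)) ^ (N + 1) := by
  have h := prod_summable (b2_nonneg D) (b2_summable D) (N + 1)
  rw [← h.2]
  refine Summable.tsum_le_tsum_of_inj (fun z : {y // IsConj D.x y} × (Fin N → G) =>
      fun i => steps (D.ρ z.1) (D.x * D.ρ z.1) z.2 i) (chain_injective D N) ?_ ?_
      (ch_summable D N) h.1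
  · intro g _
    exact Finset.prod_nonneg fun i _ => b2_nonneg D _
  · intro z
    rw [ch_eq]

theorem diag_emaj {F : Li G R} {k : Ker G R} {b : G → ℝ} (C : ℝ) (hF : ‖F‖ ≤ C)
    (hk : EMaj k b) : EMaj (diag F * k) fun g => C * b g := by
  intro p p'
  rw [diag_mul_e]
  refine (norm_mul_le _ _).trans (mul_le_mul ?_ (hk p p') (norm_nonneg _)
    ((norm_nonneg _).trans hF))
  exact (lp.norm_apply_le_norm (by simp) F p).trans hF

theorem Pw_bound {N : ℕ} (hN : 0 < N) (w : Fin N → Lt) (z : {y // IsConj D.x y} × (Fin N → G))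
    (u : Fin N → Option D.E) (t : Fin N → ℝ) (ht : Reg D.κ (sN z.2 t)) :
    ‖(D.Pw w z.2 u t).e (D.ρ z.1) (D.x * D.ρ z.1)‖ ≤ (max 1 D.CB) ^ N * D.ch z := by
  classical
  have hM : (0 : ℝ) ≤ max 1 D.CB := le_trans zero_le_one (le_max_left _ _)
  have hMb : ∀ g, D.b g ≤ max 1 D.CB * D.b g := fun g =>
    le_mul_of_one_le_left (D.b_nonneg g) (le_max_left _ _)
  have hch : 0 ≤ D.ch z := by
    rw [ch_eq]
    exact Finset.prod_nonneg fun i _ => b2_nonneg D _
  set s := sN z.2 t with hs
  -- the factorisations of the letters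
  have hlet : ∀ l : Fin N, D.lk s (w l) (z.2 l) (u l) = 0 ∨ ∃ A C : Ker G R,
      D.lk s (w l) (z.2 l) (u l) = A * dl (z.2 l) * C ∧ EMaj A D.b ∧
        EMaj C fun g => max 1 D.CB * D.b g := by
    intro l
    rcases hw : w l with _ | _ | _ <;> rcases hu : u l with _ | v
    · exact Or.inl rfl
    · right
      refine ⟨D.V s, diag (D.B v s) * D.E0, ?_, emaj_of_maj (D.V_maj s), ?_⟩
      · simp only [TData.lk, mul_assoc]
      · refine (diag_emaj D.CB (D.B_bd v s ht) (emaj_of_maj D.E0_maj)).mono fun g => ?_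
        exact mul_le_mul_of_nonneg_right (le_max_right _ _) (D.b_nonneg g)
    · right
      exact ⟨D.E0, D.E0, rfl, emaj_of_maj D.E0_maj, (emaj_of_maj D.E0_maj).mono hMb⟩
    · exact Or.inl rfl
    · right
      exact ⟨D.V s, D.U s, rfl, emaj_of_maj (D.V_maj s),
        (emaj_of_maj (D.U_maj s ht)).mono hMb⟩
    · exact Or.inl rfl
  by_cases hz : ∃ l : Fin N, D.lk s (w l) (z.2 l) (u l) = 0
  · obtain ⟨l, hl⟩ := hz
    have h0 : D.Pw w z.2 u t = 0 := by
      unfold TData.Pw
      apply List.prod_eq_zero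
      rw [List.mem_ofFn]
      exact ⟨l, hl⟩
    rw [h0]
    have h1 : (0 : Ker G R).e (D.ρ z.1) (D.x * D.ρ z.1) = 0 := by
      have := e_sub (0 : Ker G R) 0 (D.ρ z.1) (D.x * D.ρ z.1)
      rwa [sub_zero, sub_self] at this
    rw [h1, norm_zero]
    exact mul_nonneg (pow_nonneg hM _) hch
  · rw [not_exists] at hz
    have hlet' : ∀ l : Fin N, ∃ A C : Ker G R,
        D.lk s (w l) (z.2 l) (u l) = A * dl (z.2 l) * C ∧ EMaj A D.b ∧
          EMaj C fun g => max 1 D.CB * D.b g := fun l => (hlet l).resolve_left (hz l)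
    choose A C hAC hA hC using hlet'
    have hprod : ∀ (n : ℕ) (A' : Fin n → Ker G R) (c' : Fin n → G) (C' : Fin n → Ker G R),
        (List.ofFn fun l => A' l * dl (c' l) * C' l).prod =
          prodK (List.ofFn fun l => (A' l, c' l, C' l)) := by
      intro n
      induction n with
      | zero => intro A' c' C'; simp [prodK]
      | succ n ih =>
        intro A' c' C'
        rw [List.ofFn_succ, List.ofFn_succ, List.prod_cons, prodK, ih]
    have h1 : D.Pw w z.2 u t = prodK (List.ofFn fun l => (A l, z.2 l, C l)) := by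
      rw [← hprod]
      unfold TData.Pw
      congr 2
      funext l
      exact hAC l
    rw [h1]
    have h2 := prodK_bound' D.b_nonneg D.b_sum hM (List.ofFn fun l => (A l, z.2 l, C l))
      (by rw [Ne, List.ofFn_eq_nil_iff]; omega)
      (by
        intro y hy
        rw [List.mem_ofFn] at hy
        obtain ⟨l, rfl⟩ := hy
        exact ⟨hA l, hC l⟩) (D.ρ z.1) (D.x * D.ρ z.1)
    rw [List.length_ofFn, List.map_ofFn] at h2
    refine h2.trans (le_of_eq ?_)
    congr 1
    exact bd_ofFn (fun g => D.b g + cv D.b D.b g) (D.ρ z.1) (D.x * D.ρ z.1) z.2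

end data

end Vale.Agent.P184.H232
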