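import Vale.Agent.P184.Ex.E1
import Vale.Agent.P184.Ex.E1a

/-!
# Block E5: the superexponential bound of the word functional
-/

open MeasureTheory
open scoped ENNReal

namespace Vale.Agent.P184.H232

open H57 H57.Ker

set_option linter.unusedSectionVars false

theorem mass_sN {G : Type*} {N : ℕ} (c : Fin N → G) (t : Fin N → ℝ) :
    mass (sN c t) = ∑ l, t l := by
  unfold mass sN
  rw [← Finsupp.sum_finsetSum_index (fun _ => rfl) (fun _ _ _ => rfl)]
  exact Finset.sum_congr rfl fun l _ => Finsupp.sum_single_index rfl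

theorem sN_nonneg {G : Type*} {N : ℕ} (c : Fin N → G) (t : Fin N → ℝ) (ht : ∀ l, 0 ≤ t l)
    (r : G) : 0 ≤ sN c t r := by
  classical
  unfold sN
  rw [Finsupp.finsetSum_apply]
  refine Finset.sum_nonneg fun l _ => ?_
  rw [Finsupp.single_apply]
  split_ifs
  · exact ht l
  · exact le_rfl

theorem countP_ofFn {α : Type*} (p : α → Bool) : ∀ {n : ℕ} (f : Fin n → α),
    (List.ofFn f).countP p = ∑ i, if p (f i) then 1 else 0 := by
  intro n
  induction n with
  | zero => intro f; simp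
  | succ n ih =>
    intro f
    rw [List.ofFn_succ, List.countP_cons, ih, Fin.sum_univ_succ, add_comm]

section

variable {κ : ℝ} (ψ : Bump κ)

theorem bump_cont : Continuous ψ.g :=
  continuous_iff_continuousAt.mpr fun u => (ψ.deriv u).continuousAt

theorem bump_bound : ∃ A : ℝ, 0 ≤ A ∧ ∀ u, |ψ.g u| ≤ A := by
  obtain ⟨A, hA⟩ := (isCompact_Icc (a := 1 - ψ.r) (b := 1 + ψ.r)).exists_bound_of_continuousOn
    (bump_cont ψ).continuousOn
  refine ⟨max A 0, le_max_right _ _, fun u => ?_⟩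
  by_cases hu : ψ.r ≤ |u - 1|
  · rw [ψ.supp u hu, abs_zero]; exact le_max_right _ _
  · rw [not_le, abs_lt] at hu
    refine le_trans ?_ (le_max_left _ _)
    exact hA u ⟨by linarith [hu.1], by linarith [hu.2]⟩

end

variable {G R : Type*} [Group G] [NormedRing R] [NormOneClass R] [NormedAlgebra ℂ R]
  [CompleteSpace R] (D : TData G R) (ψ : Bump D.κ)

theorem e_zero (p p' : G) : (0 : Ker G R).e p p' = 0 := by
  have := e_sub (0 : Ker G R) 0 p p'
  rwa [sub_zero, sub_self] at this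

theorem ig_bound {N : ℕ} (hN : 0 < N) (w : Fin N → Lt)
    (z : {y // IsConj D.x y} × (Fin N → G)) (u : Fin N → Option D.E) :
    ‖D.ig ψ z.1 w z.2 u‖ ≤ ‖D.T‖ * ((max 1 D.CB) ^ N * D.ch z) *
      ∫ t, |ψ.g (∑ l, t l)| ∂muP (TData.mark w) := by
  have hM : (0 : ℝ) ≤ max 1 D.CB := le_trans zero_le_one (le_max_left _ _)
  have hch : 0 ≤ D.ch z := by
    rw [ch_eq]
    exact Finset.prod_nonneg fun i _ => b2_nonneg D _
  unfold TData.ig
  rw [← integral_const_mul]
  refine norm_integral_le_of_norm_le ?_ ?_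
  · refine Integrable.const_mul (Integrable.abs ?_) _
    refine muP_integrable (TData.mark w) 2 _ ?_ ?_
    · exact ((bump_cont ψ).comp
        (continuous_finsetSum _ fun j _ => continuous_apply j)).continuousOn
    · intro t _ h2
      refine ψ.supp _ ?_
      have := ψ.r_lt
      have := D.κ_lt
      rw [le_abs]
      left
      linarith
  · filter_upwards [muP_ae (TData.mark w)] with t ht
    rw [norm_mul, mul_comm, Complex.norm_real, Real.norm_eq_abs]
    by_cases hg : ψ.r ≤ |∑ l, t l - 1|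
    · rw [ψ.supp _ hg, abs_zero, mul_zero, mul_zero]
    · refine mul_le_mul_of_nonneg_right ?_ (abs_nonneg _)
      have hreg : Reg D.κ (sN z.2 t) := by
        refine ⟨sN_nonneg z.2 t fun l => (ht l).1, ?_⟩
        rw [mass_sN]
        exact (not_le.mp hg).trans ψ.r_lt
      refine (D.T.le_opNorm _).trans (mul_le_mul_of_nonneg_left ?_ (norm_nonneg _))
      exact Pw_bound D hN w z u t hreg

theorem ig_zero {N : ℕ} (w : Fin N → Lt) (y : G) (c : Fin N → G) (u : Fin N → Option D.E)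
    (l : Fin N) (hw : w l = .a) (hu : u l = none) : D.ig ψ y w c u = 0 := by
  unfold TData.ig
  have h : ∀ t, D.Pw w c u t = 0 := by
    intro t
    unfold TData.Pw
    apply List.prod_eq_zero
    rw [List.mem_ofFn]
    refine ⟨l, ?_⟩
    rw [hw, hu]
    rfl
  simp only [h, e_zero, map_zero, mul_zero, integral_zero]

theorem cf_zero {N : ℕ} (w : Fin N → Lt) (c : Fin N → G) (u : Fin N → Option D.E)
    (hu : ∀ l, w l = .a → u l ≠ none)
    (h : (Finset.univ.filter fun l => w l ≠ .a).card ≠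
      (Finset.univ.filter fun l => w l = .a).card + 1) : D.cf w c u = 0 := by
  unfold TData.cf
  apply Pf_count
  rw [List.countP_cons, List.countP_cons, countP_ofFn, countP_ofFn]
  have h1 : ∀ l, (if ((D.sy w c u l).isLeft : Bool) then 1 else 0 : ℕ) =
      if w l = .a then 1 else 0 := by
    intro l
    unfold TData.sy
    rcases hw : w l with _ | _ | _ <;> rcases hul : u l with _ | v
    · exact absurd hul (hu l hw)
    all_goals simp
  have h2 : ∀ l, (if ((D.sy w c u l).isRight : Bool) then 1 else 0 : ℕ) =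
      if w l ≠ .a then 1 else 0 := by
    intro l
    unfold TData.sy
    rcases hw : w l with _ | _ | _ <;> rcases hul : u l with _ | v
    · exact absurd hul (hu l hw)
    all_goals simp
  rw [Finset.sum_congr rfl fun l _ => h1 l, Finset.sum_congr rfl fun l _ => h2 l,
    ← Finset.card_filter, ← Finset.card_filter]
  simp only [Sum.isLeft_inl, Sum.isRight_inl, if_true, Bool.false_eq_true, if_false, add_zero]
  exact fun h3 => h h3.symm

theorem tF_weight {N : ℕ} (w : Fin N → Lt)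
    (h : (Finset.univ.filter fun l => w l ≠ .a).card ≠
      (Finset.univ.filter fun l => w l = .a).card + 1) : D.tF ψ w = 0 := by
  unfold TData.tF
  have h1 : ∀ z : {y // IsConj D.x y} × (Fin N → G), ∑ u : Fin N → Option D.E,
      (D.cf w z.2 u : ℂ) * D.ig ψ z.1 w z.2 u = 0 := by
    intro z
    refine Finset.sum_eq_zero fun u _ => ?_
    by_cases hu : ∀ l, w l = .a → u l ≠ none
    · rw [cf_zero D w z.2 u hu h]; simp
    · simp only [not_forall, not_not] at hu
      obtain ⟨l, hw, hul⟩ := hu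
      rw [ig_zero D ψ w z.1 z.2 u l hw hul, mul_zero]
  simp only [h1, tsum_zero]

theorem cf_bound (n : ℕ) (w : Fin (2 * n + 1) → Lt) (c : Fin (2 * n + 1) → G)
    (u : Fin (2 * n + 1) → Option D.E) :
    |D.cf w c u| ≤ ((n + 1 : ℕ) : ℝ) ^ (((n + 1 : ℕ) : ℝ) / 2) := by
  unfold TData.cf
  refine Pf_bound _ (n + 1) ?_ ?_
  · rw [List.length_cons, List.length_ofFn]; ring
  · intro f hf i _
    rcases List.mem_cons.mp hf with hf | hf
    · have h1 : f = fun _ => 1 := Sum.inl.inj hf
      rw [h1, abs_one]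
    · rw [List.mem_ofFn] at hf
      obtain ⟨l, hl⟩ := hf
      unfold TData.sy at hl
      split at hl
      · have h1 := Sum.inl.inj hl
        rw [← h1]
        exact D.q_bd _ _ _
      · exact absurd hl (by simp)

theorem tF_bound : ∃ C : ℝ, 0 ≤ C ∧ ∀ (n : ℕ) (w : Fin (2 * n + 1) → Lt),
    ‖D.tF ψ w‖ ≤ C ^ (n + 1) * (n + 1 : ℝ) ^ (-((n : ℝ) + 1) / 2) := by
  classical
  obtain ⟨A, hA0, hA⟩ := bump_bound ψ
  set M : ℝ := max 1 D.CB with hMdef
  have hM1 : (1 : ℝ) ≤ M := le_max_left _ _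
  have hM : (0 : ℝ) ≤ M := le_trans zero_le_one hM1
  set a : ℝ := (Fintype.card (Option D.E) : ℝ) with ha
  have ha1 : (1 : ℝ) ≤ a := by
    rw [ha, Fintype.card_option]
    push_cast
    have : (0 : ℝ) ≤ Fintype.card D.E := Nat.cast_nonneg _
    linarith
  set S : ℝ := ∑' g, (D.b g + cv D.b D.b g) with hS
  have hS0 : 0 ≤ S := tsum_nonneg (b2_nonneg D)
  set B : ℝ := max 1 (‖D.T‖ * A) with hB
  have hB1 : (1 : ℝ) ≤ B := le_max_left _ _
  refine ⟨a ^ 2 * M ^ 2 * S ^ 2 * B * Real.exp 2, by positivity, fun n w => ?_⟩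
  have hn0 : (0 : ℝ) < (n : ℝ) + 1 := by positivity
  by_cases hw : (Finset.univ.filter fun l => w l ≠ .a).card =
      (Finset.univ.filter fun l => w l = .a).card + 1
  swap
  · rw [tF_weight D ψ w hw, norm_zero]
    positivity
  -- the number of marks
  have hcard : (Finset.univ.filter fun l => w l ≠ .a).card = n + 1 := by
    have h1 : (Finset.univ.filter fun l => w l = .a).card +
        (Finset.univ.filter fun l => w l ≠ .a).card = 2 * n + 1 := by
      have h2 := Finset.card_filter_add_card_filter_not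
        (s := (Finset.univ : Finset (Fin (2 * n + 1)))) (fun l => w l = Lt.a)
      rw [Finset.card_univ, Fintype.card_fin] at h2
      refine Eq.trans ?_ h2
      congr 2
    omega
  -- the integrals
  have hvol : ∫ t, |ψ.g (∑ l, t l)| ∂muP (TData.mark w) ≤
      A * Real.exp (((n : ℝ) + 1) * 2) / ((n : ℝ) + 1) ^ (n + 1) := by
    have h1 := muP_vol (TData.mark w) ψ.g A 2 (bump_cont ψ) hA (fun u hu => by
      refine ψ.supp _ ?_
      have := ψ.r_lt
      have := D.κ_lt
      rw [le_abs]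
      left
      linarith) (by norm_num) ((n : ℝ) + 1) hn0
    have h2 : (Finset.univ.filter fun l => (TData.mark w l : Bool) = true).card = n + 1 := by
      rw [← hcard]
      congr 1
      ext l
      simp [TData.mark]
    rw [h2] at h1
    exact h1
  set Iv : ℝ := A * Real.exp (((n : ℝ) + 1) * 2) / ((n : ℝ) + 1) ^ (n + 1) with hIv
  have hIv0 : 0 ≤ Iv := by positivity
  -- the terms
  set P : ℝ := ((n : ℝ) + 1) ^ (((n : ℝ) + 1) / 2) with hP
  have hP0 : 0 ≤ P := by positivity
  have hterm : ∀ z : {y // IsConj D.x y} × (Fin (2 * n + 1) → G),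
      ‖∑ u : Fin (2 * n + 1) → Option D.E, (D.cf w z.2 u : ℂ) * D.ig ψ z.1 w z.2 u‖ ≤
        (a ^ (2 * n + 1) * (P * (‖D.T‖ * M ^ (2 * n + 1) * Iv))) * D.ch z := by
    intro z
    have hch : 0 ≤ D.ch z := by
      rw [ch_eq]
      exact Finset.prod_nonneg fun i _ => b2_nonneg D _
    have h1 : ∀ u ∈ (Finset.univ : Finset (Fin (2 * n + 1) → Option D.E)),
        ‖(D.cf w z.2 u : ℂ) * D.ig ψ z.1 w z.2 u‖ ≤
          P * (‖D.T‖ * M ^ (2 * n + 1) * Iv) * D.ch z := by
      intro u _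
      rw [norm_mul, Complex.norm_real, Real.norm_eq_abs]
      have h2 := cf_bound D n w z.2 u
      push_cast at h2
      have h3 := (ig_bound D ψ (Nat.succ_pos _) w z u).trans
        (mul_le_mul_of_nonneg_left hvol (by positivity))
      calc |D.cf w z.2 u| * ‖D.ig ψ z.1 w z.2 u‖
          ≤ P * (‖D.T‖ * (M ^ (2 * n + 1) * D.ch z) * Iv) :=
            mul_le_mul h2 h3 (norm_nonneg _) hP0
        _ = _ := by ring
    refine (norm_sum_le_of_le _ h1).trans (le_of_eq ?_)
    rw [Finset.sum_const, Finset.card_univ, Fintype.card_fun, Fintype.card_fin, nsmul_eq_mul]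
    push_cast
    rw [← ha]
    ring
  have hcoef : 0 ≤ a ^ (2 * n + 1) * (P * (‖D.T‖ * M ^ (2 * n + 1) * Iv)) := by positivity
  have hbound : ‖D.tF ψ w‖ ≤
      (a ^ (2 * n + 1) * (P * (‖D.T‖ * M ^ (2 * n + 1) * Iv))) * S ^ (2 * n + 2) := by
    unfold TData.tF
    refine (tsum_of_norm_bounded ((ch_summable D (2 * n + 1)).hasSum.mul_left _) hterm).trans ?_
    exact mul_le_mul_of_nonneg_left (ch_tsum_le D (2 * n + 1)) hcoef
  refine hbound.trans ?_
  -- comparison of the constants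
  have hPI : P / ((n : ℝ) + 1) ^ (n + 1) = ((n : ℝ) + 1) ^ (-((n : ℝ) + 1) / 2) := by
    rw [hP, ← Real.rpow_natCast ((n : ℝ) + 1) (n + 1), ← Real.rpow_sub hn0]
    congr 1
    push_cast
    ring
  have hexp : Real.exp (((n : ℝ) + 1) * 2) = Real.exp 2 ^ (n + 1) := by
    rw [← Real.exp_nat_mul]
    push_cast
    ring_nf
  have h1 : a ^ (2 * n + 1) ≤ (a ^ 2) ^ (n + 1) := by
    rw [← pow_mul]
    exact pow_le_pow_right₀ ha1 (by omega)
  have h2 : M ^ (2 * n + 1) ≤ (M ^ 2) ^ (n + 1) := by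
    rw [← pow_mul]
    exact pow_le_pow_right₀ hM1 (by omega)
  have h3 : ‖D.T‖ * A ≤ B ^ (n + 1) := by
    calc ‖D.T‖ * A ≤ B := le_max_right _ _
      _ = B ^ 1 := (pow_one _).symm
      _ ≤ B ^ (n + 1) := pow_le_pow_right₀ hB1 (by omega)
  have h4 : S ^ (2 * n + 2) = (S ^ 2) ^ (n + 1) := by
    rw [← pow_mul]
    congr 1
  have hTA : 0 ≤ ‖D.T‖ * A := by positivity
  calc (a ^ (2 * n + 1) * (P * (‖D.T‖ * M ^ (2 * n + 1) * Iv))) * S ^ (2 * n + 2)
      = (a ^ (2 * n + 1) * M ^ (2 * n + 1) * (‖D.T‖ * A)) *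
        (S ^ (2 * n + 2) * Real.exp (((n : ℝ) + 1) * 2) * (P / ((n : ℝ) + 1) ^ (n + 1))) := by
        rw [hIv]; ring
    _ ≤ ((a ^ 2) ^ (n + 1) * (M ^ 2) ^ (n + 1) * B ^ (n + 1)) *
        (S ^ (2 * n + 2) * Real.exp (((n : ℝ) + 1) * 2) * (P / ((n : ℝ) + 1) ^ (n + 1))) := by
        refine mul_le_mul_of_nonneg_right ?_ (by positivity)
        exact mul_le_mul (mul_le_mul h1 h2 (by positivity) (by positivity)) h3 hTA (by positivity)
    _ = (a ^ 2 * M ^ 2 * S ^ 2 * B * Real.exp 2) ^ (n + 1) *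
        ((n : ℝ) + 1) ^ (-((n : ℝ) + 1) / 2) := by
        rw [hPI, hexp, h4]
        simp only [mul_pow]
        ring

end Vale.Agent.P184.H232
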