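import Vale.Agent.P184.Ex.Loc
import Vale.Agent.P184.Ex.E5a

/-!
# Block E4d: deletion of a mark
-/

open MeasureTheory Filter Topology
open scoped ENNReal

namespace Vale.Agent.P184.H232

open H57 H57.Ker H552

set_option linter.unusedSectionVars false

variable {G R : Type*} [Group G] [NormedRing R] [NormOneClass R] [NormedAlgebra ℂ R]
  [CompleteSpace R] (D : TData G R) (ψ : Bump D.κ)

/-! ### Pfaffians -/

open Classical in
/-- Restriction of the symbols. -/
noncomputable def resφ {N : ℕ} (i : Fin (N + 1)) :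
    (Fin (N + 1) → ℝ) ⊕ Fin (N + 1) → (Fin N → ℝ) ⊕ Fin N
  | .inl f => .inl fun k => f (i.succAbove k)
  | .inr j => if h : ∃ k, i.succAbove k = j then .inr h.choose else .inl fun _ => 0

theorem resφ_succAbove {N : ℕ} (i : Fin (N + 1)) (k : Fin N) :
    resφ i (.inr (i.succAbove k)) = .inr k := by
  have h : ∃ k', i.succAbove k' = i.succAbove k := ⟨k, rfl⟩
  exact (dif_pos h).trans (congrArg Sum.inr (Fin.succAbove_right_injective h.choose_spec))

theorem pf1_del {N : ℕ} (w : Fin (N + 1) → Lt) (c : Fin N → G) (h : G) (i : Fin (N + 1))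
    (u : Fin N → Option D.E) :
    pf1 D w (i.insertNth h c) (i.insertNth none u) i =
      (-1) ^ (i : ℕ) * D.cf (fun k => w (i.succAbove k)) c u := by
  unfold pf1 TData.cf
  set sy' := D.sy w (i.insertNth h c) (i.insertNth none u) with hsy
  set L := List.ofFn fun k => sy' (i.succAbove k) with hL
  have hself : sy' i = .inr i := by
    rw [hsy]
    unfold TData.sy
    rw [Fin.insertNth_apply_same]
    rcases w i with _ | _ | _ <;> rfl
  have hsucc : ∀ k, (∃ f, sy' (i.succAbove k) = .inl f) ∨
      sy' (i.succAbove k) = .inr (i.succAbove k) := by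
    intro k
    rw [hsy]
    unfold TData.sy
    rcases w (i.succAbove k) with _ | _ | _ <;>
      rcases (i.insertNth none u : Fin (N + 1) → Option D.E) (i.succAbove k) with _ | v
    · exact Or.inr rfl
    · exact Or.inl ⟨_, rfl⟩
    all_goals exact Or.inr rfl
  have hnot : (.inr i : (Fin (N + 1) → ℝ) ⊕ Fin (N + 1)) ∉ L := by
    rw [hL, List.mem_ofFn]
    rintro ⟨k, hk⟩
    rcases hsucc k with ⟨f, hf⟩ | hf
    · rw [hf] at hk; exact absurd hk (by simp)
    · rw [hf] at hk
      exact Fin.succAbove_ne i k (Sum.inr.inj hk)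
  have h1 : List.ofFn sy' = L.take i ++ .inr i :: L.drop i := by
    rw [ofFn_split sy' i, hself]
  have h2 : Pf (.inl (fun _ => 1) :: .inl (Pi.single i 1) :: List.ofFn sy') =
      -Pf (.inl (Pi.single i 1) :: ((.inl (fun _ => 1) :: L.take i) ++ .inr i :: L.drop i)) := by
    have := Pf_swap [] (List.ofFn sy') (.inl (fun _ => 1)) (.inl (Pi.single i 1))
    simp only [List.nil_append] at this
    rw [this, h1]
    rfl
  rw [h2, Pf_single]
  · have hlen : (L.take (i : ℕ)).length = i := by
      rw [List.length_take, hL, List.length_ofFn]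
      omega
    rw [List.length_cons, hlen, List.cons_append, List.take_append_drop, pow_succ]
    have h3 : Pf (.inl (fun _ => 1) :: L) =
        Pf (.inl (fun _ => 1) :: List.ofFn (D.sy (fun k => w (i.succAbove k)) c u)) := by
      have h4 := Pf_map (resφ i) (.inl (fun _ => 1) :: L) (by
        intro v hv v' hv'
        have key : ∀ v ∈ ((.inl (fun _ => 1) :: L : List ((Fin (N + 1) → ℝ) ⊕ Fin (N + 1)))),
            (∃ f, v = .inl f) ∨ ∃ k, v = .inr (i.succAbove k) := by
          intro v hv
          rcases List.mem_cons.mp hv with hv | hv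
          · exact Or.inl ⟨_, hv⟩
          · rw [hL, List.mem_ofFn] at hv
            obtain ⟨k, rfl⟩ := hv
            rcases hsucc k with hf | hf
            · exact Or.inl hf
            · exact Or.inr ⟨k, hf⟩
        rcases key v hv with ⟨f, rfl⟩ | ⟨k, rfl⟩ <;> rcases key v' hv' with ⟨f', rfl⟩ | ⟨k', rfl⟩
        · rfl
        · rw [resφ_succAbove]; rfl
        · rw [resφ_succAbove]; rfl
        · rw [resφ_succAbove, resφ_succAbove]; rfl)
      rw [← h4, List.map_cons, hL, List.map_ofFn]
      have hf : (resφ i ∘ fun k => sy' (i.succAbove k)) =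
          D.sy (fun k => w (i.succAbove k)) c u := by
        funext k
        rw [Function.comp, hsy]
        unfold TData.sy
        have e1 : (i.insertNth none u : Fin (N + 1) → Option D.E) (i.succAbove k) = u k := by simp
        dsimp only
        rw [e1]
        rcases w (i.succAbove k) with _ | _ | _ <;> rcases u k with _ | v
        · exact resφ_succAbove i k
        · simp only [resφ, Fin.insertNth_apply_succAbove]
        all_goals exact resφ_succAbove i k
      rw [hf]
      rfl
    rw [h3]
    ring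
  · intro hmem
    rcases List.mem_cons.mp hmem with hmem | hmem
    · exact absurd hmem (by simp)
    · exact hnot (List.mem_of_mem_take hmem)
  · exact fun hmem => hnot (List.mem_of_mem_drop hmem)

/-! ### Kernels -/

theorem lk_E0 (s : G →₀ ℝ) (l : Lt) (c : G) (u : Option D.E) :
    D.lk s l c u * D.E0 = D.lk s l c u := by
  rcases l with _ | _ | _ <;> rcases u with _ | v <;>
    simp only [TData.lk, TData.U, zero_mul, mul_assoc, D.E0_idem]

theorem E0_lk (s : G →₀ ℝ) (l : Lt) (c : G) (u : Option D.E) :
    D.E0 * D.lk s l c u = D.lk s l c u := by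
  rcases l with _ | _ | _ <;> rcases u with _ | v <;>
    simp only [TData.lk, mul_zero, ← mul_assoc, D.E0_idem, D.V_E0]

theorem hasSum_dl (A C : Ker G R) (p p' : G) :
    HasSum (fun h => (A * dl h * C).e p p') ((A * C).e p p') := by
  simp only [mul_dl_mul_e]
  rw [e_mul]
  exact (e_mul_summable A C p p').of_norm.hasSum

theorem sN_insert {N : ℕ} (i : Fin (N + 1)) (h : G) (c : Fin N → G) (s : Fin N → ℝ) :
    sN (i.insertNth h c) (i.insertNth 0 s) = sN c s := by
  rw [H552.sN_insertNth]
  simp only [Fin.insertNth_apply_succAbove]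

theorem pre_E0_post {N : ℕ} (f : Fin (N + 1) → Ker G R) (h1 : ∀ k, f k * D.E0 = f k)
    (h2 : ∀ k, D.E0 * f k = f k) (i : Fin (N + 2)) :
    pre f i * D.E0 * post f i = (List.ofFn f).prod := by
  have h3 : pre f i * post f i = (List.ofFn f).prod := by
    unfold pre post
    rw [← List.prod_append, List.take_append_drop]
  rw [← h3]
  refine Fin.cases ?_ (fun j => ?_) i
  · have h4 : post f ((0 : Fin (N + 2)) : ℕ) = f 0 * post f (0 + 1) := post_eq f 0
    rw [h4, mul_assoc, ← mul_assoc D.E0, h2]
  · have h4 : pre f ((j.succ : Fin (N + 2)) : ℕ) = pre f j * f j := pre_succ f j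
    rw [h4, mul_assoc (pre f j), h1]

/-- The words with a deleted mark. -/
theorem Pw_hasSum {N : ℕ} (w : Fin (N + 2) → Lt) (i : Fin (N + 2)) (hi : w i ≠ .a)
    (c : Fin (N + 1) → G) (u : Fin (N + 1) → Option D.E) (s : Fin (N + 1) → ℝ)
    (hs : Reg D.κ (sN c s)) (p p' : G) :
    HasSum (fun h => (D.Pw w (i.insertNth h c) (i.insertNth none u) (i.insertNth 0 s)).e p p')
      ((D.Pw (fun k => w (i.succAbove k)) c u s).e p p') := by
  set f : Fin (N + 1) → Ker G R := fun k => D.lk (sN c s) (w (i.succAbove k)) (c k) (u k) with hf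
  have hP : ∀ h, D.Pw w (i.insertNth h c) (i.insertNth none u) (i.insertNth 0 s) =
      pre f i * D.lk (sN c s) (w i) h none * post f i := by
    intro h
    unfold TData.Pw
    rw [sN_insert, H552.prod_eq _ i]
    simp only [Fin.insertNth_apply_succAbove, Fin.insertNth_apply_same]
    rfl
  have h1 : ∀ k, f k * D.E0 = f k := fun k => lk_E0 D _ _ _ _
  have h2 : ∀ k, D.E0 * f k = f k := fun k => E0_lk D _ _ _ _
  have hlast : D.Pw (fun k => w (i.succAbove k)) c u s = pre f i * D.E0 * post f i := by
    rw [pre_E0_post D f h1 h2 i]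
    rfl
  rcases hw : w i with _ | _ | _
  · exact absurd hw hi
  · have h3 := hasSum_dl (pre f i * D.E0) (D.E0 * post f i) p p'
    have h4 : pre f i * D.E0 * (D.E0 * post f i) = pre f i * D.E0 * post f i := by
      rw [mul_assoc, ← mul_assoc D.E0, D.E0_idem, mul_assoc]
    rw [hlast, ← h4]
    convert h3 using 1
    funext h
    rw [hP, hw]
    simp only [TData.lk, mul_assoc]
  · have h3 := hasSum_dl (pre f i * D.V (sN c s)) (D.U (sN c s) * post f i) p p'
    have hV : D.V (sN c s) * D.U (sN c s) = D.E0 := D.V_left _ hs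
    have h4 : pre f i * D.V (sN c s) * (D.U (sN c s) * post f i) =
        pre f i * D.E0 * post f i := by
      rw [mul_assoc, ← mul_assoc (D.V (sN c s)), hV, mul_assoc]
    rw [hlast, ← h4]
    convert h3 using 1
    funext h
    rw [hP, hw]
    simp only [TData.lk, mul_assoc]

/-- The exchange for fixed points. -/
theorem kI_del {N : ℕ} (w : Fin (N + 2) → Lt) (i : Fin (N + 2)) (hi : w i ≠ .a)
    (z : {y // IsConj D.x y} × (Fin (N + 1) → G)) (u : Fin (N + 1) → Option D.E) :
    HasSum (fun h => kI D ψ (fun k => TData.mark w (i.succAbove k)) z.1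
      (fun s => D.Pw w (i.insertNth h z.2) (i.insertNth none u) (i.insertNth 0 s)))
      (D.ig ψ z.1 (fun k => w (i.succAbove k)) z.2 u) := by
  have h1 := kI_hasSum D ψ z.2 (fun k => TData.mark w (i.succAbove k)) z.1
    (fun (h : G) s => D.Pw w (i.insertNth h z.2) (i.insertNth none u) (i.insertNth 0 s))
    (fun s => D.Pw (fun k => w (i.succAbove k)) z.2 u s)
    (fun h => by
      have h2 := Pw_cont D (i.insertNth h z.2) w (i.insertNth none u)
      refine h2.comp (f := fun s : Fin (N + 1) → ℝ => (i.insertNth 0 s : Fin (N + 2) → ℝ))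
        ?_ fun s hs => ?_
      · exact (Continuous.finInsertNth (A := fun _ => ℝ) i continuous_const
          continuous_id).continuousOn
      · show Reg D.κ _
        rw [sN_insert]
        exact hs)
    (fun h => max 1 D.CB ^ (N + 2) * D.ch (z.1, i.insertNth h z.2))
    (by
      refine Summable.mul_left _ ?_
      exact (summable_fib' (f := fun z => D.ch z) i (ch_summable D (N + 2))).2.1 z)
    (fun h => by
      have : (0 : ℝ) ≤ max 1 D.CB := le_trans zero_le_one (le_max_left _ _)
      refine mul_nonneg (pow_nonneg this _) ?_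
      rw [ch_eq]
      exact Finset.prod_nonneg fun i _ => b2_nonneg D _)
    (fun h s hs hr => by
      refine Pw_bound D (Nat.succ_pos _) w (z.1, i.insertNth h z.2) (i.insertNth none u) _ ?_
      show Reg D.κ (sN (i.insertNth h z.2) _)
      rw [sN_insert]
      exact hr)
    (fun s hs hr => Pw_hasSum D w i hi z.2 u s hr _ _)
  exact h1

theorem Pw_zero {N : ℕ} (w : Fin N → Lt) (c : Fin N → G) (u : Fin N → Option D.E) (l : Fin N)
    (hw : w l ≠ .a) (v : D.E) (hu : u l = some v) (t : Fin N → ℝ) : D.Pw w c u t = 0 := by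
  unfold TData.Pw
  apply List.prod_eq_zero
  rw [List.mem_ofFn]
  refine ⟨l, ?_⟩
  rw [hu]
  rcases h : w l with _ | _ | _
  · exact absurd h hw
  · rfl
  · rfl

theorem sum_option_split {N : ℕ} {E : Type*} [Fintype E] (i : Fin (N + 1))
    (F : (Fin (N + 1) → Option E) → ℂ) (h : ∀ u v, u i = some v → F u = 0) :
    ∑ u, F u = ∑ u' : Fin N → Option E, F (i.insertNth none u') := by
  classical
  rw [← (Fin.insertNthEquiv (fun _ => Option E) i).sum_comp, Fintype.sum_prod_type,
    Fintype.sum_option]
  have h0 : ∑ v : E, ∑ u' : Fin N → Option E,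
      F ((Fin.insertNthEquiv (fun _ => Option E) i) (some v, u')) = 0 := by
    refine Finset.sum_eq_zero fun v _ => Finset.sum_eq_zero fun u' _ => h _ v ?_
    exact Fin.insertNth_apply_same (α := fun _ => Option E) i (some v) u'
  rw [h0, add_zero]
  rfl

theorem cf_bound' {N : ℕ} (w : Fin N → Lt) :
    ∃ K : ℝ, 0 ≤ K ∧ ∀ c u, |D.cf w c u| ≤ K := by
  rcases Nat.even_or_odd' N with ⟨n, hn | hn⟩
  · refine ⟨0, le_rfl, fun c u => ?_⟩
    have h1 : D.cf w c u = 0 := by
      unfold TData.cf
      refine Pf_odd _ ?_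
      rw [List.length_cons, List.length_ofFn]
      exact ⟨n, by rw [hn]⟩
    rw [h1, abs_zero]
  · subst hn
    exact ⟨_, by positivity, fun c u => cf_bound D n w c u⟩

/-- E4d. -/
theorem specDel : SpecDel D ψ := by
  intro N w i hi
  have hKI : ∀ (z : {y // IsConj D.x y} × (Fin (N + 1) → G)) (h : G)
      (u : Fin (N + 1) → Option D.E),
      ‖kI D ψ (fun k => TData.mark w (i.succAbove k)) z.1
        (fun s => D.Pw w (i.insertNth h z.2) (i.insertNth none u) (i.insertNth 0 s))‖ ≤
      max 1 D.CB ^ (N + 2) * D.ch (z.1, i.insertNth h z.2) *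
        (‖D.T‖ * gm D ψ (fun k => TData.mark w (i.succAbove k))) := by
    intro z h u
    refine kI_bound D ψ z.2 _ z.1 _ _ fun s hs hr => ?_
    refine Pw_bound D (Nat.succ_pos _) w (z.1, i.insertNth h z.2) (i.insertNth none u) _ ?_
    show Reg D.κ (sN (i.insertNth h z.2) _)
    rw [sN_insert]
    exact hr
  set f : {y // IsConj D.x y} × (Fin (N + 2) → G) → ℂ := fun z =>
    ∑ u : Fin (N + 2) → Option D.E, (pf1 D w z.2 u i : ℂ) *
      kI D ψ (fun k => TData.mark w (i.succAbove k)) z.1
        (fun s => D.Pw w z.2 u (i.insertNth 0 s)) with hf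
  have hval : ∀ (z : {y // IsConj D.x y} × (Fin (N + 1) → G)) (h : G),
      f (z.1, i.insertNth h z.2) = (-1 : ℂ) ^ (i : ℕ) * ∑ u : Fin (N + 1) → Option D.E,
        (D.cf (fun k => w (i.succAbove k)) z.2 u : ℂ) *
        kI D ψ (fun k => TData.mark w (i.succAbove k)) z.1
        (fun s => D.Pw w (i.insertNth h z.2) (i.insertNth none u) (i.insertNth 0 s)) := by
    intro z h
    rw [hf]
    dsimp only
    rw [sum_option_split i, Finset.mul_sum]
    · refine Finset.sum_congr rfl fun u _ => ?_
      rw [pf1_del]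
      push_cast
      ring
    · intro u v hu
      have h0 : (fun s : Fin (N + 1) → ℝ => D.Pw w (i.insertNth h z.2) u (i.insertNth 0 s)) =
          fun _ => 0 := funext fun s => Pw_zero D w _ u i hi v hu _
      rw [h0]
      unfold kI
      simp only [e_zero, map_zero, mul_zero, integral_zero]
  obtain ⟨K, hK0, hK⟩ := cf_bound' D (fun k => w (i.succAbove k))
  have hfs : Summable f := by
    refine Summable.of_norm_bounded (g := fun z => (Fintype.card (Fin (N + 1) → Option D.E) : ℝ) *
      (K * (max 1 D.CB ^ (N + 2) *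
        (‖D.T‖ * gm D ψ (fun k => TData.mark w (i.succAbove k))))) * D.ch z) ?_ ?_
    · exact (ch_summable D (N + 2)).mul_left _
    · rintro ⟨y, c⟩
      have hc : c = i.insertNth (c i) (fun k => c (i.succAbove k)) :=
        (Fin.insertNth_self_removeNth i c).symm
      have h1 := hval (y, fun k => c (i.succAbove k)) (c i)
      dsimp only at h1
      rw [← hc] at h1
      rw [h1, norm_mul, norm_pow, norm_neg, norm_one, one_pow, one_mul]
      have h2 : ∀ u ∈ (Finset.univ : Finset (Fin (N + 1) → Option D.E)),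
          ‖(D.cf (fun k => w (i.succAbove k)) (fun k => c (i.succAbove k)) u : ℂ) *
            kI D ψ (fun k => TData.mark w (i.succAbove k)) y
            (fun s => D.Pw w c (i.insertNth none u) (i.insertNth 0 s))‖ ≤
          K * (max 1 D.CB ^ (N + 2) * D.ch (y, c) *
            (‖D.T‖ * gm D ψ (fun k => TData.mark w (i.succAbove k)))) := by
        intro u _
        rw [norm_mul, Complex.norm_real, Real.norm_eq_abs]
        refine mul_le_mul (hK _ _) ?_ (norm_nonneg _) hK0
        have h3 := hKI (y, fun k => c (i.succAbove k)) (c i) u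
        dsimp only at h3
        rw [← hc] at h3
        exact h3
      refine (norm_sum_le_of_le _ h2).trans (le_of_eq ?_)
      rw [Finset.sum_const, Finset.card_univ, nsmul_eq_mul]
      ring
  have h1 : ∀ z : {y // IsConj D.x y} × (Fin (N + 1) → G),
      ∑' h, f (z.1, i.insertNth h z.2) = (-1 : ℂ) ^ (i : ℕ) * ∑ u : Fin (N + 1) → Option D.E,
        (D.cf (fun k => w (i.succAbove k)) z.2 u : ℂ) *
          D.ig ψ z.1 (fun k => w (i.succAbove k)) z.2 u := by
    intro z
    simp only [hval]
    refine HasSum.tsum_eq (HasSum.mul_left _ (hasSum_sum fun u _ => HasSum.mul_left _ ?_))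
    exact kI_del D ψ w i hi z u
  have h2 := (summable_fib i hfs).2.2
  have h3 : (-1 : ℂ) ^ (i : ℕ) * D.tF ψ (fun k => w (i.succAbove k)) = ∑' z, f z := by
    rw [h2]
    unfold TData.tF
    rw [← tsum_mul_left]
    exact tsum_congr fun z => (h1 z).symm
  rw [h3]
  exact hfs.hasSum

end Vale.Agent.P184.H232
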