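import Vale.Agent.P184.Ex.Stk2

/-!
# E4c : the second derivatives cancel
-/

open MeasureTheory
open scoped ENNReal

namespace Vale.Agent.P184.H552

open Vale.Agent.P184.H57 Vale.Agent.P184.H57.Ker

variable {G R : Type*} [Group G] [NormedRing R] [NormOneClass R] [NormedAlgebra ℂ R]
  [CompleteSpace R] (D : TData G R) (ψ : Bump D.κ)

/-- the kernel with the second derivative `v, v'` in the slot `l` -/
noncomputable def SK {N : ℕ} (w : Fin (N + 1) → Lt) (c : Fin (N + 1) → G) (l : Fin (N + 1))
    (u0 : Fin N → Option D.E) (v v' : D.E) (t : Fin (N + 1) → ℝ) : Ker G R :=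
  pre (fun k => D.lk (sN c t) (w (l.succAbove k)) (c (l.succAbove k)) (u0 k)) l *
    (D.V (sN c t) * dl (c l) * diag (D.B' v v' (sN c t)) * D.E0) *
    post (fun k => D.lk (sN c t) (w (l.succAbove k)) (c (l.succAbove k)) (u0 k)) l

theorem SK_cont {N : ℕ} (w : Fin (N + 1) → Lt) (c : Fin (N + 1) → G) (l : Fin (N + 1))
    (u0 : Fin N → Option D.E) (v v' : D.E) : ContinuousOn (SK D w c l u0 v v') (rg D c) := by
  have hV : ContinuousOn (fun t : Fin (N + 1) → ℝ => D.V (sN c t)) (rg D c) := D.V_cont c
  exact ((takeprod_cont (fun (k : Fin N) t =>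
      D.lk (sN c t) (w (l.succAbove k)) (c (l.succAbove k)) (u0 k))
      (fun _ => lk_cont D c _ _ _) l).mul
    (((hV.mul continuousOn_const).mul
      (continuous_diag.comp (D.B'_cont (N + 1) c _ _)).continuousOn).mul continuousOn_const)).mul
    (dropprod_cont (fun (k : Fin N) t =>
      D.lk (sN c t) (w (l.succAbove k)) (c (l.succAbove k)) (u0 k))
      (fun _ => lk_cont D c _ _ _) l)

theorem SK_symm {N : ℕ} (w : Fin (N + 1) → Lt) (c : Fin (N + 1) → G) (l : Fin (N + 1))
    (u0 : Fin N → Option D.E) (v v' : D.E) : SK D w c l u0 v v' = SK D w c l u0 v' v := by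
  funext t
  unfold SK
  rw [D.B'_symm v v']

theorem dl_B1 (r p : G) (v : D.E) (s : G →₀ ℝ) :
    dl p * diag (D.B1 v r s) =
      ∑ v', (D.q r p v' : ℂ) • (dl p * diag (D.B' v v' s) : Ker G R) := by
  ext a b
  have h2 := map_sum (eL (G := G) (R := R) a b)
    (fun v' => (D.q r p v' : ℂ) • (dl p * diag (D.B' v v' s) : Ker G R)) Finset.univ
  simp only [map_smul, eL_apply] at h2
  rw [h2]
  simp only [dl_mul_e, e_diag]
  by_cases h : a = p
  · subst h
    by_cases h' : a = b
    · subst h'
      simp only [if_true]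
      exact D.B1_eq v r s a
    · simp [h']
  · simp [h]

theorem secK_eq {N : ℕ} (w : Fin (N + 1) → Lt) (c : Fin (N + 1) → G) (l : Fin (N + 1))
    (u0 : Fin N → Option D.E) (v : D.E) (i : Fin (N + 1)) :
    secK D w c (l.insertNth (some v) u0 : Fin (N + 1) → Option D.E) l v i =
      fun t => ∑ v', (D.q (c i) (c l) v' : ℂ) • SK D w c l u0 v v' t := by
  funext t
  unfold secK SK
  rw [← pre_succAbove, ← post_succAbove]
  have h1 : (fun k => fk D w c (l.insertNth (some v) u0 : Fin (N + 1) → Option D.E) t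
      (l.succAbove k)) =
      fun k => D.lk (sN c t) (w (l.succAbove k)) (c (l.succAbove k)) (u0 k) := by
    funext k
    unfold fk
    rw [Fin.insertNth_apply_succAbove]
  rw [h1, mul_assoc (D.V (sN c t)), dl_B1]
  simp only [Finset.mul_sum, Finset.sum_mul, mul_smul_comm, smul_mul_assoc, mul_assoc]

/-- the list of symbols with the form of the slot `l` exchanged -/
theorem sy_insert {N : ℕ} (w : Fin (N + 1) → Lt) (c : Fin (N + 1) → G) (l : Fin (N + 1))
    (hl : w l = .a) (u0 : Fin N → Option D.E) (v : D.E) (v0 : D.E) :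
    List.ofFn (D.sy w c (l.insertNth (some v) u0 : Fin (N + 1) → Option D.E)) =
      (List.ofFn fun k => D.sy w c (l.insertNth (some v0) u0 : Fin (N + 1) → Option D.E)
        (l.succAbove k)).take l ++ .inl (fun i => D.q (c i) (c l) v) ::
      (List.ofFn fun k => D.sy w c (l.insertNth (some v0) u0 : Fin (N + 1) → Option D.E)
        (l.succAbove k)).drop l := by
  rw [ofFn_split _ l]
  have h1 : (fun k => D.sy w c (l.insertNth (some v) u0 : Fin (N + 1) → Option D.E)
      (l.succAbove k)) = fun k => D.sy w c (l.insertNth (some v0) u0 : Fin (N + 1) →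
      Option D.E) (l.succAbove k) := by
    funext k
    unfold TData.sy
    rw [Fin.insertNth_apply_succAbove, Fin.insertNth_apply_succAbove]
  have h2 : D.sy w c (l.insertNth (some v) u0 : Fin (N + 1) → Option D.E) l =
      .inl fun i => D.q (c i) (c l) v := by
    unfold TData.sy
    simp only [hl, Fin.insertNth_apply_same]
  rw [h1, h2]

/-- the coefficient of the second derivative `v, v'` -/
theorem coef_antisymm {N : ℕ} (w : Fin (N + 1) → Lt) (c : Fin (N + 1) → G) (l : Fin (N + 1))
    (hl : w l = .a) (u0 : Fin N → Option D.E) (v v' : D.E) :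
    ∑ i, D.q (c i) (c l) v' *
      pf1 D w c (l.insertNth (some v) u0 : Fin (N + 1) → Option D.E) i =
    -∑ i, D.q (c i) (c l) v *
      pf1 D w c (l.insertNth (some v') u0 : Fin (N + 1) → Option D.E) i := by
  rw [sum_pf1, sum_pf1, sy_insert D w c l hl u0 v v, sy_insert D w c l hl u0 v' v]
  exact Pf_exch [.inl fun _ => 1] _ _ _ _

theorem specSec : SpecSec D ψ := by
  intro N w y c l hl u0
  set P : D.E → D.E → ℂ := fun v v' => ((∑ i, D.q (c i) (c l) v' *
      pf1 D w c (l.insertNth (some v) u0 : Fin (N + 1) → Option D.E) i : ℝ) : ℂ) with hP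
  set S : D.E → D.E → ℂ := fun v v' => kI D ψ (TData.mark w) y (SK D w c l u0 v v') with hSd
  have h1 : ∀ v, ∑ i : Fin (N + 1),
      (pf1 D w c (l.insertNth (some v) u0 : Fin (N + 1) → Option D.E) i : ℂ) *
      kI D ψ (TData.mark w) y
        (secK D w c (l.insertNth (some v) u0 : Fin (N + 1) → Option D.E) l v i) =
      ∑ v', P v v' * S v v' := by
    intro v
    have h2 : ∀ i, kI D ψ (TData.mark w) y
        (secK D w c (l.insertNth (some v) u0 : Fin (N + 1) → Option D.E) l v i) =
        ∑ v', (D.q (c i) (c l) v' : ℂ) * S v v' := by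
      intro i
      rw [secK_eq]
      exact kI_sum D ψ Finset.univ c _ y _ _ fun v' _ => SK_cont D w c l u0 v v'
    simp only [h2, Finset.mul_sum]
    rw [Finset.sum_comm]
    refine Finset.sum_congr rfl fun v' _ => ?_
    rw [hP]
    simp only
    push_cast
    rw [Finset.sum_mul]
    refine Finset.sum_congr rfl fun i _ => ?_
    ring
  simp only [h1]
  have hPa : ∀ v v', P v v' = -P v' v := by
    intro v v'
    simp only [hP]
    rw [coef_antisymm D w c l hl u0 v v', Complex.ofReal_neg]
  have hSs : ∀ v v', S v v' = S v' v := by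
    intro v v'
    simp only [hSd]
    rw [SK_symm]
  have h3 : ∑ v, ∑ v', P v v' * S v v' = -∑ v, ∑ v', P v v' * S v v' := by
    conv_lhs => rw [Finset.sum_comm]
    rw [← Finset.sum_neg_distrib]
    refine Finset.sum_congr rfl fun v _ => ?_
    rw [← Finset.sum_neg_distrib]
    refine Finset.sum_congr rfl fun v' _ => ?_
    rw [hPa v' v, hSs v' v]
    ring
  have h4 : (2 : ℂ) * ∑ v, ∑ v', P v v' * S v v' = 0 := by
    linear_combination h3
  exact (mul_eq_zero.1 h4).resolve_left two_ne_zero

/-- E4c and E4a together. -/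
theorem specStk' (hS : SpecSt D ψ) : SpecStk D ψ := specStk D ψ hS (specSec D ψ)

end Vale.Agent.P184.H552
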