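import Vale.Agent.P184.Ex.Stk

/-!
# E4a : integration by parts for the words
-/

open MeasureTheory
open scoped ENNReal

namespace Vale.Agent.P184.H552

open Vale.Agent.P184.H57 Vale.Agent.P184.H57.Ker

variable {G R : Type*} [Group G] [NormedRing R] [NormOneClass R] [NormedAlgebra ℂ R]
  [CompleteSpace R] (D : TData G R) (ψ : Bump D.κ)

theorem sum_update {N : ℕ} (t : Fin N → ℝ) (i : Fin N) (τ : ℝ) :
    ∑ l, Function.update t i τ l = (∑ l, t l - t i) + τ := by
  have h1 : ∀ l, Function.update t i τ l = t l + (if l = i then τ - t i else 0) := by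
    intro l
    by_cases h : l = i
    · subst h
      simp
    · simp [h]
  simp only [h1, Finset.sum_add_distrib, Finset.sum_ite_eq', Finset.mem_univ, if_true]
  ring

theorem stokes_deriv {N : ℕ} (w : Fin N → Lt) (c : Fin N → G) (u : Fin N → Option D.E)
    (i : Fin N) (p p' : G) (t : Fin N → ℝ) (ht : ∀ l, 0 ≤ t l) (hi : 0 < t i) :
    HasDerivAt (fun τ => (ψ.g (∑ l, Function.update t i τ l) : ℂ) *
        D.T ((D.Pw w c u (Function.update t i τ)).e p p'))
      ((ψ.g' (∑ l, t l) : ℂ) * D.T ((D.Pw w c u t).e p p') +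
        (ψ.g (∑ l, t l) : ℂ) * D.T ((D.dPw w c u t (c i)).e p p')) (t i) := by
  by_cases h0 : |∑ l, t l - 1| < D.κ
  · have hr : Reg D.κ (sN c t) := (reg_iff c ht).2 h0
    have h1 : HasDerivAt (fun τ : ℝ => ∑ l, Function.update t i τ l) 1 (t i) := by
      simp only [sum_update]
      exact (hasDerivAt_id _).const_add _
    have h2 : HasDerivAt (fun τ : ℝ => ψ.g (∑ l, Function.update t i τ l))
        (ψ.g' (∑ l, t l)) (t i) := by
      have h3 : HasDerivAt ψ.g (ψ.g' (∑ l, t l)) (∑ l, Function.update t i (t i) l) := by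
        rw [Function.update_eq_self]
        exact ψ.deriv _
      have h4 := h3.comp (t i) h1
      rw [mul_one] at h4
      exact h4
    have h5 := D.Pw_deriv w c u t i hr hi ht
    have h6 : HasDerivAt (fun τ : ℝ => D.T ((D.Pw w c u (Function.update t i τ)).e p p'))
        (D.T ((D.dPw w c u t (c i)).e p p')) (t i) := by
      have h7 := (((D.T.comp (eL p p')).restrictScalars ℝ).hasFDerivAt
        (x := D.Pw w c u (Function.update t i (t i)))).comp_hasDerivAt (t i) h5
      exact h7
    have h8 := h2.ofReal_comp.mul h6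
    have h9 : Function.update t i (t i) = t := Function.update_eq_self i t
    simp only [h9] at h8
    exact h8
  · have hκ : ψ.r < |∑ l, t l - 1| := lt_of_lt_of_le ψ.r_lt (not_lt.1 h0)
    have h1 : ψ.g (∑ l, t l) = 0 := ψ.supp _ hκ.le
    have h2 : ψ.g' (∑ l, t l) = 0 := ψ.supp' _ hκ.le
    rw [h1, h2]
    simp only [Complex.ofReal_zero, zero_mul, add_zero]
    have h3 : (fun τ => (ψ.g (∑ l, Function.update t i τ l) : ℂ) *
        D.T ((D.Pw w c u (Function.update t i τ)).e p p')) =ᶠ[nhds (t i)] fun _ => 0 := by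
      have h4 : Continuous fun τ : ℝ => |∑ l, Function.update t i τ l - 1| := by
        simp only [sum_update]
        exact ((continuous_const.add continuous_id).sub continuous_const).abs
      have h5 : {τ : ℝ | ψ.r < |∑ l, Function.update t i τ l - 1|} ∈ nhds (t i) := by
        refine (isOpen_lt continuous_const h4).mem_nhds ?_
        rw [Set.mem_ofPred_eq, Function.update_eq_self]
        exact hκ
      filter_upwards [h5] with τ hτ
      rw [ψ.supp _ (le_of_lt hτ)]
      simp
    exact (hasDerivAt_const (t i) (0 : ℂ)).congr_of_eventuallyEq h3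

theorem specSt : SpecSt D ψ := by
  intro N w y c u i hi
  have hc1 := integrand_cont D ψ c (TData.mark w) ψ.g (bump_cont ψ) ψ.supp (D.Pw w c u)
    (Pw_cont D c w u) (D.ρ y) (D.x * D.ρ y)
  have hc2 := integrand_cont D ψ c (TData.mark w) ψ.g' ψ.cont' ψ.supp' (D.Pw w c u)
    (Pw_cont D c w u) (D.ρ y) (D.x * D.ρ y)
  have hc3 := integrand_cont D ψ c (TData.mark w) ψ.g (bump_cont ψ) ψ.supp
    (fun t => D.dPw w c u t (c i)) (dPw_cont D c w u (c i)) (D.ρ y) (D.x * D.ρ y)
  have hi2 := muP_integrable (TData.mark w) (1 + D.κ) _ hc2 fun t _ h =>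
    integrand_supp D ψ ψ.g' ψ.supp' t h _
  have hi3 := muP_integrable (TData.mark w) (1 + D.κ) _ hc3 fun t _ h =>
    integrand_supp D ψ ψ.g ψ.supp t h _
  have h := muP_parts (TData.mark w) i (by simp [TData.mark, hi]) (1 + D.κ)
    (fun t => (ψ.g (∑ l, t l) : ℂ) * D.T ((D.Pw w c u t).e (D.ρ y) (D.x * D.ρ y)))
    (fun t => (ψ.g' (∑ l, t l) : ℂ) * D.T ((D.Pw w c u t).e (D.ρ y) (D.x * D.ρ y)) +
      (ψ.g (∑ l, t l) : ℂ) * D.T ((D.dPw w c u t (c i)).e (D.ρ y) (D.x * D.ρ y)))
    hc1 (hc2.add hc3)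
    (fun t ht hti => stokes_deriv D ψ w c u i _ _ t (fun l => (ht l).1) hti)
    (fun t _ h => integrand_supp D ψ ψ.g ψ.supp t h _)
    (fun t _ h => by
      simp only [integrand_supp D ψ ψ.g ψ.supp t h, integrand_supp D ψ ψ.g' ψ.supp' t h,
        add_zero])
  rw [integral_add hi2 hi3] at h
  unfold gI kI
  rw [h]
  simp only [sum_insertNth]

end Vale.Agent.P184.H552
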