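import Vale.Agent.P184.Ex.E4Asm
import Vale.Agent.P184.Ex.Sec
import Vale.Agent.P184.Ex.Stokes
import Vale.Agent.P184.Ex.E4d

/-!
# E4 : closedness
-/

namespace Vale.Agent.P184.H552

open Vale.Agent.P184.H57 Vale.Agent.P184.H57.Ker

variable {G R : Type*} [Group G] [NormedRing R] [NormOneClass R] [NormedAlgebra ℂ R]
  [CompleteSpace R] (D : TData G R) (ψ : Bump D.κ)

theorem tF_closed' {N : ℕ} (w : Fin (N + 1) → Lt) :
    ∑ l : Fin (N + 1), (-1 : ℂ) ^ (l : ℕ) * (match w l with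
      | .a => -D.tF ψ (Fin.insertNth l.castSucc Lt.a w : Fin (N + 2) → Lt)
      | .x => D.tF ψ (fun k => w (l.succAbove k))
      | .y => D.tF ψ (fun k => w (l.succAbove k)) -
          D.tF ψ (Fin.insertNth l.castSucc Lt.a w : Fin (N + 2) → Lt) -
          D.tF ψ (Fin.insertNth l.succ Lt.a w : Fin (N + 2) → Lt)) = 0 :=
  closed_of D ψ (specIns D ψ) (H232.specDel D ψ) (specStk' D ψ (specSt D ψ)) w

end Vale.Agent.P184.H552
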