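import Vale.Agent.P184.Ex.E6a
import Vale.Agent.P184.Ex.E4Fin

/-!
# Blocks E3, E4, E6: the statements
-/

open MeasureTheory
open scoped ENNReal

namespace Vale.Agent.P184.H57

open Ker

set_option linter.unusedSectionVars false

namespace TData

variable {G R : Type*} [Group G] [NormedRing R] [NormOneClass R] [NormedAlgebra ℂ R]
  [CompleteSpace R] (D : TData G R) (ψ : Bump D.κ)

theorem tF_rotate {N : ℕ} (w : Fin (N + 1) → Lt) :
    D.tF ψ (fun l => w (finRotate (N + 1) l)) = D.tF ψ w :=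
  D.tF_rotate' ψ w

theorem tF_closed {N : ℕ} (w : Fin (N + 1) → Lt) :
    ∑ l : Fin (N + 1), (-1 : ℂ) ^ (l : ℕ) * (match w l with
      | .a => -D.tF ψ (Fin.insertNth l.castSucc Lt.a w : Fin (N + 2) → Lt)
      | .x => D.tF ψ (fun k => w (l.succAbove k))
      | .y => D.tF ψ (fun k => w (l.succAbove k)) -
          D.tF ψ (Fin.insertNth l.castSucc Lt.a w : Fin (N + 2) → Lt) -
          D.tF ψ (Fin.insertNth l.succ Lt.a w : Fin (N + 2) → Lt)) = 0 :=
  H552.tF_closed' D ψ w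

theorem tw_x : D.tw ψ [.x] = D.I0 D.E0 := D.tw_x' ψ

theorem tw_y : D.tw ψ [.y] = D.I0 D.E1 := D.tw_y' ψ

end TData

end Vale.Agent.P184.H57
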