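import Vale.Agent.P184.Ex.A
import Vale.Agent.P184.Ex.B
import Vale.Agent.P184.Ex.C
import Vale.Agent.P184.Ex.D

/-!
# Block E: the data of the trace lemma and the word functional
-/

open MeasureTheory
open scoped ENNReal

namespace Vale.Agent.P184.H57

open Ker

set_option linter.unusedSectionVars false

/-- Total mass. -/
noncomputable def mass {G : Type*} (s : G →₀ ℝ) : ℝ := s.sum fun _ t => t

/-- The region: nonnegative finitely supported functions of mass close to `1`. -/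
def Reg {G : Type*} (κ : ℝ) (s : G →₀ ℝ) : Prop := (∀ r, 0 ≤ s r) ∧ |mass s - 1| < κ

/-- The combination of the points `c l` with coefficients `t l`. -/
noncomputable def sN {G : Type*} {N : ℕ} (c : Fin N → G) (t : Fin N → ℝ) : G →₀ ℝ :=
  ∑ l, Finsupp.single (c l) (t l)

/-- The data of the trace lemma. -/
structure TData (G R : Type*) [Group G] [NormedRing R] [NormOneClass R] [NormedAlgebra ℂ R]
    [CompleteSpace R] where
  /-- the element of `G` -/
  x : G
  /-- conjugators -/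
  ρ : G → G
  ρ_spec : ∀ y, IsConj x y → (ρ y)⁻¹ * x * ρ y = y
  /-- the twisted trace on the coefficients -/
  T : R →L[ℂ] ℂ
  /-- the twist -/
  θ : R →+* R
  θ_cont : Continuous θ
  T_comm : ∀ a b, T (a * b) = T (b * θ a)
  /-- the action of the centralizer on the coefficients -/
  σ : G → R →+* R
  σ_cont : ∀ c, Continuous (σ c)
  T_σ : ∀ c, c * x = x * c → ∀ a, T (σ c a) = T a
  /-- coordinates -/
  E : Type
  fE : Fintype E
  /-- coordinate functions of the points indexed by `G` -/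
  q : G → G → E → ℝ
  q_bd : ∀ r p u, |q r p u| ≤ 1
  q_H : ∀ c, c * x = x * c → ∀ r p u, q (c * r) (c * p) u = q r p u
  q_x : ∀ r p u, q (x * r) p u = q r p u
  q_x' : ∀ r p u, q r (x * p) u = q r p u
  /-- the width of the region -/
  κ : ℝ
  κ_pos : 0 < κ
  κ_lt : κ < 1
  /-- the symmetry -/
  W : (G →₀ ℝ) → Li G R
  /-- its partial derivatives with respect to the coordinates -/
  B : E → (G →₀ ℝ) → Li G R
  /-- the second partial derivatives -/
  B' : E → E → (G →₀ ℝ) → Li G R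
  B'_symm : ∀ u v s, B' u v s = B' v u s
  /-- directional derivatives -/
  W1 : G → (G →₀ ℝ) → Li G R
  B1 : E → G → (G →₀ ℝ) → Li G R
  W1_eq : ∀ r s p, (W1 r s).1 p = ∑ u, (q r p u : ℂ) • (B u s).1 p
  B1_eq : ∀ u r s p, (B1 u r s).1 p = ∑ v, (q r p v : ℂ) • (B' u v s).1 p
  W_deriv : ∀ s r, HasDerivAt (fun τ : ℝ => W (s + Finsupp.single r τ)) (W1 r s) 0
  B_deriv : ∀ u s r, HasDerivAt (fun τ : ℝ => B u (s + Finsupp.single r τ)) (B1 u r s) 0
  W_cont : ∀ (N : ℕ) (c : Fin N → G), Continuous fun t : Fin N → ℝ => W (sN c t)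
  B_cont : ∀ (N : ℕ) (c : Fin N → G) u, Continuous fun t : Fin N → ℝ => B u (sN c t)
  B'_cont : ∀ (N : ℕ) (c : Fin N → G) u v, Continuous fun t : Fin N → ℝ => B' u v (sN c t)
  /-- shift invariance -/
  W_shift : ∀ s r τ, W (s + Finsupp.single (x * r) τ) = W (s + Finsupp.single r τ)
  B_shift : ∀ u s r τ, B u (s + Finsupp.single (x * r) τ) = B u (s + Finsupp.single r τ)
  W_H : ∀ c, c * x = x * c → ∀ s p, (W (s.mapDomain (c * ·))).1 (c * p) = σ c ((W s).1 p)
  B_H : ∀ c, c * x = x * c → ∀ u s p, (B u (s.mapDomain (c * ·))).1 (c * p) = σ c ((B u s).1 p)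
  W_x : ∀ s p, (W s).1 (x * p) = θ ((W s).1 p)
  B_x : ∀ u s p, (B u s).1 (x * p) = θ ((B u s).1 p)
  /-- the idempotents -/
  E0 : Ker G R
  E1 : Ker G R
  E0_idem : E0 * E0 = E0
  E1_idem : E1 * E1 = E1
  E0_H : ∀ c, c * x = x * c → ∀ p p', E0.e (c * p) (c * p') = σ c (E0.e p p')
  E1_H : ∀ c, c * x = x * c → ∀ p p', E1.e (c * p) (c * p') = σ c (E1.e p p')
  E0_x : ∀ p p', E0.e (x * p) (x * p') = θ (E0.e p p')
  E1_x : ∀ p p', E1.e (x * p) (x * p') = θ (E1.e p p')
  /-- the inverse of `E1 * diag (W s) * E0` -/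
  V : (G →₀ ℝ) → Ker G R
  V_zero : ∀ s, ¬ Reg κ s → V s = 0
  V_left : ∀ s, Reg κ s → V s * (E1 * diag (W s) * E0) = E0
  V_right : ∀ s, Reg κ s → (E1 * diag (W s) * E0) * V s = E1
  V_E0 : ∀ s, E0 * V s = V s
  V_E1 : ∀ s, V s * E1 = V s
  V_shift : ∀ s r τ, (∀ g, 0 ≤ s g) → 0 ≤ τ →
    V (s + Finsupp.single (x * r) τ) = V (s + Finsupp.single r τ)
  V_H : ∀ c, c * x = x * c → ∀ s p p',
    (V (s.mapDomain (c * ·))).e (c * p) (c * p') = σ c ((V s).e p p')
  V_x : ∀ s p p', (V s).e (x * p) (x * p') = θ ((V s).e p p')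
  /-- majorant of all kernels -/
  b : G → ℝ
  b_nonneg : ∀ g, 0 ≤ b g
  b_sum : Summable b
  E0_maj : Maj E0 b
  E1_maj : Maj E1 b
  U_maj : ∀ s, Reg κ s → Maj (E1 * diag (W s) * E0) b
  V_maj : ∀ s, Maj (V s) b
  /-- bound of the derivatives -/
  CB : ℝ
  B_bd : ∀ u s, Reg κ s → ‖B u s‖ ≤ CB
  B'_bd : ∀ u v s, Reg κ s → ‖B' u v s‖ ≤ CB

attribute [instance] TData.fE

/-- Bump functions. -/
structure Bump (κ : ℝ) where
  g : ℝ → ℝ
  g' : ℝ → ℝ
  deriv : ∀ u, HasDerivAt g (g' u) u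
  cont' : Continuous g'
  /-- radius of the support -/
  r : ℝ
  r_lt : r < κ
  supp : ∀ u, r ≤ |u - 1| → g u = 0
  supp' : ∀ u, r ≤ |u - 1| → g' u = 0
  one : ∫ u in Set.Ici 0, g u = 1

namespace TData

variable {G R : Type*} [Group G] [NormedRing R] [NormOneClass R] [NormedAlgebra ℂ R]
  [CompleteSpace R] (D : TData G R) (ψ : Bump D.κ)

/-- The localized trace of an invariant kernel. -/
noncomputable def I0 (k : Ker G R) : ℂ :=
  ∑' y : {y // IsConj D.x y}, D.T (k.e (D.ρ y) (D.x * D.ρ y))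

/-- The kernel `U`. -/
noncomputable def U (s : G →₀ ℝ) : Ker G R := D.E1 * diag (D.W s) * D.E0

/-- The kernels of the letters. -/
noncomputable def lk (s : G →₀ ℝ) (l : Lt) (c : G) (u : Option D.E) : Ker G R :=
  match l, u with
  | .x, none => D.E0 * dl c * D.E0
  | .y, none => D.V s * dl c * D.U s
  | .a, some v => D.V s * dl c * diag (D.B v s) * D.E0
  | _, _ => 0

/-- The kernels of the words. -/
noncomputable def Pw {N : ℕ} (w : Fin N → Lt) (c : Fin N → G) (u : Fin N → Option D.E)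
    (t : Fin N → ℝ) : Ker G R :=
  (List.ofFn fun l => D.lk (sN c t) (w l) (c l) (u l)).prod

/-- The symbols of the letters. -/
noncomputable def sy {N : ℕ} (w : Fin N → Lt) (c : Fin N → G) (u : Fin N → Option D.E)
    (l : Fin N) : (Fin N → ℝ) ⊕ Fin N :=
  match w l, u l with
  | .a, some v => .inl fun i => D.q (c i) (c l) v
  | _, _ => .inr l

/-- The coefficients. -/
noncomputable def cf {N : ℕ} (w : Fin N → Lt) (c : Fin N → G) (u : Fin N → Option D.E) : ℝ :=
  Pf (.inl (fun _ => 1) :: List.ofFn (D.sy w c u))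

/-- The marks. -/
def mark {N : ℕ} (w : Fin N → Lt) (l : Fin N) : Bool := decide (w l ≠ .a)

/-- The integrals. -/
noncomputable def ig {N : ℕ} (y : G) (w : Fin N → Lt) (c : Fin N → G) (u : Fin N → Option D.E) :
    ℂ :=
  ∫ t, (ψ.g (∑ l, t l) : ℂ) * D.T ((D.Pw w c u t).e (D.ρ y) (D.x * D.ρ y)) ∂muP (mark w)

/-- The word functional. -/
noncomputable def tF {N : ℕ} (w : Fin N → Lt) : ℂ :=
  ∑' z : {y // IsConj D.x y} × (Fin N → G), ∑ u : Fin N → Option D.E,
    (D.cf w z.2 u : ℂ) * D.ig ψ z.1 w z.2 u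

/-- The word functional on lists. -/
noncomputable def tw (w : List Lt) : ℂ := D.tF ψ w.get

/-! ### E1: majorants -/

/-- The majorant of the chains. -/
noncomputable def ch {N : ℕ} (z : {y // IsConj D.x y} × (Fin N → G)) : ℝ :=
  let b2 := fun g => D.b g + cv D.b D.b g
  let p : Fin (N + 2) → G := Fin.cons (D.ρ z.1) (Fin.snoc z.2 (D.x * D.ρ z.1))
  ∏ i : Fin (N + 1), b2 ((p i.castSucc)⁻¹ * p i.succ)

/-! ### E2: continuity and derivatives -/

/-- The form `a` in the direction `r`. -/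
noncomputable def aD (s : G →₀ ℝ) (r : G) : Ker G R := D.V s * diag (D.W1 r s) * D.E0

/-- The derivative of the letters. -/
noncomputable def dlk (s : G →₀ ℝ) (r : G) (l : Lt) (c : G) (u : Option D.E) : Ker G R :=
  match l, u with
  | .y, none => -(D.aD s r * D.lk s .y c none) + D.lk s .y c none * D.aD s r
  | .a, some v => -(D.aD s r * D.lk s .a c (some v)) +
      D.V s * dl c * diag (D.B1 v r s) * D.E0
  | _, _ => 0

/-- The derivative of the words. -/
noncomputable def dPw {N : ℕ} (w : Fin N → Lt) (c : Fin N → G) (u : Fin N → Option D.E)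
    (t : Fin N → ℝ) (r : G) : Ker G R :=
  ∑ l : Fin N, (List.ofFn fun k => if k = l then D.dlk (sN c t) r (w l) (c l) (u l) else
    D.lk (sN c t) (w k) (c k) (u k)).prod

/-! ### E3: the trace property -/

/-! ### E4: closedness -/

/-! ### E5: the bound -/

/-! ### E6: values -/

/-! ### E7: the trace lemma -/

end TData

end Vale.Agent.P184.H57
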