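import Vale.Agent.P184.Ex.E1a
import Vale.Agent.P184.Ex.E2a

/-!
# Blocks E1, E2: the statements
-/

open MeasureTheory
open scoped ENNReal

namespace Vale.Agent.P184.H57

open Ker

set_option linter.unusedSectionVars false

theorem exists_bump {κ : ℝ} (h : 0 < κ) (h1 : κ < 1) : Nonempty (Bump κ) :=
  H422.exists_bump h h1

namespace TData

variable {G R : Type*} [Group G] [NormedRing R] [NormOneClass R] [NormedAlgebra ℂ R]
  [CompleteSpace R] (D : TData G R)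

theorem ch_summable (N : ℕ) : Summable (D.ch (N := N)) :=
  H232.ch_summable D N

theorem ch_tsum_le (N : ℕ) :
    ∑' z, D.ch (N := N) z ≤ (∑' g, (D.b g + cv D.b D.b g)) ^ (N + 1) :=
  H232.ch_tsum_le D N

theorem Pw_bound {N : ℕ} (hN : 0 < N) (w : Fin N → Lt) (z : {y // IsConj D.x y} × (Fin N → G))
    (u : Fin N → Option D.E) (t : Fin N → ℝ) (ht : Reg D.κ (sN z.2 t)) :
    ‖(D.Pw w z.2 u t).e (D.ρ z.1) (D.x * D.ρ z.1)‖ ≤ (max 1 D.CB) ^ N * D.ch z :=
  H232.Pw_bound D hN w z u t ht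

theorem V_cont {N : ℕ} (c : Fin N → G) :
    ContinuousOn (fun t : Fin N → ℝ => D.V (sN c t)) {t | Reg D.κ (sN c t)} :=
  H422.V_cont D c

theorem V_deriv (s : G →₀ ℝ) (r : G) (hs : Reg D.κ s) (hr : 0 < s r) :
    HasDerivAt (fun τ : ℝ => D.V (s + Finsupp.single r τ)) (-(D.aD s r * D.V s)) 0 :=
  H422.V_deriv D s r hs hr

theorem U_deriv (s : G →₀ ℝ) (r : G) (hs : Reg D.κ s) :
    HasDerivAt (fun τ : ℝ => D.U (s + Finsupp.single r τ)) (D.U s * D.aD s r) 0 :=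
  H422.U_deriv D s r hs

theorem lk_deriv (s : G →₀ ℝ) (r : G) (hs : Reg D.κ s) (hr : 0 < s r) (l : Lt) (c : G)
    (u : Option D.E) :
    HasDerivAt (fun τ : ℝ => D.lk (s + Finsupp.single r τ) l c u) (D.dlk s r l c u) 0 :=
  H422.lk_deriv D s r hs hr l c u

theorem Pw_deriv {N : ℕ} (w : Fin N → Lt) (c : Fin N → G) (u : Fin N → Option D.E)
    (t : Fin N → ℝ) (i : Fin N) (ht : Reg D.κ (sN c t)) (hi : 0 < t i) (h0 : ∀ l, 0 ≤ t l) :
    HasDerivAt (fun τ : ℝ => D.Pw w c u (Function.update t i τ)) (D.dPw w c u t (c i)) (t i) :=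
  H422.Pw_deriv D w c u t i ht hi h0

end TData

end Vale.Agent.P184.H57
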