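import Vale.Agent.P184.Ex.Base3
import Vale.Agent.P184.Ex.E1a

/-!
# Block E3: the trace property
-/

open MeasureTheory
open scoped ENNReal

namespace Vale.Agent.P184.H57

open Ker

set_option linter.unusedSectionVars false

namespace TData

variable {G R : Type*} [Group G] [NormedRing R] [NormOneClass R] [NormedAlgebra ℂ R]
  [CompleteSpace R] (D : TData G R) (ψ : Bump D.κ)

/-! ### Coefficients -/

theorem cf_bound (N : ℕ) : ∃ K : ℝ, 0 ≤ K ∧ ∀ (w : Fin N → Lt) (c : Fin N → G)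
    (u : Fin N → Option D.E), |D.cf w c u| ≤ K := by
  by_cases h : Odd (N + 1)
  · refine ⟨0, le_rfl, fun w c u => ?_⟩
    rw [cf, Pf_odd _ (by simpa using h), abs_zero]
  · rw [Nat.not_odd_iff_even] at h
    obtain ⟨n, hn⟩ := h
    refine ⟨(n : ℝ) ^ ((n : ℝ) / 2), by positivity, fun w c u => ?_⟩
    refine Pf_bound _ n (by simp; omega) fun f hf i _ => ?_
    rw [List.mem_cons, List.mem_ofFn] at hf
    rcases hf with hf | ⟨l, hl⟩
    · rw [Sum.inl.inj hf]
      simp
    · revert hl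
      unfold sy
      split
      · intro hl
        rw [← Sum.inl.inj hl]
        exact D.q_bd _ _ _
      · intro hl
        simp at hl

theorem cf_H {N : ℕ} (w : Fin N → Lt) (c : Fin N → G) (u : Fin N → Option D.E) (h : G)
    (hh : h * D.x = D.x * h) : D.cf w (fun l => h * c l) u = D.cf w c u := by
  unfold cf
  congr 2
  refine congrArg List.ofFn (funext fun l => ?_)
  unfold sy
  split
  · simp only [D.q_H h hh]
  · rfl

/-- Rotation of the points. -/
def rc (N : ℕ) : (Fin (N + 1) → G) ≃ (Fin (N + 1) → G) :=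
  ((finRotate (N + 1)).symm.arrowCongr (Equiv.refl G)).trans
    (Equiv.mulLeft fun l => if l = Fin.last N then D.x else 1)

theorem rc_apply {N : ℕ} (c : Fin (N + 1) → G) (l : Fin (N + 1)) :
    D.rc N c l = (if l = Fin.last N then D.x else 1) * c (finRotate (N + 1) l) := rfl

theorem rot_castSucc {N : ℕ} (l : Fin N) : finRotate (N + 1) l.castSucc = l.succ := by
  have := finRotate_of_lt (n := N) (k := l) l.2
  exact this

theorem rc_castSucc {N : ℕ} (c : Fin (N + 1) → G) (l : Fin N) :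
    D.rc N c l.castSucc = c l.succ := by
  rw [rc_apply, if_neg (Fin.castSucc_lt_last l).ne, one_mul, rot_castSucc]

theorem rc_last {N : ℕ} (c : Fin (N + 1) → G) : D.rc N c (Fin.last N) = D.x * c 0 := by
  rw [rc_apply, if_pos rfl, finRotate_last]

theorem q_rc {N : ℕ} (c : Fin (N + 1) → G) (i l : Fin (N + 1)) (v : D.E) :
    D.q (D.rc N c i) (D.rc N c l) v = D.q (c (finRotate _ i)) (c (finRotate _ l)) v := by
  rw [rc_apply, rc_apply]
  have h1 : ∀ (P : Prop) [Decidable P] (p : G), D.q ((if P then D.x else 1) * c (finRotate _ i)) p v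
      = D.q (c (finRotate _ i)) p v := by
    intro P _ p
    split_ifs
    · exact D.q_x _ _ _
    · rw [one_mul]
  have h2 : ∀ (P : Prop) [Decidable P] (r : G),
      D.q r ((if P then D.x else 1) * c (finRotate _ l)) v = D.q r (c (finRotate _ l)) v := by
    intro P _ p
    split_ifs
    · exact D.q_x' _ _ _
    · rw [one_mul]
  rw [h1, h2]

theorem cf_rot {N : ℕ} (w : Fin (N + 1) → Lt) (c : Fin (N + 1) → G)
    (u : Fin (N + 1) → Option D.E) :
    D.cf (fun l => w (finRotate _ l)) (D.rc N c) (fun l => u (finRotate _ l)) = D.cf w c u := by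
  by_cases ho : Odd (N + 2)
  · unfold cf
    rw [Pf_odd _ (by simpa using ho), Pf_odd _ (by simpa using ho)]
  · rw [Nat.not_odd_iff_even] at ho
    have hN : Even N := by
      rw [Nat.even_add] at ho
      simpa using ho
    unfold cf
    let r := finRotate (N + 1)
    let φ : (Fin (N + 1) → ℝ) ⊕ Fin (N + 1) → (Fin (N + 1) → ℝ) ⊕ Fin (N + 1) :=
      Sum.map (fun f i => f (r i)) r.symm
    have h1 : ∀ l, D.sy (fun l => w (r l)) (D.rc N c) (fun l => u (r l)) l =
        φ (D.sy w c u (r l)) := by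
      intro l
      unfold sy
      simp only
      split
      · simp only [φ, Sum.map_inl, q_rc]
        rfl
      · simp [φ, Sum.map_inr]
    have h2 : List.ofFn (D.sy (fun l => w (r l)) (D.rc N c) (fun l => u (r l))) =
        (List.ofFn fun l => D.sy w c u (r l)).map φ := by
      rw [List.map_ofFn]
      exact congrArg List.ofFn (funext h1)
    have h3 : (Sum.inl (fun _ => 1) :: List.ofFn (D.sy (fun l => w (r l)) (D.rc N c)
        (fun l => u (r l)))) = (Sum.inl (fun _ => 1) :: List.ofFn fun l => D.sy w c u (r l)).map φ := by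
      rw [h2, List.map_cons]
      rfl
    change Pf (Sum.inl (fun _ => 1) :: List.ofFn (D.sy (fun l => w (r l)) (D.rc N c)
        (fun l => u (r l)))) = _
    rw [h3, Pf_map]
    · have h4 : (List.ofFn fun l => D.sy w c u (r l)) =
          (List.ofFn fun l : Fin N => D.sy w c u l.succ) ++ [D.sy w c u 0] := by
        rw [List.ofFn_succ']
        simp only [r, rot_castSucc, finRotate_last, List.concat_eq_append]
      have h5 := Pf_move [Sum.inl (fun _ => (1 : ℝ))]
        (List.ofFn fun l : Fin N => D.sy w c u l.succ) [] (D.sy w c u 0)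
      rw [List.length_ofFn, hN.neg_one_pow, one_mul, List.append_nil] at h5
      rw [h4, List.ofFn_succ]
      simpa using h5.symm
    · intro v _ v' _
      rcases v with v | v <;> rcases v' with v' | v' <;> simp [φ, pr]

/-! ### The words -/

theorem sN_split {N : ℕ} (c : Fin (N + 1) → G) (t : Fin (N + 1) → ℝ) :
    sN c t = (sN (fun l : Fin N => c l.succ) fun l => t l.succ) + Finsupp.single (c 0) (t 0) := by
  rw [sN, Fin.sum_univ_succ, add_comm]
  rfl

theorem sN_rc {N : ℕ} (c : Fin (N + 1) → G) (t : Fin (N + 1) → ℝ) :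
    sN (D.rc N c) (fun l => t (finRotate _ l)) =
      (sN (fun l : Fin N => c l.succ) fun l => t l.succ) +
        Finsupp.single (D.x * c 0) (t 0) := by
  rw [sN, Fin.sum_univ_castSucc, rc_last, finRotate_last]
  simp only [rc_castSucc, rot_castSucc]
  rfl

theorem lk_shift (s : G →₀ ℝ) (hs : ∀ g, 0 ≤ s g) (r : G) (τ : ℝ) (hτ : 0 ≤ τ) (l : Lt) (c : G)
    (u : Option D.E) :
    D.lk (s + Finsupp.single (D.x * r) τ) l c u = D.lk (s + Finsupp.single r τ) l c u := by
  have h1 := D.V_shift s r τ hs hτ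
  have h2 : D.U (s + Finsupp.single (D.x * r) τ) = D.U (s + Finsupp.single r τ) := by
    unfold U
    rw [D.W_shift]
  cases l <;> cases u <;> simp only [lk, h1, h2, D.B_shift]

theorem lk_rc {N : ℕ} (c : Fin (N + 1) → G) (t : Fin (N + 1) → ℝ) (ht : ∀ l, 0 ≤ t l) (l : Lt)
    (d : G) (u : Option D.E) :
    D.lk (sN (D.rc N c) fun l => t (finRotate _ l)) l d u = D.lk (sN c t) l d u := by
  rw [sN_rc, D.lk_shift _ (H422.sN_nonneg _ _ fun l => ht l.succ) _ _ (ht 0), sN_split c t]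

/-- The kernel of the tail of a word. -/
noncomputable def tl {N : ℕ} (s : G →₀ ℝ) (w : Fin (N + 1) → Lt) (c : Fin (N + 1) → G)
    (u : Fin (N + 1) → Option D.E) : Ker G R :=
  (List.ofFn fun l : Fin N => D.lk s (w l.succ) (c l.succ) (u l.succ)).prod

theorem Pw_tl {N : ℕ} (w : Fin (N + 1) → Lt) (c : Fin (N + 1) → G)
    (u : Fin (N + 1) → Option D.E) (t : Fin (N + 1) → ℝ) :
    D.Pw w c u t = D.lk (sN c t) (w 0) (c 0) (u 0) * D.tl (sN c t) w c u := by
  rw [Pw, List.ofFn_succ, List.prod_cons]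
  rfl

theorem Pw_rc {N : ℕ} (w : Fin (N + 1) → Lt) (c : Fin (N + 1) → G)
    (u : Fin (N + 1) → Option D.E) (t : Fin (N + 1) → ℝ) (ht : ∀ l, 0 ≤ t l) :
    D.Pw (fun l => w (finRotate _ l)) (D.rc N c) (fun l => u (finRotate _ l))
      (fun l => t (finRotate _ l)) =
      D.tl (sN c t) w c u * D.lk (sN c t) (w 0) (D.x * c 0) (u 0) := by
  rw [Pw, List.ofFn_succ', List.concat_eq_append, List.prod_append, List.prod_singleton]
  simp only [D.lk_rc c t ht, rc_castSucc, rot_castSucc, rc_last, finRotate_last]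
  rfl

/-- The twisted trace of a pair of entries. -/
noncomputable def Ps {N : ℕ} (w : Fin (N + 1) → Lt) (p p' : G) (c : Fin (N + 1) → G)
    (u : Fin (N + 1) → Option D.E) (t : Fin (N + 1) → ℝ) : ℂ :=
  D.T ((D.tl (sN c t) w c u).e p' (D.x * p) *
    (D.lk (sN c t) (w 0) (D.x * c 0) (u 0)).e (D.x * p) (D.x * p'))

theorem T_mul (k k' : Ker G R) (p p' : G) :
    D.T ((k * k').e p p') = ∑' q, D.T (k.e p q * k'.e q p') := by
  have h1 : Summable fun q => k.e p q * k'.e q p' := (e_mul_summable k k' p p').of_norm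
  rw [e_mul]
  exact D.T.map_tsum h1

theorem T_Pw {N : ℕ} (w : Fin (N + 1) → Lt) (p : G) (c : Fin (N + 1) → G)
    (u : Fin (N + 1) → Option D.E) (t : Fin (N + 1) → ℝ) :
    D.T ((D.Pw w c u t).e p (D.x * p)) = ∑' p', D.Ps w p p' c u t := by
  rw [Pw_tl, T_mul]
  refine tsum_congr fun p' => ?_
  rw [D.T_comm, Ps, ← D.lk_x]

theorem T_Pw_rc {N : ℕ} (w : Fin (N + 1) → Lt) (p' : G) (c : Fin (N + 1) → G)
    (u : Fin (N + 1) → Option D.E) (t : Fin (N + 1) → ℝ) (ht : ∀ l, 0 ≤ t l) :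
    D.T ((D.Pw (fun l => w (finRotate _ l)) (D.rc N c) (fun l => u (finRotate _ l))
      (fun l => t (finRotate _ l))).e p' (D.x * p')) = ∑' p, D.Ps w p p' c u t := by
  rw [D.Pw_rc w c u t ht, T_mul, ← (Equiv.mulLeft D.x).tsum_eq]
  rfl

theorem Ps_H {N : ℕ} (w : Fin (N + 1) → Lt) (h : G) (hh : h * D.x = D.x * h) (p p' : G)
    (c : Fin (N + 1) → G) (u : Fin (N + 1) → Option D.E) (t : Fin (N + 1) → ℝ) :
    D.Ps w (h * p) (h * p') (fun l => h * c l) u t = D.Ps w p p' c u t := by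
  have hx : ∀ q, D.x * (h * q) = h * (D.x * q) := fun q => by
    rw [← mul_assoc, ← hh, mul_assoc]
  unfold Ps
  rw [← sN_map, hx, hx, hx]
  have h1 : (D.tl ((sN c t).mapDomain (h * ·)) w (fun l => h * c l) u).e (h * p')
      (h * (D.x * p)) = D.σ h ((D.tl (sN c t) w c u).e p' (D.x * p)) :=
    Tw.prod (D.σ_cont h) (fun i => D.lk_H h hh _ _ _ _) _ _
  rw [h1, D.lk_H h hh, ← map_mul, D.T_σ h hh]

theorem tl_cont {N : ℕ} (w : Fin (N + 1) → Lt) (c : Fin (N + 1) → G)
    (u : Fin (N + 1) → Option D.E) :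
    ContinuousOn (fun t : Fin (N + 1) → ℝ => D.tl (sN c t) w c u) {t | Reg D.κ (sN c t)} :=
  prod_cont _ fun _ => D.lk_cont c _ _ _

theorem Ps_cont {N : ℕ} (w : Fin (N + 1) → Lt) (p p' : G) (c : Fin (N + 1) → G)
    (u : Fin (N + 1) → Option D.E) :
    ContinuousOn (fun t : Fin (N + 1) → ℝ => D.Ps w p p' c u t) {t | Reg D.κ (sN c t)} := by
  unfold Ps
  exact D.T.continuous.comp_continuousOn
    (((eL (G := G) (R := R) p' (D.x * p)).continuous.comp_continuousOn (D.tl_cont w c u)).mul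
      ((eL (G := G) (R := R) (D.x * p) (D.x * p')).continuous.comp_continuousOn
        (D.lk_cont c _ _ _)))

/-- The majorant. -/
noncomputable def Th {N : ℕ} (p p' : G) (c : Fin (N + 1) → G) : ℝ :=
  D.cn p (c 0 :: p' :: List.ofFn fun l : Fin N => c l.succ) (D.x * p)

theorem Th_H {N : ℕ} (h : G) (hh : h * D.x = D.x * h) (p p' : G) (c : Fin (N + 1) → G) :
    D.Th (h * p) (h * p') (fun l => h * c l) = D.Th p p' c := by
  have hx : ∀ q, D.x * (h * q) = h * (D.x * q) := fun q => by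
    rw [← mul_assoc, ← hh, mul_assoc]
  unfold Th
  rw [hx, ← D.cn_smul h p (c 0 :: p' :: List.ofFn fun l : Fin N => c l.succ) (D.x * p)]
  simp [List.map_ofFn, Function.comp_def]

theorem Th_nonneg {N : ℕ} (p p' : G) (c : Fin (N + 1) → G) : 0 ≤ D.Th p p' c :=
  D.cn_nonneg _ _ _

theorem Th_summable (N : ℕ) : Summable fun z : D.X (N + 1) => D.Th (D.ρ z.1) z.2.1 z.2.2 := by
  have h1 := H232.ch_summable D (N + 2)
  let f : D.X (N + 1) → {y // IsConj D.x y} × (Fin (N + 2) → G) := fun z =>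
    (z.1, Fin.cons (z.2.2 0) (Fin.cons z.2.1 fun l : Fin N => z.2.2 l.succ))
  have hf : Function.Injective f := by
    rintro ⟨y, p, c⟩ ⟨y', p', c'⟩ h
    simp only [f, Prod.mk.injEq] at h
    obtain ⟨rfl, h2⟩ := h
    have h3 := congrFun h2 0
    have h4 : ∀ l : Fin (N + 1), (Fin.cons p (fun l : Fin N => c l.succ) : Fin (N + 1) → G) l =
        (Fin.cons p' (fun l : Fin N => c' l.succ) : Fin (N + 1) → G) l := fun l => by
      simpa using congrFun h2 l.succ
    have h5 := h4 0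
    have h6 : ∀ l : Fin N, c l.succ = c' l.succ := fun l => by simpa using h4 l.succ
    simp only [Fin.cons_zero] at h3 h5
    refine Prod.ext rfl (Prod.ext h5 (funext fun l => ?_))
    refine Fin.cases h3 (fun l => h6 l) l
  refine (h1.comp_injective hf).congr fun z => ?_
  simp only [Function.comp, ch_eq, f, Th, List.ofFn_succ, Fin.cons_zero, Fin.cons_succ]

theorem Ps_bound {N : ℕ} (w : Fin (N + 2) → Lt) (p p' : G) (c : Fin (N + 2) → G)
    (u : Fin (N + 2) → Option D.E) (t : Fin (N + 2) → ℝ) (ht : Reg D.κ (sN c t)) :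
    ‖D.Ps w p p' c u t‖ ≤ ‖D.T‖ * D.CM ^ (N + 2) * D.Th p p' c := by
  unfold Ps
  have h1 : ‖(D.tl (sN c t) w c u).e p' (D.x * p)‖ ≤
      D.CM ^ (N + 1) * D.cn p' (List.ofFn fun l : Fin (N + 1) => c l.succ) (D.x * p) := by
    have h2 := D.kL_bound (sN c t) ht (w 1, c 1, u 1)
      (List.ofFn fun l : Fin N => (w l.succ.succ, c l.succ.succ, u l.succ.succ)) p' (D.x * p)
    simp only [List.length_ofFn, List.map_ofFn, Function.comp_def] at h2
    rw [tl, List.ofFn_succ, List.ofFn_succ]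
    rw [kL, List.map_cons, List.map_ofFn] at h2
    exact h2
  have h3 : ‖(D.lk (sN c t) (w 0) (D.x * c 0) (u 0)).e (D.x * p) (D.x * p')‖ ≤
      D.CM * (D.b2 (p⁻¹ * c 0) * D.b2 ((c 0)⁻¹ * p')) := by
    have h2 := D.kL_bound (sN c t) ht (w 0, D.x * c 0, u 0) [] (D.x * p) (D.x * p')
    simp only [kL, List.map_cons, List.map_nil, List.prod_singleton, List.length_nil, cn,
      zero_add, pow_one] at h2
    refine h2.trans (le_of_eq ?_)
    congr 3 <;> group
  refine (D.T.le_opNorm _).trans ?_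
  rw [mul_assoc ‖D.T‖]
  refine mul_le_mul_of_nonneg_left ?_ (norm_nonneg _)
  refine (norm_mul_le _ _).trans ((mul_le_mul h1 h3 (norm_nonneg _)
    (mul_nonneg (pow_nonneg D.CM_pos.le _) (D.cn_nonneg _ _ _))).trans (le_of_eq ?_))
  simp only [Th, cn]
  ring

/-- Integrals of sums in the region. -/
theorem int_sum {N : ℕ} (b : Fin N → Bool) (c : Fin N → G) {ι : Type*}
    (F : ι → (Fin N → ℝ) → ℂ) (B : ι → ℝ) (hB : Summable B)
    (hF : ∀ i, ContinuousOn (F i) {t | Reg D.κ (sN c t)})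
    (hb : ∀ i t, Reg D.κ (sN c t) → ‖F i t‖ ≤ B i) :
    ∑' i, ∫ t, (ψ.g (∑ l, t l) : ℂ) * F i t ∂muP b =
      ∫ t, (ψ.g (∑ l, t l) : ℂ) * ∑' i, F i t ∂muP b := by
  have h1 := integral_tsum_dom (fun i (t : Fin N → ℝ) => (ψ.g (∑ l, t l) : ℂ) * F i t) B
    (fun t => |ψ.g (∑ l, t l)|) hB (D.g_int ψ b)
    (fun i => (D.gF_int ψ b c (F i) (hF i)).aestronglyMeasurable) ?_
  · rw [h1]
    simp only [tsum_mul_left]
  · filter_upwards [muP_ae b] with t ht i
    rw [norm_mul, Complex.norm_real, Real.norm_eq_abs]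
    by_cases h : |∑ l, t l - 1| < D.κ
    · rw [mul_comm]
      exact mul_le_mul_of_nonneg_right (hb i t (D.reg_of_orth c ht h)) (abs_nonneg _)
    · rw [D.g_zero ψ (not_lt.1 h)]
      simp

/-- The sum over the letters. -/
noncomputable def Ph {N : ℕ} (w : Fin (N + 1) → Lt) (p p' : G) (c : Fin (N + 1) → G) : ℂ :=
  ∑ u : Fin (N + 1) → Option D.E, (D.cf w c u : ℂ) *
    ∫ t, (ψ.g (∑ l, t l) : ℂ) * D.Ps w p p' c u t ∂muP (mark w)

theorem Ph_H {N : ℕ} (w : Fin (N + 1) → Lt) (h : G) (hh : h * D.x = D.x * h) (p p' : G)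
    (c : Fin (N + 1) → G) :
    D.Ph ψ w (h * p) (h * p') (fun l => h * c l) = D.Ph ψ w p p' c := by
  unfold Ph
  simp only [D.cf_H w c _ h hh, D.Ps_H w h hh]

theorem Ph_bound {N : ℕ} (w : Fin (N + 2) → Lt) : ∃ K : ℝ, ∀ p p' c,
    ‖D.Ph ψ w p p' c‖ ≤ K * D.Th p p' c := by
  obtain ⟨K0, hK0, hK⟩ := D.cf_bound (N + 2)
  refine ⟨∑ _u : Fin (N + 2) → Option D.E, K0 * ((‖D.T‖ * D.CM ^ (N + 2)) *
    ∫ t, |ψ.g (∑ l, t l)| ∂muP (mark w)), fun p p' c => ?_⟩
  unfold Ph
  rw [Finset.sum_mul]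
  refine (norm_sum_le _ _).trans (Finset.sum_le_sum fun u _ => ?_)
  rw [norm_mul, Complex.norm_real, Real.norm_eq_abs, mul_assoc]
  refine mul_le_mul (hK _ _ _) ?_ (norm_nonneg _) hK0
  rw [mul_right_comm, ← integral_const_mul]
  refine norm_integral_le_of_norm_le ((D.g_int ψ _).const_mul _) ?_
  filter_upwards [muP_ae (mark w)] with t ht
  rw [norm_mul, Complex.norm_real, Real.norm_eq_abs]
  by_cases h : |∑ l, t l - 1| < D.κ
  · rw [mul_comm]
    exact mul_le_mul_of_nonneg_right (D.Ps_bound w p p' c u t (D.reg_of_orth c ht h)) (abs_nonneg _)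
  · rw [D.g_zero ψ (not_lt.1 h)]
    simp

end TData

end Vale.Agent.P184.H57
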