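import Vale.Agent.P184.Ex.E3a

/-!
# Block E3: the trace property
-/

open MeasureTheory
open scoped ENNReal

namespace Vale.Agent.P184.H57

open Ker

set_option linter.unusedSectionVars false

namespace TData

variable {G R : Type*} [Group G] [NormedRing R] [NormOneClass R] [NormedAlgebra ℂ R]
  [CompleteSpace R] (D : TData G R) (ψ : Bump D.κ)

/-- Reordering. -/
def xE (n : ℕ) : ({y // IsConj D.x y} × (Fin n → G)) × G ≃ D.X n where
  toFun z := (z.1.1, z.2, z.1.2)
  invFun z := ((z.1, z.2.2), z.2.1)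
  left_inv _ := rfl
  right_inv _ := rfl

theorem X_tsum {n : ℕ} (F : D.X n → ℂ) (hF : Summable F) :
    ∑' z, F z = ∑' z : {y // IsConj D.x y} × (Fin n → G), ∑' p, F (z.1, p, z.2) := by
  rw [← (D.xE n).tsum_eq]
  exact ((D.xE n).summable_iff.2 hF).tsum_prod

theorem Th_row {N : ℕ} (y : {y // IsConj D.x y}) (c : Fin (N + 1) → G) :
    Summable fun p => D.Th (D.ρ y) p c :=
  (((D.xE (N + 1)).summable_iff.2 (D.Th_summable N)).prod_factor (y, c))

theorem Th_col {N : ℕ} (y : {y // IsConj D.x y}) (c : Fin (N + 1) → G) :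
    Summable fun p => D.Th p (D.ρ y) c := by
  have h1 := D.unfold_summable (fun p p' c => D.Th p p' c)
    (fun h hh p p' c => D.Th_H h hh p p' c) (D.Th_summable N)
  exact (((D.xE (N + 1)).summable_iff.2 h1).prod_factor (y, c))

theorem Ph_summable {N : ℕ} (w : Fin (N + 2) → Lt) :
    Summable fun z : D.X (N + 2) => D.Ph ψ w (D.ρ z.1) z.2.1 z.2.2 := by
  obtain ⟨K, hK⟩ := D.Ph_bound ψ w
  exact Summable.of_norm_bounded ((D.Th_summable (N + 1)).mul_left K) fun z => hK _ _ _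

theorem stepA {N : ℕ} (w : Fin (N + 2) → Lt) (y : {y // IsConj D.x y}) (c : Fin (N + 2) → G) :
    ∑ u, (D.cf w c u : ℂ) * D.ig ψ y w c u = ∑' p, D.Ph ψ w (D.ρ y) p c := by
  have hB : Summable fun p => ‖D.T‖ * D.CM ^ (N + 2) * D.Th (D.ρ y) p c :=
    (D.Th_row y c).mul_left _
  have h1 : ∀ u, D.ig ψ y w c u =
      ∑' p, ∫ t, (ψ.g (∑ l, t l) : ℂ) * D.Ps w (D.ρ y) p c u t ∂muP (mark w) := by
    intro u
    rw [D.int_sum ψ (mark w) c (fun p t => D.Ps w (D.ρ y) p c u t) _ hB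
      (fun p => D.Ps_cont w _ _ c u) fun p t ht => D.Ps_bound w _ _ c u t ht]
    unfold ig
    simp only [T_Pw]
  have h2 : ∀ u, Summable fun p =>
      (D.cf w c u : ℂ) * ∫ t, (ψ.g (∑ l, t l) : ℂ) * D.Ps w (D.ρ y) p c u t ∂muP (mark w) := by
    intro u
    refine Summable.mul_left _ (Summable.of_norm_bounded
      (hB.mul_right (∫ t, |ψ.g (∑ l, t l)| ∂muP (mark w))) fun p => ?_)
    rw [← integral_const_mul]
    refine norm_integral_le_of_norm_le ((D.g_int ψ _).const_mul _) ?_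
    filter_upwards [muP_ae (mark w)] with t ht
    rw [norm_mul, Complex.norm_real, Real.norm_eq_abs]
    by_cases h : |∑ l, t l - 1| < D.κ
    · rw [mul_comm]
      exact mul_le_mul_of_nonneg_right (D.Ps_bound w _ p c u t (D.reg_of_orth c ht h))
        (abs_nonneg _)
    · rw [D.g_zero ψ (not_lt.1 h)]
      simp
  unfold Ph
  rw [Summable.tsum_finsetSum fun u _ => h2 u]
  refine Finset.sum_congr rfl fun u _ => ?_
  rw [h1, tsum_mul_left]

theorem ig_rc {N : ℕ} (w : Fin (N + 1) → Lt) (y : {y // IsConj D.x y}) (c : Fin (N + 1) → G)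
    (u : Fin (N + 1) → Option D.E) :
    D.ig ψ y (fun l => w (finRotate _ l)) (D.rc N c) (fun l => u (finRotate _ l)) =
      ∫ t, (ψ.g (∑ l, t l) : ℂ) * ∑' p, D.Ps w p (D.ρ y) c u t ∂muP (mark w) := by
  unfold ig
  have h1 := muP_equiv (mark w) (finRotate (N + 1)) fun t => (ψ.g (∑ l, t l) : ℂ) *
    D.T ((D.Pw (fun l => w (finRotate _ l)) (D.rc N c) (fun l => u (finRotate _ l)) t).e (D.ρ y)
      (D.x * D.ρ y))
  have h2 : (mark fun l => w (finRotate (N + 1) l)) = fun l => mark w (finRotate (N + 1) l) := rfl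
  rw [h2, ← h1]
  refine integral_congr_ae ?_
  filter_upwards [muP_ae (mark w)] with t ht
  rw [D.T_Pw_rc w _ c u t fun l => (ht l).1, Equiv.sum_comp (finRotate (N + 1)) t]

theorem stepB {N : ℕ} (w : Fin (N + 2) → Lt) (y : {y // IsConj D.x y}) (c : Fin (N + 2) → G) :
    ∑ u, (D.cf (fun l => w (finRotate _ l)) (D.rc (N + 1) c) u : ℂ) *
      D.ig ψ y (fun l => w (finRotate _ l)) (D.rc (N + 1) c) u =
      ∑' p, D.Ph ψ w p (D.ρ y) c := by
  have hB : Summable fun p => ‖D.T‖ * D.CM ^ (N + 2) * D.Th p (D.ρ y) c :=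
    (D.Th_col y c).mul_left _
  rw [← ((finRotate (N + 2)).symm.arrowCongr (Equiv.refl (Option D.E))).sum_comp]
  have h0 : ∀ u : Fin (N + 2) → Option D.E,
      ((finRotate (N + 2)).symm.arrowCongr (Equiv.refl (Option D.E))) u =
        fun l => u (finRotate _ l) := fun u => rfl
  simp only [h0, cf_rot, ig_rc]
  have h1 : ∀ u : Fin (N + 2) → Option D.E,
      ∫ t, (ψ.g (∑ l, t l) : ℂ) * ∑' p, D.Ps w p (D.ρ y) c u t ∂muP (mark w) =
      ∑' p, ∫ t, (ψ.g (∑ l, t l) : ℂ) * D.Ps w p (D.ρ y) c u t ∂muP (mark w) := by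
    intro u
    exact (D.int_sum ψ (mark w) c (fun p t => D.Ps w p (D.ρ y) c u t) _ hB
      (fun p => D.Ps_cont w _ _ c u) fun p t ht => D.Ps_bound w _ _ c u t ht).symm
  have h2 : ∀ u, Summable fun p =>
      (D.cf w c u : ℂ) * ∫ t, (ψ.g (∑ l, t l) : ℂ) * D.Ps w p (D.ρ y) c u t ∂muP (mark w) := by
    intro u
    refine Summable.mul_left _ (Summable.of_norm_bounded
      (hB.mul_right (∫ t, |ψ.g (∑ l, t l)| ∂muP (mark w))) fun p => ?_)
    rw [← integral_const_mul]
    refine norm_integral_le_of_norm_le ((D.g_int ψ _).const_mul _) ?_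
    filter_upwards [muP_ae (mark w)] with t ht
    rw [norm_mul, Complex.norm_real, Real.norm_eq_abs]
    by_cases h : |∑ l, t l - 1| < D.κ
    · rw [mul_comm]
      exact mul_le_mul_of_nonneg_right (D.Ps_bound w p _ c u t (D.reg_of_orth c ht h))
        (abs_nonneg _)
    · rw [D.g_zero ψ (not_lt.1 h)]
      simp
  unfold Ph
  rw [Summable.tsum_finsetSum fun u _ => h2 u]
  refine Finset.sum_congr rfl fun u _ => ?_
  rw [h1, tsum_mul_left]

theorem tF_rotate' {N : ℕ} (w : Fin (N + 1) → Lt) :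
    D.tF ψ (fun l => w (finRotate (N + 1) l)) = D.tF ψ w := by
  rcases N with _ | N
  · congr 1
    funext l
    have : finRotate (0 + 1) l = l := Fin.ext (by omega)
    rw [this]
  · have hR : D.tF ψ w = ∑' z : {y // IsConj D.x y} × (Fin (N + 2) → G),
        ∑' p, D.Ph ψ w (D.ρ z.1) p z.2 := tsum_congr fun z => D.stepA ψ w z.1 z.2
    have hL : D.tF ψ (fun l => w (finRotate (N + 1 + 1) l)) =
        ∑' z : {y // IsConj D.x y} × (Fin (N + 2) → G),
        ∑' p, D.Ph ψ w p (D.ρ z.1) z.2 := by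
      unfold tF
      rw [← ((Equiv.refl {y // IsConj D.x y}).prodCongr (D.rc (N + 1))).tsum_eq]
      exact tsum_congr fun z => D.stepB ψ w z.1 z.2
    have h1 := D.Ph_summable ψ w
    have h2 := D.unfold_summable (D.Ph ψ w) (fun h hh p p' c => D.Ph_H ψ w h hh p p' c) h1
    have h3 := D.unfold_tsum (D.Ph ψ w) (fun h hh p p' c => D.Ph_H ψ w h hh p p' c)
    rw [D.X_tsum _ h1, D.X_tsum _ h2] at h3
    rw [hR, hL]
    exact h3.symm

end TData

end Vale.Agent.P184.H57
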