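import Vale.Agent.P184.Ex.E5a

/-!
# Block E5: the statements
-/

open MeasureTheory
open scoped ENNReal

namespace Vale.Agent.P184.H57

open Ker

set_option linter.unusedSectionVars false

namespace TData

variable {G R : Type*} [Group G] [NormedRing R] [NormOneClass R] [NormedAlgebra ℂ R]
  [CompleteSpace R] (D : TData G R) (ψ : Bump D.κ)

theorem tF_bound : ∃ C : ℝ, 0 ≤ C ∧ ∀ (n : ℕ) (w : Fin (2 * n + 1) → Lt),
    ‖D.tF ψ w‖ ≤ C ^ (n + 1) * (n + 1 : ℝ) ^ (-((n : ℝ) + 1) / 2) :=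
  H232.tF_bound D ψ

theorem tF_weight {N : ℕ} (w : Fin N → Lt)
    (h : (Finset.univ.filter fun l => w l ≠ .a).card ≠
      (Finset.univ.filter fun l => w l = .a).card + 1) : D.tF ψ w = 0 :=
  H232.tF_weight D ψ w h

end TData

end Vale.Agent.P184.H57
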