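import Vale.Agent.P184.Ex.E4Defs
import Vale.Agent.P184.Ex.E5

/-!
# E4 : assembly of the closedness from insertion, deletion and integration by parts
-/

open MeasureTheory
open scoped ENNReal

namespace Vale.Agent.P184.H552

open Vale.Agent.P184.H57 Vale.Agent.P184.H57.Ker

variable {G R : Type*} [Group G] [NormedRing R] [NormOneClass R] [NormedAlgebra ℂ R]
  [CompleteSpace R] (D : TData G R) (ψ : Bump D.κ)

/-- insertion terms -/
noncomputable def X {N : ℕ} (w : Fin N → Lt) (z : {y // IsConj D.x y} × (Fin N → G)) (l : ℕ) : ℂ :=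
  ∑ u : Fin N → Option D.E, ∑ i : Fin N, (pf1 D w z.2 u i : ℂ) *
      kI D ψ (TData.mark w) z.1 (insK D w z.2 u l i)

/-- deletion terms -/
noncomputable def Y {N : ℕ} (w : Fin (N + 1) → Lt) (z : {y // IsConj D.x y} × (Fin (N + 1) → G))
    (i : Fin (N + 1)) : ℂ :=
  ∑ u : Fin (N + 1) → Option D.E, (pf1 D w z.2 u i : ℂ) *
    kI D ψ (fun k => TData.mark w (i.succAbove k)) z.1 (fun s => D.Pw w z.2 u (i.insertNth 0 s))

theorem stk_X (hS : SpecStk D ψ) {N : ℕ} (w : Fin (N + 1) → Lt)
    (z : {y // IsConj D.x y} × (Fin (N + 1) → G)) :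
    ∑ l : Fin (N + 1), (match w l with
      | .x => 0
      | .y => -X D ψ w z l + X D ψ w z (l + 1)
      | .a => -X D ψ w z l) = -∑ i : Fin (N + 1), if w i = Lt.a then 0 else Y D ψ w z i := by
  refine Eq.trans ?_ (hS w z.1 z.2)
  simp only [Finset.mul_sum]
  rw [Finset.sum_congr rfl fun u _ => Finset.sum_comm, Finset.sum_comm]
  refine Finset.sum_congr rfl fun l _ => ?_
  cases w l with
  | x => simp
  | y =>
    simp only [X, mul_add, mul_neg, Finset.sum_add_distrib, Finset.sum_neg_distrib]
  | a => simp only [X, mul_neg, Finset.sum_neg_distrib]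

theorem closed_succ (hI : SpecIns D ψ) (hD : SpecDel D ψ) (hS : SpecStk D ψ) {N : ℕ}
    (w : Fin (N + 2) → Lt) :
    ∑ l : Fin (N + 2), (-1 : ℂ) ^ (l : ℕ) * (match w l with
      | .a => -D.tF ψ (Fin.insertNth l.castSucc Lt.a w : Fin (N + 3) → Lt)
      | .x => D.tF ψ (fun k => w (l.succAbove k))
      | .y => D.tF ψ (fun k => w (l.succAbove k)) -
          D.tF ψ (Fin.insertNth l.castSucc Lt.a w : Fin (N + 3) → Lt) -
          D.tF ψ (Fin.insertNth l.succ Lt.a w : Fin (N + 3) → Lt)) = 0 := by
  have h1 : ∀ l : Fin (N + 2), HasSum (fun z => match w l with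
      | .a => -X D ψ w z l
      | .x => Y D ψ w z l
      | .y => Y D ψ w z l - X D ψ w z l + X D ψ w z (l + 1))
      ((-1 : ℂ) ^ (l : ℕ) * (match w l with
      | .a => -D.tF ψ (Fin.insertNth l.castSucc Lt.a w : Fin (N + 3) → Lt)
      | .x => D.tF ψ (fun k => w (l.succAbove k))
      | .y => D.tF ψ (fun k => w (l.succAbove k)) -
          D.tF ψ (Fin.insertNth l.castSucc Lt.a w : Fin (N + 3) → Lt) -
          D.tF ψ (Fin.insertNth l.succ Lt.a w : Fin (N + 3) → Lt))) := by
    intro l
    have hX := hI w l.castSucc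
    have hX2 := hI w l.succ
    rw [Fin.val_castSucc] at hX
    rw [Fin.val_succ] at hX2
    cases hl : w l with
    | a =>
      simp only
      rw [mul_neg]
      exact hX.neg
    | x =>
      simp only
      exact hD w l (by rw [hl]; decide)
    | y =>
      simp only
      have hY := hD w l (by rw [hl]; decide)
      have h2 := (hY.sub hX).add hX2
      have h5 : ∀ e p q r : ℂ, e * (p - q - r) = e * p - e * q + e * -1 * r := by
        intro e p q r
        ring
      rw [h5, ← pow_succ]
      exact h2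
  have h2 := hasSum_sum (s := Finset.univ) fun l _ => h1 l
  refine h2.unique ?_
  have h3 : (fun z => ∑ l : Fin (N + 2), (match w l with
      | .a => -X D ψ w z l
      | .x => Y D ψ w z l
      | .y => Y D ψ w z l - X D ψ w z l + X D ψ w z (l + 1))) = fun _ => 0 := by
    funext z
    have h4 := stk_X D ψ hS w z
    rw [eq_neg_iff_add_eq_zero, ← Finset.sum_add_distrib] at h4
    rw [← h4]
    refine Finset.sum_congr rfl fun l _ => ?_
    cases w l with
    | x => simp
    | y => simp; ring
    | a => simp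
  rw [h3]
  exact hasSum_zero

theorem closed_one (w : Fin 1 → Lt) :
    ∑ l : Fin 1, (-1 : ℂ) ^ (l : ℕ) * (match w l with
      | .a => -D.tF ψ (Fin.insertNth l.castSucc Lt.a w : Fin 2 → Lt)
      | .x => D.tF ψ (fun k => w (l.succAbove k))
      | .y => D.tF ψ (fun k => w (l.succAbove k)) -
          D.tF ψ (Fin.insertNth l.castSucc Lt.a w : Fin 2 → Lt) -
          D.tF ψ (Fin.insertNth l.succ Lt.a w : Fin 2 → Lt)) = 0 := by
  have h0 : ∀ v : Fin 0 → Lt, D.tF ψ v = 0 := fun v => D.tF_weight ψ v (by simp)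
  have h1 : ∀ l : Fin 2, D.tF ψ (Fin.insertNth l Lt.a w : Fin 2 → Lt) = 0 := by
    intro l
    refine D.tF_weight ψ _ ?_
    have h3 : ∀ v : Fin 2 → Lt, v l = .a → (Finset.univ.filter fun l => v l ≠ .a).card ≠
        (Finset.univ.filter fun l => v l = .a).card + 1 := by
      intro v hv h4
      have h5 := Finset.card_filter_add_card_filter_not (s := (Finset.univ : Finset (Fin 2)))
        (p := fun l => v l = .a)
      have h6 : 0 < (Finset.univ.filter fun l => v l = .a).card :=
        Finset.card_pos.2 ⟨l, by simp [hv]⟩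
      simp only [Finset.card_univ, Fintype.card_fin] at h5
      simp only [ne_eq] at h4
      omega
    exact h3 _ (by simp)
  rw [Fin.sum_univ_one]
  cases w 0 with
  | a => simp only [h1]; simp
  | x => simp only [h0]; simp
  | y => simp only [h0, h1]; simp

/-- Closedness from the three parts. -/
theorem closed_of (hI : SpecIns D ψ) (hD : SpecDel D ψ) (hS : SpecStk D ψ) {N : ℕ}
    (w : Fin (N + 1) → Lt) :
    ∑ l : Fin (N + 1), (-1 : ℂ) ^ (l : ℕ) * (match w l with
      | .a => -D.tF ψ (Fin.insertNth l.castSucc Lt.a w : Fin (N + 2) → Lt)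
      | .x => D.tF ψ (fun k => w (l.succAbove k))
      | .y => D.tF ψ (fun k => w (l.succAbove k)) -
          D.tF ψ (Fin.insertNth l.castSucc Lt.a w : Fin (N + 2) → Lt) -
          D.tF ψ (Fin.insertNth l.succ Lt.a w : Fin (N + 2) → Lt)) = 0 := by
  cases N with
  | zero => exact closed_one D ψ w
  | succ N => exact closed_succ D ψ hI hD hS w

end Vale.Agent.P184.H552
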