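import Vale.Agent.P184.Ex.E3b

/-!
# Block E6: the values at the marks
-/

open MeasureTheory
open scoped ENNReal

namespace Vale.Agent.P184.H57

open Ker

set_option linter.unusedSectionVars false

namespace TData

variable {G R : Type*} [Group G] [NormedRing R] [NormOneClass R] [NormedAlgebra ℂ R]
  [CompleteSpace R] (D : TData G R) (ψ : Bump D.κ)

theorem int_one (b : Fin 1 → Bool) (hb : b 0 = true) :
    ∫ t : Fin 1 → ℝ, (ψ.g (∑ l, t l) : ℂ) ∂muP b = 1 := by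
  have h1 : ∀ t : Fin 1 → ℝ, (ψ.g (∑ l, t l) : ℂ) =
      (fun τ : ℝ => (ψ.g τ : ℂ)) (MeasurableEquiv.piUnique (fun _ : Fin 1 => ℝ) t) := by
    intro t
    simp
  simp_rw [h1]
  have h2 := (measurePreserving_piUnique (fun l : Fin 1 => mu (b l))).integral_comp
    (MeasurableEquiv.measurableEmbedding _) (fun τ : ℝ => (ψ.g τ : ℂ))
  rw [muP, h2]
  have h3 : mu (b default) = volume.restrict (Set.Ici 0) := by
    have : b default = true := hb
    rw [this]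
    simp [mu]
  rw [h3, integral_complex_ofReal, ψ.one, Complex.ofReal_one]

theorem cf_one (w : Fin 1 → Lt) (c : Fin 1 → G) :
    D.cf w c (fun _ => none) = 1 := by
  have h1 : D.sy w c (fun _ => none) 0 = Sum.inr 0 := by
    simp [sy]
  unfold cf
  rw [List.ofFn_succ, List.ofFn_zero, h1]
  have h2 := Pf_single (ι := Fin 1) [] [] 0 (by simp) (by simp)
  have h3 : (fun _ : Fin 1 => (1 : ℝ)) = Pi.single 0 1 := by
    funext i
    rw [Subsingleton.elim i 0]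
    simp
  rw [h3]
  simpa [Pf] using h2

theorem Pw_one (w : Fin 1 → Lt) (c : Fin 1 → G) (u : Fin 1 → Option D.E) (t : Fin 1 → ℝ) :
    D.Pw w c u t = D.lk (sN c t) (w 0) (c 0) (u 0) := by
  rw [Pw, List.ofFn_succ, List.ofFn_zero, List.prod_cons, List.prod_nil, mul_one]

theorem tF_one (w : Fin 1 → Lt) (hw : w 0 ≠ .a) :
    D.tF ψ w = ∑' z : {y // IsConj D.x y} × (Fin 1 → G), ∫ t, (ψ.g (∑ l, t l) : ℂ) *
      D.T ((D.lk (sN z.2 t) (w 0) (z.2 0) none).e (D.ρ z.1) (D.x * D.ρ z.1)) ∂muP (mark w) := by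
  refine tsum_congr fun z => ?_
  rw [Finset.sum_eq_single (fun _ => none)]
  · rw [D.cf_one w, Complex.ofReal_one, one_mul, ig]
    simp only [Pw_one]
  · intro u _ hu
    have h1 : ∀ t, D.Pw w z.2 u t = 0 := by
      intro t
      rw [Pw_one]
      cases hu0 : u 0 with
      | none =>
        refine absurd (funext fun l => ?_) hu
        rw [Subsingleton.elim l 0, hu0]
      | some v =>
        cases hw0 : w 0 with
        | a => exact absurd hw0 hw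
        | x => rfl
        | y => rfl
    have h2 : ∀ p p' : G, (0 : Ker G R).e p p' = 0 := fun p p' => rfl
    simp [ig, h1, h2]
  · intro h
    exact absurd (Finset.mem_univ _) h

/-- Points as families. -/
def uE : {y // IsConj D.x y} × G ≃ {y // IsConj D.x y} × (Fin 1 → G) :=
  (Equiv.refl _).prodCongr (Equiv.funUnique (Fin 1) G).symm

theorem pair_summable : Summable fun z : {y // IsConj D.x y} × G =>
    D.b2 ((D.ρ z.1)⁻¹ * z.2) * D.b2 (z.2⁻¹ * (D.x * D.ρ z.1)) := by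
  have h1 := D.uE.summable_iff.2 (H232.ch_summable D 1)
  refine h1.congr fun z => ?_
  simp [uE, Function.comp, ch_eq, cn, Equiv.funUnique]

theorem tF_x (w : Fin 1 → Lt) (hw : w 0 = .x) : D.tF ψ w = D.I0 D.E0 := by
  rw [D.tF_one ψ w (by rw [hw]; simp)]
  have h2 : ∀ z : {y // IsConj D.x y} × (Fin 1 → G), ∫ t : Fin 1 → ℝ, (ψ.g (∑ l, t l) : ℂ) *
      D.T ((D.lk (sN z.2 t) (w 0) (z.2 0) none).e (D.ρ z.1)
        (D.x * D.ρ z.1)) ∂muP (mark w) =
      D.T (D.E0.e (D.ρ z.1) (z.2 0) * D.E0.e (z.2 0) (D.x * D.ρ z.1)) := by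
    intro z
    have h3 : ∀ t : Fin 1 → ℝ, D.lk (sN z.2 t) (w 0) (z.2 0) none =
        D.E0 * dl (z.2 0) * D.E0 := fun t => by
      rw [hw]
      rfl
    simp only [h3, mul_dl_mul_e]
    rw [integral_mul_const, D.int_one ψ _ (by simp [mark, hw]), one_mul]
  rw [tsum_congr h2, ← D.uE.tsum_eq]
  have h4 : Summable fun z : {y // IsConj D.x y} × G =>
      D.T (D.E0.e (D.ρ z.1) z.2 * D.E0.e z.2 (D.x * D.ρ z.1)) := by
    refine Summable.of_norm_bounded (D.pair_summable.mul_left ‖D.T‖) fun z => ?_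
    refine (D.T.le_opNorm _).trans (mul_le_mul_of_nonneg_left ?_ (norm_nonneg _))
    refine (norm_mul_le _ _).trans (mul_le_mul ?_ ?_ (norm_nonneg _) (D.b2_nonneg _))
    · exact (norm_e_le_maj D.E0_maj _ _).trans (D.b_le_b2 _)
    · exact (norm_e_le_maj D.E0_maj _ _).trans (D.b_le_b2 _)
  have h5 := h4.tsum_prod
  have h6 : ∀ z : {y // IsConj D.x y} × G, D.T (D.E0.e (D.ρ (D.uE z).1) ((D.uE z).2 0) *
      D.E0.e ((D.uE z).2 0) (D.x * D.ρ (D.uE z).1)) =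
      D.T (D.E0.e (D.ρ z.1) z.2 * D.E0.e z.2 (D.x * D.ρ z.1)) := fun z => rfl
  rw [tsum_congr h6, h5]
  unfold I0
  refine tsum_congr fun y => ?_
  conv_rhs => rw [← D.E0_idem]
  rw [D.T_mul]

theorem tw_x' : D.tw ψ [.x] = D.I0 D.E0 := D.tF_x ψ ([Lt.x].get : Fin 1 → Lt) rfl

/-- The pair functional of the letter `y`. -/
noncomputable def Fy (p c : G) : ℂ :=
  ∫ t : Fin 1 → ℝ, (ψ.g (∑ l, t l) : ℂ) *
    D.T ((D.U (sN (fun _ => c) t)).e c (D.x * p) *
      (D.V (sN (fun _ => c) t)).e (D.x * p) (D.x * c)) ∂muP (fun _ => true)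

theorem Fy_H (h : G) (hh : h * D.x = D.x * h) (p c : G) :
    D.Fy ψ (h * p) (h * c) = D.Fy ψ p c := by
  have hx : ∀ q, D.x * (h * q) = h * (D.x * q) := fun q => by
    rw [← mul_assoc, ← hh, mul_assoc]
  unfold Fy
  congr 1
  funext t
  rw [hx, hx, ← sN_map (N := 1) h (fun _ => c) t, D.U_H h hh, D.V_H h hh, ← map_mul, D.T_σ h hh]

theorem Fy_cont (p c : G) : ContinuousOn (fun t : Fin 1 → ℝ =>
    D.T ((D.U (sN (fun _ => c) t)).e c (D.x * p) *
      (D.V (sN (fun _ => c) t)).e (D.x * p) (D.x * c))) {t | Reg D.κ (sN (fun _ : Fin 1 => c) t)} :=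
  D.T.continuous.comp_continuousOn
    (((eL (G := G) (R := R) c (D.x * p)).continuous.comp_continuousOn
      (H422.U_cont D (fun _ : Fin 1 => c)).continuousOn).mul
      ((eL (G := G) (R := R) (D.x * p) (D.x * c)).continuous.comp_continuousOn
        (H422.V_cont D (fun _ : Fin 1 => c))))

theorem Fy_bd (p c : G) (s : G →₀ ℝ) (hs : Reg D.κ s) :
    ‖D.T ((D.U s).e c (D.x * p) * (D.V s).e (D.x * p) (D.x * c))‖ ≤
      ‖D.T‖ * (D.b2 (p⁻¹ * c) * D.b2 (c⁻¹ * (D.x * p))) := by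
  refine (D.T.le_opNorm _).trans (mul_le_mul_of_nonneg_left ?_ (norm_nonneg _))
  rw [mul_comm (D.b2 _)]
  refine (norm_mul_le _ _).trans (mul_le_mul ?_ ?_ (norm_nonneg _) (D.b2_nonneg _))
  · exact (norm_e_le_maj (D.U_maj s hs) _ _).trans (D.b_le_b2 _)
  · have h1 := norm_e_le_maj (D.V_maj s) (D.x * p) (D.x * c)
    have h2 : (D.x * p)⁻¹ * (D.x * c) = p⁻¹ * c := by group
    rw [h2] at h1
    exact h1.trans (D.b_le_b2 _)

theorem tF_y (w : Fin 1 → Lt) (hw : w 0 = .y) :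
    D.tF ψ w = ∑' z : {y // IsConj D.x y} × G, D.Fy ψ (D.ρ z.1) z.2 := by
  rw [D.tF_one ψ w (by rw [hw]; simp), ← D.uE.tsum_eq]
  refine tsum_congr fun z => ?_
  have hm : mark w = fun _ => true := by
    funext l
    rw [Subsingleton.elim l 0]
    simp [mark, hw]
  have hz : (D.uE z).2 = fun _ => z.2 := rfl
  rw [hm, hz, Fy]
  congr 1
  funext t
  congr 1
  have h1 : D.lk (sN (fun _ : Fin 1 => z.2) t) (w 0) z.2 none =
      D.V (sN (fun _ => z.2) t) * dl z.2 * D.U (sN (fun _ => z.2) t) := by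
    rw [hw]
    rfl
  rw [h1, mul_dl_mul_e, D.T_comm, ← D.V_x]
  rfl

theorem tF_y' (w : Fin 1 → Lt) (hw : w 0 = .y) : D.tF ψ w = D.I0 D.E1 := by
  rw [D.tF_y ψ w hw]
  let e0 : D.X 0 ≃ {y // IsConj D.x y} × G :=
    (Equiv.refl _).prodCongr (Equiv.prodUnique G (Fin 0 → G))
  have hsum : Summable fun z : {y // IsConj D.x y} × G => D.Fy ψ (D.ρ z.1) z.2 := by
    refine Summable.of_norm_bounded ((D.pair_summable.mul_left ‖D.T‖).mul_right
      (∫ t : Fin 1 → ℝ, |ψ.g (∑ l, t l)| ∂muP (fun _ => true))) fun z => ?_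
    rw [← integral_const_mul]
    refine norm_integral_le_of_norm_le ((D.g_int ψ _).const_mul _) ?_
    filter_upwards [muP_ae (fun _ : Fin 1 => true)] with t ht
    rw [norm_mul, Complex.norm_real, Real.norm_eq_abs]
    by_cases h : |∑ l, t l - 1| < D.κ
    · rw [mul_comm]
      exact mul_le_mul_of_nonneg_right (D.Fy_bd _ _ _ (D.reg_of_orth _ ht h)) (abs_nonneg _)
    · rw [D.g_zero ψ (not_lt.1 h)]
      simp
  have h1 := D.unfold_tsum (n := 0) (fun p c (_ : Fin 0 → G) => D.Fy ψ p c)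
    (fun h hh p c _ => D.Fy_H ψ h hh p c)
  have hs0 : Summable fun z : D.X 0 => D.Fy ψ (D.ρ z.1) z.2.1 := e0.summable_iff.2 hsum
  have hs1 := D.unfold_summable (n := 0) (fun p c (_ : Fin 0 → G) => D.Fy ψ p c)
    (fun h hh p c _ => D.Fy_H ψ h hh p c) hs0
  have h2 : ∑' z : D.X 0, D.Fy ψ (D.ρ z.1) z.2.1 =
      ∑' z : {y // IsConj D.x y} × G, D.Fy ψ (D.ρ z.1) z.2 := e0.tsum_eq fun z => D.Fy ψ (D.ρ z.1) z.2
  have h3 : ∑' z : D.X 0, D.Fy ψ z.2.1 (D.ρ z.1) =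
      ∑' z : {y // IsConj D.x y} × G, D.Fy ψ z.2 (D.ρ z.1) := e0.tsum_eq fun z => D.Fy ψ z.2 (D.ρ z.1)
  have hs2 : Summable fun z : {y // IsConj D.x y} × G => D.Fy ψ z.2 (D.ρ z.1) :=
    e0.summable_iff.1 hs1
  rw [← h2, h1, h3, hs2.tsum_prod]
  unfold I0
  refine tsum_congr fun y => ?_
  -- the sum over the points
  have hps : Summable fun z : {y // IsConj D.x y} × G =>
      D.b2 (z.2⁻¹ * D.ρ z.1) * D.b2 ((D.ρ z.1)⁻¹ * (D.x * z.2)) := by
    have h4 := D.unfold_summable (n := 0)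
      (fun p c (_ : Fin 0 → G) => D.b2 (p⁻¹ * c) * D.b2 (c⁻¹ * (D.x * p)))
      (fun h hh p c _ => by
        have hx : D.x * (h * p) = h * (D.x * p) := by rw [← mul_assoc, ← hh, mul_assoc]
        rw [hx]
        congr 2 <;> group)
      (e0.summable_iff.2 D.pair_summable)
    exact e0.summable_iff.1 h4
  have hrow : Summable fun p : G =>
      ‖D.T‖ * (D.b2 (p⁻¹ * D.ρ y) * D.b2 ((D.ρ y)⁻¹ * (D.x * p))) :=
    (hps.prod_factor y).mul_left _
  have h5 := D.int_sum ψ (fun _ : Fin 1 => true) (fun _ => D.ρ y)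
    (fun (p : G) (t : Fin 1 → ℝ) => D.T ((D.U (sN (fun _ => D.ρ y) t)).e (D.ρ y) (D.x * p) *
      (D.V (sN (fun _ => D.ρ y) t)).e (D.x * p) (D.x * D.ρ y))) _ hrow
    (fun p => D.Fy_cont p (D.ρ y)) (fun p t ht => D.Fy_bd p (D.ρ y) _ ht)
  have h6 : ∑' p, D.Fy ψ p (D.ρ y) = ∫ t : Fin 1 → ℝ, (ψ.g (∑ l, t l) : ℂ) *
      ∑' p, D.T ((D.U (sN (fun _ => D.ρ y) t)).e (D.ρ y) (D.x * p) *
      (D.V (sN (fun _ => D.ρ y) t)).e (D.x * p) (D.x * D.ρ y)) ∂muP (fun _ => true) := h5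
  rw [h6]
  have h7 : ∀ᵐ t ∂muP (fun _ : Fin 1 => true), (ψ.g (∑ l, t l) : ℂ) *
      ∑' p, D.T ((D.U (sN (fun _ => D.ρ y) t)).e (D.ρ y) (D.x * p) *
      (D.V (sN (fun _ => D.ρ y) t)).e (D.x * p) (D.x * D.ρ y)) =
      (ψ.g (∑ l, t l) : ℂ) * D.T (D.E1.e (D.ρ y) (D.x * D.ρ y)) := by
    filter_upwards [muP_ae (fun _ : Fin 1 => true)] with t ht
    by_cases h : |∑ l, t l - 1| < D.κ
    · congr 1
      have h8 := D.V_right _ (D.reg_of_orth (fun _ : Fin 1 => D.ρ y) ht h)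
      have h9 : D.U (sN (fun _ => D.ρ y) t) * D.V (sN (fun _ => D.ρ y) t) = D.E1 := h8
      rw [← h9, D.T_mul]
      exact (Equiv.mulLeft D.x).tsum_eq fun q =>
        D.T ((D.U (sN (fun _ => D.ρ y) t)).e (D.ρ y) q *
          (D.V (sN (fun _ => D.ρ y) t)).e q (D.x * D.ρ y))
    · rw [D.g_zero ψ (not_lt.1 h)]
      simp
  rw [integral_congr_ae h7, integral_mul_const, D.int_one ψ _ rfl, one_mul]

theorem tw_y' : D.tw ψ [.y] = D.I0 D.E1 := D.tF_y' ψ ([Lt.y].get : Fin 1 → Lt) rfl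

end TData

end Vale.Agent.P184.H57
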