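import Vale.Agent.P184.Ex.E

/-!
# E7: the word functional on lists; the trace lemma
-/

open MeasureTheory
open scoped ENNReal

namespace Vale.Agent.P184.H57

open Ker

set_option linter.unusedSectionVars false

/-- Counting positions. -/
theorem card_filter_get_eq {α : Type*} [DecidableEq α] (L : List α) (a : α) :
    (Finset.univ.filter fun l : Fin L.length => L.get l = a).card = L.count a := by
  induction L with
  | nil => simp
  | cons b L ih =>
    rw [List.count_cons, ← ih]
    have h := Fin.card_filter_univ_succ (n := L.length)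
      (fun l : Fin (L.length + 1) => (b :: L).get l = a)
    have h2 : (Finset.univ.filter fun l : Fin (b :: L).length => (b :: L).get l = a).card =
      (Finset.univ.filter fun l : Fin (L.length + 1) => (b :: L).get l = a).card := rfl
    rw [h2, h]
    by_cases hb : b = a
    · simp [hb]
    · simp [hb]

theorem card_filter_get_ne (L : List Lt) :
    (Finset.univ.filter fun l : Fin L.length => L.get l ≠ .a).card =
      L.count .x + L.count .y := by
  have h1 : (Finset.univ.filter fun l : Fin L.length => L.get l ≠ .a) =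
      (Finset.univ.filter fun l : Fin L.length => L.get l = .x) ∪
        (Finset.univ.filter fun l : Fin L.length => L.get l = .y) := by
    ext l
    simp only [Finset.mem_filter, Finset.mem_univ, true_and, Finset.mem_union]
    cases L.get l <;> simp
  rw [h1, Finset.card_union_of_disjoint, card_filter_get_eq, card_filter_get_eq]
  rw [Finset.disjoint_left]
  intro l hl hl'
  simp only [Finset.mem_filter, Finset.mem_univ, true_and] at hl hl'
  rw [hl] at hl'
  exact absurd hl' (by decide)

namespace TData

variable {G R : Type*} [Group G] [NormedRing R] [NormOneClass R] [NormedAlgebra ℂ R]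
  [CompleteSpace R] (D : TData G R) (ψ : Bump D.κ)

theorem tw_eq_tF (L : List Lt) {N : ℕ} (h : L.length = N) (w : Fin N → Lt)
    (hw : ∀ i : Fin N, L.get (Fin.cast h.symm i) = w i) : D.tw ψ L = D.tF ψ w := by
  subst h
  have : L.get = w := funext fun i => hw i
  rw [tw, this]

theorem tw_cons_rotate (b : Lt) (v : List Lt) : D.tw ψ (v ++ [b]) = D.tw ψ (b :: v) := by
  have h1 : D.tw ψ (b :: v) = D.tF ψ (N := v.length + 1) (b :: v).get := rfl
  rw [h1, ← D.tF_rotate ψ (N := v.length) (b :: v).get]
  refine D.tw_eq_tF ψ _ (by simp) _ fun i => ?_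
  rcases Fin.eq_castSucc_or_eq_last i with ⟨j, rfl⟩ | rfl
  · rw [finRotate_of_lt (by simp)]
    simp
  · rw [finRotate_last]
    simp

theorem tw_cyc (u v : List Lt) : D.tw ψ (u ++ v) = D.tw ψ (v ++ u) := by
  induction u generalizing v with
  | nil => simp
  | cons b u ih =>
    have h1 := D.tw_cons_rotate ψ b (u ++ v)
    rw [List.cons_append, ← h1, List.append_assoc, ih, List.append_assoc]
    rfl

theorem tw_wt (w : List Lt) (hw : w.count .x + w.count .y ≠ w.count .a + 1) : D.tw ψ w = 0 := by
  refine D.tF_weight ψ _ ?_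
  rwa [card_filter_get_ne, card_filter_get_eq]

theorem tw_remove (w : List Lt) {N : ℕ} (hN : w.length = N + 1) (l : Fin (N + 1)) :
    D.tw ψ (w.take l ++ w.drop (l + 1)) =
      D.tF ψ fun k => w.get (Fin.cast hN.symm (l.succAbove k)) := by
  have hl := l.2
  refine D.tw_eq_tF ψ _ (by simp; omega) _ fun i => ?_
  have hi := i.2
  simp only [List.get_eq_getElem, Fin.val_cast, List.getElem_append, List.length_take,
    List.getElem_take, List.getElem_drop]
  by_cases h : (i : ℕ) < l
  · have h1 : (i : ℕ) < min (l : ℕ) w.length := by omega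
    rw [dif_pos h1]
    congr 1
    rw [Fin.succAbove_of_castSucc_lt _ _ (by simpa [Fin.lt_def] using h)]
    simp
  · have h1 : ¬ (i : ℕ) < min (l : ℕ) w.length := by omega
    rw [dif_neg h1]
    congr 1
    rw [Fin.succAbove_of_le_castSucc _ _ (by simpa [Fin.le_def] using h)]
    simp only [Fin.val_succ]
    omega

theorem tw_insert (w : List Lt) {N : ℕ} (hN : w.length = N + 1) (l : Fin (N + 2)) (b : Lt) :
    D.tw ψ (w.take l ++ b :: w.drop l) =
      D.tF ψ (Fin.insertNth l b (fun k => w.get (Fin.cast hN.symm k)) : Fin (N + 2) → Lt) := by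
  have hl := l.2
  refine D.tw_eq_tF ψ _ (by simp; omega) _ fun i => ?_
  have hi := i.2
  refine Fin.succAboveCases l ?_ (fun j => ?_) i
  · rw [Fin.insertNth_apply_same]
    simp only [List.get_eq_getElem, Fin.val_cast, List.getElem_append, List.length_take]
    have h1 : ¬ (l : ℕ) < min (l : ℕ) w.length := by omega
    rw [dif_neg h1]
    have h2 : (l : ℕ) - min (l : ℕ) w.length = 0 := by omega
    simp [h2]
  · rw [Fin.insertNth_apply_succAbove]
    have hj := j.2
    simp only [List.get_eq_getElem, Fin.val_cast, List.getElem_append, List.length_take,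
      List.getElem_take]
    by_cases h : (j : ℕ) < l
    · have h3 : l.succAbove j = j.castSucc :=
        Fin.succAbove_of_castSucc_lt _ _ (by simpa [Fin.lt_def] using h)
      have h1 : ((l.succAbove j : Fin (N + 2)) : ℕ) < min (l : ℕ) w.length := by
        rw [h3, Fin.val_castSucc]; omega
      rw [dif_pos h1]
      congr 1
      rw [h3, Fin.val_castSucc]
    · have h3 : l.succAbove j = j.succ :=
        Fin.succAbove_of_le_castSucc _ _ (by simpa [Fin.le_def] using h)
      have h1 : ¬ ((l.succAbove j : Fin (N + 2)) : ℕ) < min (l : ℕ) w.length := by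
        rw [h3, Fin.val_succ]; omega
      rw [dif_neg h1]
      have h4 : ((l.succAbove j : Fin (N + 2)) : ℕ) - min (l : ℕ) w.length = (j - l : ℕ) + 1 := by
        rw [h3, Fin.val_succ]; omega
      simp only [h4, List.getElem_cons_succ, List.getElem_drop]
      congr 1
      omega

theorem take_get_drop (w : List Lt) (l : ℕ) (hl : l < w.length) (c : Lt) (hc : w[l] = c)
    (b : Lt) : w.take l ++ b :: w.drop l = w.take l ++ [b, c] ++ w.drop (l + 1) := by
  rw [← List.cons_getElem_drop_succ (h := hl), hc]
  simp

theorem take_succ_drop (w : List Lt) (l : ℕ) (hl : l < w.length) (c : Lt) (hc : w[l] = c)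
    (b : Lt) : w.take (l + 1) ++ b :: w.drop (l + 1) = w.take l ++ [c, b] ++ w.drop (l + 1) := by
  rw [← List.take_append_getElem (h := hl), hc]
  simp

theorem tw_closed : IsClosedTrace (D.tw ψ) where
  cyc := D.tw_cyc ψ
  wt := D.tw_wt ψ
  closed := by
    intro w
    rcases w with _ | ⟨b, v⟩
    · simp
    · obtain ⟨w, hw⟩ : ∃ w, w = b :: v := ⟨_, rfl⟩
      have hN : w.length = v.length + 1 := by rw [hw]; rfl
      have h := D.tF_closed ψ (N := v.length) (fun k => w.get (Fin.cast hN.symm k))
      rw [← hw]
      rw [← h]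
      refine Fintype.sum_equiv (finCongr hN) _ _ fun l => ?_
      have hl : (l : ℕ) < w.length := l.2
      have e1 : ((finCongr hN l : Fin (v.length + 1)) : ℕ) = l := rfl
      have e2 : w.get (Fin.cast hN.symm (finCongr hN l)) = w.get l := rfl
      rw [e1]
      congr 1
      have hr := D.tw_remove ψ w hN (finCongr hN l)
      have hi1 := D.tw_insert ψ w hN (finCongr hN l).castSucc .a
      have hi2 := D.tw_insert ψ w hN (finCongr hN l).succ .a
      rw [Fin.val_castSucc, e1] at hi1
      rw [Fin.val_succ, e1] at hi2
      rw [e1] at hr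
      rw [e2]
      rcases hc : w.get l with _ | _ | _
      · simp only [dLt]
        rw [← hi1, take_get_drop w l hl _ hc]
      · simp only [dLt]
        rw [← hr]
      · simp only [dLt]
        rw [← hr, ← hi1, ← hi2, take_get_drop w l hl _ hc, take_succ_drop w l hl _ hc]

/-- The trace lemma. -/
theorem main : D.I0 D.E0 = D.I0 D.E1 := by
  obtain ⟨ψ⟩ := exists_bump D.κ_pos D.κ_lt
  obtain ⟨C, hC, h⟩ := D.tF_bound ψ
  have h1 := (D.tw_closed ψ).eq C hC fun w n hw => by
    have h2 : D.tw ψ w = D.tF ψ fun i => w.get (Fin.cast hw.symm i) :=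
      D.tw_eq_tF ψ w hw _ fun i => rfl
    rw [h2]
    exact h n _
  rw [D.tw_x, D.tw_y] at h1
  exact h1.symm

end TData

end Vale.Agent.P184.H57
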