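import Vale.Agent.P184.R3.UDefs

/-!
# Block F2, the probability vectors: averaging property A over a cyclic group
-/

namespace Vale.Agent.P184.H191

open Vale.Agent.P184.Un

/-- Bounded functions on the integers. -/
def Bd (f : ℤ → ℝ) : Prop := ∃ K, ∀ n, |f n| ≤ K

/-- An invariant mean on the integers. -/
structure ZMean (m : (ℤ → ℝ) → ℝ) : Prop where
  add : ∀ f g : ℤ → ℝ, Bd f → Bd g → m (fun n => f n + g n) = m f + m g
  nonneg : ∀ f : ℤ → ℝ, Bd f → (∀ n, 0 ≤ f n) → 0 ≤ m f
  const : ∀ c : ℝ, m (fun _ => c) = c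
  shift : ∀ f : ℤ → ℝ, Bd f → m (fun n => f (n + 1)) = m f

theorem exists_zmean : ∃ m : (ℤ → ℝ) → ℝ, ZMean m := by
  let U : Filter ℕ := (Filter.hyperfilter ℕ : Filter ℕ)
  let A : (ℤ → ℝ) → ℕ → ℝ := fun f N => (∑ i ∈ Finset.range (N + 1), f i) / ((N : ℝ) + 1)
  have hA : ∀ f : ℤ → ℝ, Bd f → ∃ x, Filter.Tendsto (A f) U (nhds x) := by
    rintro f ⟨K, hK⟩
    have h1 : ∀ N, A f N ∈ Set.Icc (-K) K := by
      intro N
      rw [Set.mem_Icc, ← abs_le]
      simp only [A]
      rw [abs_div, abs_of_pos (by positivity : (0 : ℝ) < (N : ℝ) + 1), div_le_iff₀ (by positivity)]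
      refine (Finset.abs_sum_le_sum_abs _ _).trans ?_
      refine (Finset.sum_le_sum fun (i : ℕ) _ => hK (i : ℤ)).trans ?_
      rw [Finset.sum_const, Finset.card_range, nsmul_eq_mul]
      push_cast
      rw [mul_comm]
    obtain ⟨x, _, hx⟩ := (isCompact_Icc (a := -K) (b := K)).ultrafilter_le_nhds
      ((Filter.hyperfilter ℕ).map (A f)) (by
        rw [Filter.le_principal_iff]
        exact Filter.mem_map.2 (Filter.univ_mem' h1))
    exact ⟨x, hx⟩
  have hlim : ∀ f : ℤ → ℝ, Bd f → Filter.Tendsto (A f) U (nhds (Filter.limUnder U (A f))) :=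
    fun f hf => tendsto_nhds_limUnder (hA f hf)
  refine ⟨fun f => Filter.limUnder U (A f), ?_, ?_, ?_, ?_⟩
  · rintro f g hf hg
    refine Filter.Tendsto.limUnder_eq ?_
    have h1 := (hlim f hf).add (hlim g hg)
    refine h1.congr fun N => ?_
    simp only [A, Finset.sum_add_distrib, add_div]
  · intro f hf h0
    refine ge_of_tendsto' (hlim f hf) fun N => ?_
    exact div_nonneg (Finset.sum_nonneg fun i _ => h0 _) (by positivity)
  · intro c
    refine Filter.Tendsto.limUnder_eq ?_
    refine tendsto_const_nhds.congr fun N => ?_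
    simp only [A, Finset.sum_const, Finset.card_range, nsmul_eq_mul]
    push_cast
    rw [mul_comm, mul_div_assoc, div_self (by positivity), mul_one]
  · rintro f ⟨K, hK⟩
    refine Filter.Tendsto.limUnder_eq ?_
    have h1 : Filter.Tendsto (fun N : ℕ => (f ((N : ℤ) + 1) - f 0) / ((N : ℝ) + 1)) U
        (nhds 0) := by
      refine Filter.Tendsto.mono_left ?_ Nat.hyperfilter_le_atTop
      refine squeeze_zero_norm (a := fun N : ℕ => (2 * K) * (1 / ((N : ℝ) + 1))) (fun N => ?_) ?_
      · rw [Real.norm_eq_abs, abs_div, abs_of_pos (by positivity : (0 : ℝ) < (N : ℝ) + 1),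
          div_eq_mul_one_div]
        refine mul_le_mul_of_nonneg_right ?_ (by positivity)
        refine (abs_sub _ _).trans ?_
        linarith only [hK ((N : ℤ) + 1), hK 0]
      · have := (tendsto_one_div_add_atTop_nhds_zero_nat (𝕜 := ℝ)).const_mul (2 * K)
        rwa [mul_zero] at this
    have h2 := (hlim f ⟨K, hK⟩).add h1
    rw [add_zero] at h2
    refine h2.congr fun N => ?_
    simp only [A]
    rw [← add_div]
    congr 1
    have h3 : ∀ N : ℕ, ∑ i ∈ Finset.range (N + 1), f i + (f ((N : ℤ) + 1) - f 0) =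
        ∑ i ∈ Finset.range (N + 1), f ((i : ℤ) + 1) := by
      intro N
      induction N with
      | zero => simp
      | succ N ih =>
        rw [Finset.sum_range_succ, Finset.sum_range_succ (fun i => f ((i : ℤ) + 1)), ← ih]
        push_cast
        ring
    exact h3 N

theorem Bd.add {f g : ℤ → ℝ} (hf : Bd f) (hg : Bd g) : Bd fun n => f n + g n := by
  obtain ⟨K, hK⟩ := hf
  obtain ⟨L, hL⟩ := hg
  exact ⟨K + L, fun n => (abs_add_le _ _).trans (add_le_add (hK n) (hL n))⟩

theorem Bd.neg {f : ℤ → ℝ} (hf : Bd f) : Bd fun n => -f n := by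
  obtain ⟨K, hK⟩ := hf
  exact ⟨K, fun n => by rw [abs_neg]; exact hK n⟩

theorem Bd.sub {f g : ℤ → ℝ} (hf : Bd f) (hg : Bd g) : Bd fun n => f n - g n := by
  simpa only [sub_eq_add_neg] using hf.add hg.neg

theorem Bd.abs {f : ℤ → ℝ} (hf : Bd f) : Bd fun n => |f n| := by
  obtain ⟨K, hK⟩ := hf
  exact ⟨K, fun n => by rw [abs_abs]; exact hK n⟩

theorem Bd.const (c : ℝ) : Bd fun _ => c := ⟨|c|, fun _ => le_rfl⟩

theorem Bd.sum {ι : Type*} (s : Finset ι) {f : ι → ℤ → ℝ} (hf : ∀ i ∈ s, Bd (f i)) :
    Bd fun n => ∑ i ∈ s, f i n := by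
  classical
  induction s using Finset.induction_on with
  | empty => simpa using Bd.const 0
  | insert i s hi ih =>
    simp only [Finset.sum_insert hi]
    exact (hf i (Finset.mem_insert_self _ _)).add
      (ih fun j hj => hf j (Finset.mem_insert_of_mem hj))

namespace ZMean

variable {m : (ℤ → ℝ) → ℝ} (hm : ZMean m)
include hm

theorem sum {ι : Type*} (s : Finset ι) {f : ι → ℤ → ℝ} (hf : ∀ i ∈ s, Bd (f i)) :
    m (fun n => ∑ i ∈ s, f i n) = ∑ i ∈ s, m (f i) := by
  classical
  induction s using Finset.induction_on with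
  | empty => simpa using hm.const 0
  | insert i s hi ih =>
    simp only [Finset.sum_insert hi]
    rw [hm.add _ _ (hf i (Finset.mem_insert_self _ _))
      (Bd.sum s fun j hj => hf j (Finset.mem_insert_of_mem hj)),
      ih fun j hj => hf j (Finset.mem_insert_of_mem hj)]

theorem neg {f : ℤ → ℝ} (hf : Bd f) : m (fun n => -f n) = -m f := by
  have h := hm.add f (fun n => -f n) hf hf.neg
  simp only [add_neg_cancel] at h
  rw [hm.const] at h
  linarith

theorem sub {f g : ℤ → ℝ} (hf : Bd f) (hg : Bd g) : m (fun n => f n - g n) = m f - m g := by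
  simp only [sub_eq_add_neg]
  rw [hm.add _ _ hf hg.neg, hm.neg hg]

theorem mono {f g : ℤ → ℝ} (hf : Bd f) (hg : Bd g) (h : ∀ n, f n ≤ g n) : m f ≤ m g := by
  have := hm.nonneg _ (hg.sub hf) fun n => sub_nonneg.2 (h n)
  rw [hm.sub hg hf] at this
  linarith

theorem abs_le {f : ℤ → ℝ} (hf : Bd f) : |m f| ≤ m fun n => |f n| := by
  rw [_root_.abs_le]
  constructor
  · rw [neg_le, ← hm.neg hf]
    exact hm.mono hf.neg hf.abs fun n => neg_le_abs _
  · exact hm.mono hf hf.abs fun n => le_abs_self _

theorem shift_neg {f : ℤ → ℝ} (hf : Bd f) : m (fun n => f (n - 1)) = m f := by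
  obtain ⟨K, hK⟩ := hf
  have := hm.shift (fun n => f (n - 1)) ⟨K, fun n => hK _⟩
  simp only [add_sub_cancel_right] at this
  exact this.symm

end ZMean

/-- The slowness of one vector. -/
theorem slow_one {G K : Type*} [Group G] [Fintype K] [DecidableEq K] {n : ℕ} (t : Fin n → G)
    (ht : Function.Injective t) (a : G → G → ℝ) (ha : ∀ p q, a p q ≠ 0 → ∃ u, t u = p⁻¹ * q)
    (g s : G) (ω : G → K) :
    ∑ k, |(∑ u, if ω (g * s * t u) = k then a (g * s) (g * s * t u) else 0) -
      ∑ u, if ω (g * t u) = k then a g (g * t u) else 0| ≤ ∑' h, |a (g * s) h - a g h| := by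
  classical
  set U : Finset G := (Finset.univ.image fun u => g * t u) ∪
    (Finset.univ.image fun u => g * s * t u) with hU
  have hz : ∀ p h, h ∉ Finset.univ.image (fun u => p * t u) → a p h = 0 := by
    intro p h hh
    by_contra hne
    obtain ⟨u, hu⟩ := ha p h hne
    exact hh (Finset.mem_image.2 ⟨u, Finset.mem_univ _, by rw [hu]; group⟩)
  have hsum : ∀ p k, (Finset.univ.image fun u => p * t u) ⊆ U →
      (∑ u, if ω (p * t u) = k then a p (p * t u) else 0) =
        ∑ h ∈ U, if ω h = k then a p h else 0 := by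
    intro p k hp
    rw [← Finset.sum_subset hp]
    · rw [Finset.sum_image]
      intro u _ v _ huv
      exact ht (mul_left_cancel huv)
    · intro h _ hh
      rw [hz p h hh, ite_self]
  have h1 : ∀ k, (∑ u, if ω (g * s * t u) = k then a (g * s) (g * s * t u) else 0) -
      (∑ u, if ω (g * t u) = k then a g (g * t u) else 0) =
        ∑ h ∈ U, if ω h = k then a (g * s) h - a g h else 0 := by
    intro k
    rw [hsum (g * s) k (Finset.subset_union_right), hsum g k (Finset.subset_union_left),
      ← Finset.sum_sub_distrib]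
    refine Finset.sum_congr rfl fun h _ => ?_
    split_ifs <;> simp
  simp only [h1]
  have h2 : ∑' h, |a (g * s) h - a g h| = ∑ h ∈ U, |a (g * s) h - a g h| := by
    refine tsum_eq_sum fun h hh => ?_
    rw [hU, Finset.mem_union, not_or] at hh
    rw [hz g h hh.1, hz (g * s) h hh.2, sub_zero, abs_zero]
  rw [h2]
  calc ∑ k, |∑ h ∈ U, if ω h = k then a (g * s) h - a g h else 0|
      ≤ ∑ k, ∑ h ∈ U, |if ω h = k then a (g * s) h - a g h else 0| :=
        Finset.sum_le_sum fun k _ => Finset.abs_sum_le_sum_abs _ _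
    _ = ∑ h ∈ U, ∑ k, |if ω h = k then a (g * s) h - a g h else 0| := Finset.sum_comm
    _ = ∑ h ∈ U, |a (g * s) h - a g h| := by
        refine Finset.sum_congr rfl fun h _ => ?_
        rw [Finset.sum_eq_single (ω h)]
        · simp
        · intro k _ hk
          rw [if_neg (Ne.symm hk), abs_zero]
        · simp

/-- Block F2, the probability vectors. -/
theorem exists_q {G : Type*} [Group G] (hA : PropertyA G) (S : Finset G) {ε : ℝ} (hε : 0 < ε) :
    ∃ (n : ℕ) (t : Fin n → G), 0 < n ∧ Function.Injective t ∧ ∀ x : G,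
      ∃ q : G → G → Fin n → ℝ, (∀ r p u, 0 ≤ q r p u) ∧ (∀ r p, ∑ u, q r p u = 1) ∧
        (∀ c, c * x = x * c → ∀ r p u, q (c * r) (c * p) u = q r p u) ∧
        (∀ r p u, q (x * r) p u = q r p u) ∧ (∀ r p u, q r (x * p) u = q r p u) ∧
        ∀ s ∈ S, ∀ (r p : G) (K : Type) (_ : Fintype K) (_ : DecidableEq K) (ω : G → K),
          ∑ k, |(∑ u, if ω (p * s * t u) = k then q r (p * s) u else 0) -
            ∑ u, if ω (p * t u) = k then q r p u else 0| ≤ ε := by
  classical
  obtain ⟨E, a, a0, aE, a1, aS⟩ := hA S ε hε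
  obtain ⟨m, hm⟩ := exists_zmean
  set n := E.card with hn
  set t : Fin n → G := fun i => (E.equivFin.symm i : G) with ht
  have htE : ∀ g ∈ E, ∃ u, t u = g := fun g hg => ⟨E.equivFin ⟨g, hg⟩, by simp [ht]⟩
  have htm : ∀ u, t u ∈ E := fun u => (E.equivFin.symm u).2
  have htinj : Function.Injective t := fun u v h =>
    E.equivFin.symm.injective (Subtype.ext h)
  have hsumE : ∀ f : G → ℝ, ∑ u, f (t u) = ∑ g ∈ E, f g := by
    intro f
    rw [← Finset.sum_coe_sort E f]
    exact (E.equivFin.symm.sum_comp fun g : E => f g)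
  have ha1 : ∀ g, ∑ u, a g (g * t u) = 1 := fun g => by
    rw [hsumE fun h => a g (g * h)]; exact a1 g
  have hle : ∀ g u, a g (g * t u) ≤ 1 := by
    intro g u
    rw [← ha1 g]
    exact Finset.single_le_sum (f := fun u => a g (g * t u)) (fun v _ => a0 _ _)
      (Finset.mem_univ u)
  have hn0 : 0 < n := by
    rw [hn, Finset.card_pos]
    by_contra hE
    rw [Finset.not_nonempty_iff_eq_empty] at hE
    have := a1 1
    rw [hE] at this
    simp at this
  refine ⟨n, t, hn0, htinj, fun x => ?_⟩
  -- the orbits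
  let P : G → G → ℤ → G := fun r p k => r⁻¹ * x ^ (-k) * p
  have hB : ∀ r p u, Bd fun k => a (P r p k) (P r p k * t u) := by
    intro r p u
    refine ⟨1, fun k => ?_⟩
    rw [abs_of_nonneg (a0 _ _)]
    exact hle _ _
  refine ⟨fun r p u => m fun k => a (P r p k) (P r p k * t u), fun r p u => ?_, fun r p => ?_,
    fun c hc r p u => ?_, fun r p u => ?_, fun r p u => ?_, ?_⟩
  · exact hm.nonneg _ (hB r p u) fun k => a0 _ _
  · rw [← hm.sum _ fun u _ => hB r p u]
    simp only [ha1]
    exact hm.const 1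
  · have : P (c * r) (c * p) = P r p := by
      funext k
      have hc' : Commute c (x ^ (-k)) := (show Commute c x from hc).zpow_right (-k)
      simp only [P, mul_inv_rev]
      rw [mul_assoc (r⁻¹), mul_assoc, mul_assoc, ← mul_assoc (x ^ (-k)) c p, ← hc'.eq]
      group
    beta_reduce
    rw [this]
  · have : P (x * r) p = fun k => P r p (k + 1) := by
      funext k
      simp only [P, mul_inv_rev]
      group
    beta_reduce
    rw [this]
    exact hm.shift (fun k => a (P r p k) (P r p k * t u)) (hB r p u)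
  · have : P r (x * p) = fun k => P r p (k - 1) := by
      funext k
      simp only [P]
      group
    beta_reduce
    rw [this]
    exact hm.shift_neg (f := fun k => a (P r p k) (P r p k * t u)) (hB r p u)
  · intro s hs r p K _ _ ω
    have hPs : ∀ k, P r (p * s) k = P r p k * s := fun k => by simp only [P]; group
    -- the functions inside the mean
    let F : K → ℤ → ℝ := fun κ k =>
      (∑ u, if ω (p * s * t u) = κ then a (P r p k * s) (P r p k * s * t u) else 0) -
        ∑ u, if ω (p * t u) = κ then a (P r p k) (P r p k * t u) else 0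
    have hB1 : ∀ κ u, Bd fun k =>
        if ω (p * s * t u) = κ then a (P r p k * s) (P r p k * s * t u) else 0 := by
      intro κ u
      split_ifs
      · have := hB r (p * s) u
        simpa only [hPs] using this
      · exact Bd.const 0
    have hB2 : ∀ κ u, Bd fun k =>
        if ω (p * t u) = κ then a (P r p k) (P r p k * t u) else 0 := by
      intro κ u
      split_ifs
      · exact hB r p u
      · exact Bd.const 0
    have hF : ∀ κ, Bd (F κ) := fun κ =>
      (Bd.sum _ fun u _ => hB1 κ u).sub (Bd.sum _ fun u _ => hB2 κ u)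
    have hq : ∀ κ, (∑ u, if ω (p * s * t u) = κ then
          (m fun k => a (P r (p * s) k) (P r (p * s) k * t u)) else 0) -
        (∑ u, if ω (p * t u) = κ then (m fun k => a (P r p k) (P r p k * t u)) else 0) =
          m (F κ) := by
      intro κ
      rw [hm.sub (Bd.sum _ fun u _ => hB1 κ u) (Bd.sum _ fun u _ => hB2 κ u),
        hm.sum _ fun u _ => hB1 κ u, hm.sum _ fun u _ => hB2 κ u]
      congr 1
      · refine Finset.sum_congr rfl fun u _ => ?_
        split_ifs
        · simp only [hPs]
        · exact (hm.const 0).symm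
      · refine Finset.sum_congr rfl fun u _ => ?_
        split_ifs
        · rfl
        · exact (hm.const 0).symm
    beta_reduce
    simp only [hq]
    calc ∑ κ, |m (F κ)| ≤ ∑ κ, m (fun k => |F κ k|) :=
          Finset.sum_le_sum fun κ _ => hm.abs_le (hF κ)
      _ = m fun k => ∑ κ, |F κ k| := (hm.sum _ fun κ _ => (hF κ).abs).symm
      _ ≤ m fun _ => ε := by
          refine hm.mono (Bd.sum _ fun κ _ => (hF κ).abs) (Bd.const ε) fun k => ?_
          have h1 := slow_one t htinj a (fun p q hpq => htE _ (aE p q hpq)) (P r p k) s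
            (fun h => ω (p * (P r p k)⁻¹ * h))
          have e1 : ∀ u, p * (P r p k)⁻¹ * (P r p k * s * t u) = p * s * t u := fun u => by group
          have e2 : ∀ u, p * (P r p k)⁻¹ * (P r p k * t u) = p * t u := fun u => by group
          simp only [e1, e2] at h1
          exact h1.trans (aS s hs _)
      _ = ε := hm.const ε

end Vale.Agent.P184.H191
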