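import Vale.Agent.P184.Ex.Lab

/-! P184, block LAB (helper428), part 5: the invariant functional for groups of any cardinality. -/

open Finset MeasureTheory

namespace Vale.Agent.P184.H428

/-- continuous functions on a product of finite discrete spaces are measurable for the product
sigma algebra -/
theorem measurable_of_continuous_pi {ι K : Type*} [Finite K] [TopologicalSpace K]
    [DiscreteTopology K] [MeasurableSpace K] [DiscreteMeasurableSpace K] (f : C(ι → K, ℂ)) :
    Measurable f := by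
  classical
  let S : StarSubalgebra ℂ C(ι → K, ℂ) :=
    { carrier := {f | Measurable f}
      mul_mem' := fun {a b} ha hb => by
        change Measurable fun ω => a ω * b ω
        exact ha.mul hb
      add_mem' := fun {a b} ha hb => by
        change Measurable fun ω => a ω + b ω
        exact ha.add hb
      algebraMap_mem' := fun r => by
        change Measurable fun _ : ι → K => (algebraMap ℂ C(ι → K, ℂ) r) _
        simp
      star_mem' := fun {a} ha => by
        change Measurable fun ω => (starRingEnd ℂ) (a ω)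
        exact Complex.continuous_conj.measurable.comp ha }
  have hsep : S.SeparatesPoints := by
    intro ω ω' hne
    obtain ⟨i, hi⟩ := Function.ne_iff.1 hne
    let g : K → ℂ := fun k => if k = ω i then 1 else 0
    refine ⟨fun w => g (w i), ⟨⟨fun w => g (w i),
      (continuous_of_discreteTopology (f := g)).comp (continuous_apply i)⟩, ?_, rfl⟩, ?_⟩
    · change Measurable fun w : ι → K => g (w i)
      exact (Measurable.of_discrete (f := g)).comp (measurable_pi_apply i)
    · have h1 : ω' i ≠ ω i := fun h => hi h.symm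
      simp [g, h1]
  have htop := ContinuousMap.starSubalgebra_topologicalClosure_eq_top_of_separatesPoints S hsep
  have hf : f ∈ S.topologicalClosure := by rw [htop]; trivial
  have hf' : f ∈ closure (S : Set C(ι → K, ℂ)) := hf
  obtain ⟨u, hu, hlim⟩ := mem_closure_iff_seq_limit.1 hf'
  refine measurable_of_tendsto_metrizable (f := fun n => (u n : (ι → K) → ℂ)) (fun n => hu n) ?_
  rw [tendsto_pi_nhds]
  intro ω
  exact ((continuous_eval_const (F := C(ι → K, ℂ)) ω).tendsto f).comp hlim

section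

variable {G : Type*} [Group G] (x : G) (R : ℕ) [NeZero R] (F : Finset G)

/-- almost surely two orbits at distance `F` get different colours -/
theorem lw_ae_one (h s : G) (hs : s ∈ F) (hne : ∀ i : ℤ, h * s ≠ x ^ i * h) :
    ∀ᵐ u ∂(Measure.infinitePi fun _ : Orb x => lab1 R),
      (lw x R F u h).2 ≠ (lw x R F u (h * s)).2 := by
  have hne' : orb x (h * s) ≠ orb x h := by
    intro he
    obtain ⟨i, hi⟩ := (orb_eq_iff x).1 he.symm
    exact hne i hi
  have hmem : orb x (h * s) ∈ nb x F (orb x h) := by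
    rw [mem_nb]
    exact ⟨⟨s, Or.inl hs, rfl⟩, hne'⟩
  have h1 := ae_exists_not_asc (V := Orb x) (lab1 R) Prod.fst measurable_fst (nb x F) (2 * F.card)
    (nb_card x F) (orb x h)
  have h2 := ae_exists_not_asc (V := Orb x) (lab1 R) Prod.fst measurable_fst (nb x F) (2 * F.card)
    (nb_card x F) (orb x (h * s))
  have h3 := ae_ne (V := Orb x) (lab1 R) Prod.fst measurable_fst
    (by rw [lab1_fst]; infer_instance) (orb x h) (orb x (h * s)) hne'.symm
  filter_upwards [h1, h2, h3] with u hu1 hu2 hu3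
  exact glim_ne (nb x F) (2 * F.card) (fun v => (u v).1) (nb_card x F) (nb_symm x F) hu1
    hu2 hmem hu3

theorem measurableSet_bad (h s : G) :
    MeasurableSet {ω : G → Kl R (2 * F.card) | (ω h).2 ≠ (ω (h * s)).2} := by
  have : {ω : G → Kl R (2 * F.card) | (ω h).2 ≠ (ω (h * s)).2} =
      (fun ω : G → Kl R (2 * F.card) => (ω h, ω (h * s))) ⁻¹' {p | p.1.2 ≠ p.2.2} := rfl
  rw [this]
  exact ((measurable_pi_apply _).prodMk (measurable_pi_apply _)) MeasurableSet.of_discrete

theorem law_one (h s : G) (hs : s ∈ F) (hne : ∀ i : ℤ, h * s ≠ x ^ i * h) :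
    ∀ᵐ ω ∂(law x R F), (ω h).2 ≠ (ω (h * s)).2 := by
  unfold law
  rw [ae_map_iff (lw_measurable x R F).aemeasurable (measurableSet_bad R F h s)]
  exact lw_ae_one x R F h s hs hne

theorem law_two (hR : ∀ i : ℤ, x ^ i = 1 → (R : ℤ) ∣ i) (h : G) :
    ∀ᵐ ω ∂(law x R F), ω (x * h) = ((ω h).1 + 1, (ω h).2) := by
  have hm : MeasurableSet {ω : G → Kl R (2 * F.card) | ω (x * h) = ((ω h).1 + 1, (ω h).2)} := by
    have : {ω : G → Kl R (2 * F.card) | ω (x * h) = ((ω h).1 + 1, (ω h).2)} =
      (fun ω : G → Kl R (2 * F.card) => (ω (x * h), ω h)) ⁻¹' {p | p.1 = (p.2.1 + 1, p.2.2)} := rfl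
    rw [this]
    exact ((measurable_pi_apply _).prodMk (measurable_pi_apply _)) MeasurableSet.of_discrete
  unfold law
  rw [ae_map_iff (lw_measurable x R F).aemeasurable hm]
  exact Filter.Eventually.of_forall fun u => lw_first x R F hR u h

/-- the indices of the closed conditions defining `OmSet` -/
abbrev Cond := G ⊕ {p : G × G // p.2 ∈ F ∧ ∀ i : ℤ, p.1 * p.2 ≠ x ^ i * p.1}

/-- the closed conditions defining `OmSet` -/
def cond : Cond x F → Set (G → Kl R (2 * F.card))
  | .inl h => {ω | ω (x * h) = ((ω h).1 + 1, (ω h).2)}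
  | .inr p => {ω | (ω p.1.1).2 ≠ (ω (p.1.1 * p.1.2)).2}

theorem isClosed_cond (i : Cond x F) : IsClosed (cond x R F i) := by
  rcases i with h | p
  · refine isClosed_eq (continuous_apply _) ?_
    exact (continuous_of_discreteTopology (f := fun k : Kl R (2 * F.card) => (k.1 + 1, k.2))).comp
      (continuous_apply h)
  · have : cond x R F (.inr p) =
        (fun ω : G → Kl R (2 * F.card) => (ω p.1.1, ω (p.1.1 * p.1.2))) ⁻¹' {p | p.1.2 ≠ p.2.2} := rfl
    rw [this]
    exact (isClosed_discrete _).preimage ((continuous_apply _).prodMk (continuous_apply _))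

omit [NeZero R] in
theorem iInter_cond : ⋂ i, cond x R F i = OmSet x R F := by
  ext ω
  simp only [Set.mem_iInter]
  constructor
  · intro h
    exact ⟨fun g => h (.inl g), fun g s hs hne => h (.inr ⟨(g, s), hs, hne⟩)⟩
  · intro h i
    rcases i with g | ⟨⟨g, s⟩, hs, hne⟩
    · exact h.1 g
    · exact h.2 g s hs hne

theorem cond_ae (hR : ∀ i : ℤ, x ^ i = 1 → (R : ℤ) ∣ i) (i : Cond x F) :
    ∀ᵐ ω ∂(law x R F), ω ∈ cond x R F i := by
  rcases i with h | ⟨⟨g, s⟩, hs, hne⟩
  · exact law_two x R F hR h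
  · exact law_one x R F g s hs hne

/-- a continuous function bounded by `c` on `OmSet` is almost surely at most `c + ε` -/
theorem ae_lt (hR : ∀ i : ℤ, x ^ i = 1 → (R : ℤ) ∣ i) (f : C(G → Kl R (2 * F.card), ℂ)) (c : ℝ)
    (hf : ∀ ω ∈ OmSet x R F, ‖f ω‖ < c) : ∀ᵐ ω ∂(law x R F), ‖f ω‖ < c := by
  classical
  have : Finite (ZMod R) := inferInstance
  have hK : IsCompact {ω : G → Kl R (2 * F.card) | c ≤ ‖f ω‖} :=
    (isClosed_le continuous_const (f.continuous.norm)).isCompact
  have hempty : {ω : G → Kl R (2 * F.card) | c ≤ ‖f ω‖} ∩ ⋂ i, cond x R F i = ∅ := by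
    rw [iInter_cond]
    ext ω
    simp only [Set.mem_inter_iff, Set.mem_ofPred_eq, Set.mem_empty_iff_false, iff_false, not_and]
    intro h1 h2
    exact absurd (hf ω h2) (not_lt.2 h1)
  obtain ⟨t, ht⟩ := hK.elim_finite_subfamily_closed (cond x R F)
    (isClosed_cond x R F) hempty
  have h1 : ∀ᵐ ω ∂(law x R F), ∀ i ∈ t, ω ∈ cond x R F i := by
    rw [Filter.eventually_all_finset]
    exact fun i _ => cond_ae x R F hR i
  filter_upwards [h1] with ω hω
  by_contra hcon
  rw [not_lt] at hcon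
  have : ω ∈ {ω : G → Kl R (2 * F.card) | c ≤ ‖f ω‖} ∩ ⋂ i ∈ t, cond x R F i :=
    ⟨hcon, by simpa using hω⟩
  rw [ht] at this
  exact this

theorem norm_integral_law_le (hR : ∀ i : ℤ, x ^ i = 1 → (R : ℤ) ∣ i)
    (f : C(G → Kl R (2 * F.card), ℂ)) (c : ℝ)
    (hf : ∀ ω ∈ OmSet x R F, ‖f ω‖ ≤ c) : ‖∫ ω, f ω ∂(law x R F)‖ ≤ c := by
  refine le_of_forall_pos_le_add fun ε hε => ?_
  have h1 := ae_lt x R F hR f (c + ε) fun ω hω => (hf ω hω).trans_lt (by linarith)
  have h2 := norm_integral_le_of_norm_le_const (μ := law x R F) (f := f) (C := c + ε)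
    (h1.mono fun _ h => h.le)
  simpa using h2

theorem integrable_law (f : C(G → Kl R (2 * F.card), ℂ)) : Integrable f (law x R F) := by
  have : Finite (ZMod R) := inferInstance
  refine Integrable.of_bound (measurable_of_continuous_pi f).aestronglyMeasurable ‖f‖ ?_
  exact Filter.Eventually.of_forall fun ω => f.norm_coe_le_norm ω

theorem exists_ext (f : C(Om x R F, ℂ)) :
    ∃ g : C(G → Kl R (2 * F.card), ℂ), ∀ ω : Om x R F, g ω.1 = f ω := by
  have : Finite (ZMod R) := inferInstance
  obtain ⟨g, hg⟩ := ContinuousMap.exists_restrict_eq (isClosed_OmSet x R F) f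
  exact ⟨g, fun ω => by rw [← hg]; rfl⟩

/-- **Block LAB.** There is an invariant state on the continuous functions on the compact space of
all `x`-equivariant proper labellings. -/
theorem exists_functional' (hR : ∀ i : ℤ, x ^ i = 1 → (R : ℤ) ∣ i) :
    ∃ φ : C(Om x R F, ℂ) →L[ℂ] ℂ, φ 1 = 1 ∧ (∀ f, ‖φ f‖ ≤ ‖f‖) ∧
      ∀ (c : G) (hc : c * x = x * c) (f : C(Om x R F, ℂ)), φ (f.comp (actO x R F c hc)) = φ f := by
  choose ex hex using exists_ext x R F
  have key (f g : C(G → Kl R (2 * F.card), ℂ)) (hfg : ∀ ω ∈ OmSet x R F, f ω = g ω) :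
      ∫ ω, f ω ∂(law x R F) = ∫ ω, g ω ∂(law x R F) := by
    have h1 := norm_integral_law_le x R F hR (f - g) 0 fun ω hω => by
      rw [ContinuousMap.sub_apply, hfg ω hω, sub_self, norm_zero]
    have h2 : ∫ ω, (f - g) ω ∂(law x R F) = ∫ ω, f ω ∂(law x R F) - ∫ ω, g ω ∂(law x R F) :=
      integral_sub (integrable_law x R F f) (integrable_law x R F g)
    rw [h2] at h1
    exact sub_eq_zero.1 (norm_le_zero_iff.1 h1)
  have hbd (f : C(Om x R F, ℂ)) : ‖∫ ω, ex f ω ∂(law x R F)‖ ≤ ‖f‖ :=
    norm_integral_law_le x R F hR (ex f) ‖f‖ fun ω hω => by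
      rw [hex f ⟨ω, hω⟩]; exact f.norm_coe_le_norm _
  let φ : C(Om x R F, ℂ) →ₗ[ℂ] ℂ :=
    { toFun := fun f => ∫ ω, ex f ω ∂(law x R F)
      map_add' := fun f g => by
        rw [key (ex (f + g)) (ex f + ex g) fun ω hω => by
          rw [ContinuousMap.add_apply, hex _ ⟨ω, hω⟩, hex _ ⟨ω, hω⟩, hex _ ⟨ω, hω⟩]; rfl]
        exact integral_add (integrable_law x R F _) (integrable_law x R F _)
      map_smul' := fun a f => by
        rw [key (ex (a • f)) (a • ex f) fun ω hω => by
          rw [ContinuousMap.smul_apply, hex _ ⟨ω, hω⟩, hex _ ⟨ω, hω⟩]; rfl]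
        exact integral_smul a _ }
  refine ⟨φ.mkContinuous 1 fun f => by rw [one_mul]; exact hbd f, ?_, hbd, ?_⟩
  · change ∫ ω, ex 1 ω ∂(law x R F) = 1
    rw [key (ex 1) 1 fun ω hω => by rw [hex _ ⟨ω, hω⟩]; rfl]
    simp
  · intro c hc f
    change ∫ ω, ex (f.comp (actO x R F c hc)) ω ∂(law x R F) = ∫ ω, ex f ω ∂(law x R F)
    rw [key (ex (f.comp (actO x R F c hc))) ((ex f).comp ⟨actF R F c, actF_continuous R F c⟩)
      fun ω hω => by
        rw [hex _ ⟨ω, hω⟩]
        change f (actO x R F c hc ⟨ω, hω⟩) = ex f (actF R F c ω)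
        exact (hex f (actO x R F c hc ⟨ω, hω⟩)).symm]
    change ∫ ω, ex f (actF R F c ω) ∂(law x R F) = ∫ ω, ex f ω ∂(law x R F)
    have : Finite (ZMod R) := inferInstance
    rw [← integral_map (f := fun ω => ex f ω) (actF_measurable R F c).aemeasurable
      (measurable_of_continuous_pi (ex f)).aestronglyMeasurable, law_act x R F hR c hc]

end

end Vale.Agent.P184.H428
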