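import Vale.Agent.P184.Ex.F0
import Vale.Agent.P184.Ex.Lab2
import Vale.Agent.P184.Ex.Fq

/-!
# Block F2: fields on exact groups
-/

namespace Vale.Agent.P184.H191

open Vale.Agent.P184.Un Vale.Agent.P184.H57 Vale.Agent.P184.H428

universe u

section

variable {G : Type u} [Group G] {x : G} {R : ℕ} {F : Finset G}

theorem om_pow {ω : G → Kl R (2 * F.card)} (hω : ω ∈ OmSet x R F) (n : ℕ) (h : G) :
    ω (x ^ n * h) = ((ω h).1 + (n : ZMod R), (ω h).2) := by
  induction n with
  | zero => simp
  | succ n ih =>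
    rw [pow_succ', mul_assoc, hω.1, ih]
    ext
    · simp only [Nat.cast_add, Nat.cast_one]; ring
    · rfl

theorem om_zpow {ω : G → Kl R (2 * F.card)} (hω : ω ∈ OmSet x R F) (i : ℤ) (h : G) :
    ω (x ^ i * h) = ((ω h).1 + (i : ZMod R), (ω h).2) := by
  obtain ⟨n, rfl | rfl⟩ := i.eq_nat_or_neg
  · simpa using om_pow hω n h
  · have := om_pow hω n (x ^ (-(n : ℤ)) * h)
    rw [← zpow_natCast x n, ← mul_assoc, ← zpow_add, add_neg_cancel, zpow_zero, one_mul] at this
    rw [this]
    ext
    · simp
    · rfl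

/-- The action, extended by the identity. -/
noncomputable def actT (x : G) (R : ℕ) (F : Finset G) (c : G) : C(Om x R F, Om x R F) :=
  open Classical in if h : c * x = x * c then actO x R F c h else ContinuousMap.id _

theorem actT_apply {c : G} (hc : c * x = x * c) (ω : Om x R F) (h : G) :
    (actT x R F c ω).1 h = ω.1 (c⁻¹ * h) := by
  unfold actT
  rw [dif_pos hc]
  rfl

/-- The colour of `p * g`. -/
def colL (x : G) (R : ℕ) (F : Finset G) (h : G) :
    LocallyConstant (Om x R F) (ZMod R × Fin (2 * F.card + 1)) :=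
  ⟨fun ω => ω.1 h, by
    rw [IsLocallyConstant.iff_continuous]
    exact (continuous_apply h).comp continuous_subtype_val⟩

theorem card_fib {R : ℕ} [NeZero R] (P : ZMod R → Prop) (h : ∀ j, P j → ¬ P (j + 1)) :
    2 * Nat.card {j : ZMod R // P j} ≤ R := by
  classical
  rw [Nat.card_eq_fintype_card, Fintype.card_subtype]
  set J := Finset.univ.filter P with hJ
  have h1 : (J.image (· + 1)).card = J.card :=
    Finset.card_image_of_injective _ (add_left_injective 1)
  have h2 : Disjoint J (J.image (· + 1)) := by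
    rw [Finset.disjoint_left]
    intro j hj hj'
    rw [Finset.mem_image] at hj'
    obtain ⟨i, hi, rfl⟩ := hj'
    exact h i (Finset.mem_filter.1 hi).2 (Finset.mem_filter.1 hj).2
  have h3 : (J ∪ J.image (· + 1)).card ≤ Fintype.card (ZMod R) := Finset.card_le_univ _
  rw [Finset.card_union_of_disjoint h2, h1, ZMod.card] at h3
  omega

end

/-- Fields from labels. -/
theorem nonempty_FData {G : Type u} [Group G] (x : G) (S : Finset G) {ε : ℝ} (n : ℕ)
    (t : Fin n → G) (q : G → G → Fin n → ℝ) (q0 : ∀ r p u, 0 ≤ q r p u)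
    (q1 : ∀ r p, ∑ u, q r p u = 1)
    (qH : ∀ c, c * x = x * c → ∀ r p u, q (c * r) (c * p) u = q r p u)
    (qx : ∀ r p u, q (x * r) p u = q r p u) (qx' : ∀ r p u, q r (x * p) u = q r p u)
    (qs : ∀ s ∈ S, ∀ (r p : G) (K : Type) (_ : Fintype K) (_ : DecidableEq K) (ω : G → K),
      ∑ k, |(∑ u, if ω (p * s * t u) = k then q r (p * s) u else 0) -
        ∑ u, if ω (p * t u) = k then q r p u else 0| ≤ ε)
    (R : ℕ) [NeZero R] (F : Finset G) (hR : ∀ i : ℤ, x ^ i = 1 → (R : ℤ) ∣ i)
    (hfib : ∀ ω ∈ OmSet x R F, ∀ p c,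
      2 * Nat.card {j : ZMod R // ∃ u, ω (p * t u) = (j, c)} ≤ R) : Nonempty (FData G x S ε) := by
  classical
  obtain ⟨φ, φ1, _, φc⟩ := exists_functional' x R F hR
  have hne : Nonempty (Om x R F) := by
    by_contra h
    rw [not_nonempty_iff] at h
    have : (1 : C(Om x R F, ℂ)) = 0 := by
      ext ω
      exact h.elim ω
    rw [this, map_zero] at φ1
    exact zero_ne_one φ1
  refine ⟨{
    Ω := Om x R F
    tΩ := inferInstance
    cΩ := inferInstance
    nΩ := hne
    act := actT x R F
    act_inv := ?_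
    φ := φ
    φ_one := φ1
    φ_inv := ?_
    m := R
    hm := inferInstance
    C := Fin (2 * F.card + 1)
    fC := inferInstance
    E := Fin n
    fE := inferInstance
    q := q
    q_nonneg := q0
    q_sum := q1
    q_H := qH
    q_x := qx
    q_x' := qx'
    col := fun p u => colL x R F (p * t u)
    col_act := ?_
    col_x := ?_
    fib := ?_
    slow := ?_ }⟩
  · intro c hc ω
    apply Subtype.ext
    funext h
    rw [actT_apply hc, actT_apply (inv_comm x hc), inv_inv, mul_inv_cancel_left]
  · intro c hc f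
    unfold actT
    rw [dif_pos hc]
    exact φc c hc f
  · intro c hc p u ω
    change (actT x R F c ω).1 (c * p * t u) = ω.1 (p * t u)
    rw [actT_apply hc, mul_assoc, inv_mul_cancel_left]
  · intro p u ω
    change ω.1 (x * p * t u) = ((ω.1 (p * t u)).1 + 1, (ω.1 (p * t u)).2)
    rw [mul_assoc]
    exact ω.2.1 _
  · intro p ω c
    exact hfib ω.1 ω.2 p c
  · intro s hs r p ω
    have h1 := qs s hs r p (ZMod R × Fin (2 * F.card + 1)) inferInstance inferInstance ω.1
    rw [Fintype.sum_prod_type] at h1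
    convert h1 <;> rfl

/-- Block F2: fields on exact groups. -/
theorem exists_FData' {G : Type u} [Group G] (hA : PropertyA G) (S : Finset G) {ε : ℝ}
    (hε : 0 < ε) : ∃ F : Finset G, ∀ x : G, (¬ IsOfFinOrder x ∨ ∀ g ∈ F, ¬ IsConj x g) →
      Nonempty (FData G x S ε) := by
  classical
  obtain ⟨n, t, hn, ht, hq⟩ := exists_q hA S hε
  refine ⟨(Finset.univ : Finset (Fin n × Fin n)).image fun i => t i.2 * (t i.1)⁻¹, fun x hx => ?_⟩
  obtain ⟨q, q0, q1, qH, qx, qx', qs⟩ := hq x
  by_cases hfin : IsOfFinOrder x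
  · have hx' := hx.resolve_left fun h => h hfin
    set F : Finset G := (Finset.univ : Finset (Fin n × Fin n)).image fun i => (t i.1)⁻¹ * t i.2
      with hF
    have h0 : NeZero (orderOf x) := ⟨hfin.orderOf_pos.ne'⟩
    refine nonempty_FData x S n t q q0 q1 qH qx qx' qs (orderOf x) F
      (fun i hi => orderOf_dvd_iff_zpow_eq_one.2 hi) fun ω hω p c => ?_
    refine card_fib _ ?_
    rintro j ⟨u, hu⟩ ⟨v, hv⟩
    have hs : (t u)⁻¹ * t v ∈ F := Finset.mem_image.2 ⟨(u, v), Finset.mem_univ _, rfl⟩
    have h1 : ∃ i : ℤ, p * t u * ((t u)⁻¹ * t v) = x ^ i * (p * t u) := by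
      by_contra hne
      push Not at hne
      have h2 := hω.2 (p * t u) _ hs hne
      rw [mul_assoc, mul_inv_cancel_left, hu, hv] at h2
      exact h2 rfl
    obtain ⟨i, hi⟩ := h1
    rw [mul_assoc, mul_inv_cancel_left] at hi
    have h2 := om_zpow hω i (p * t u)
    rw [← hi, hu, hv] at h2
    have h3 : (1 : ZMod (orderOf x)) = (i : ZMod (orderOf x)) := by
      have := congrArg Prod.fst h2
      simpa using this
    have h4 : x ^ i = x := by
      have h5 : ((1 : ℤ) : ZMod (orderOf x)) = (i : ZMod (orderOf x)) := by simpa using h3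
      rw [ZMod.intCast_eq_intCast_iff_dvd_sub] at h5
      have h6 := orderOf_dvd_iff_zpow_eq_one.1 h5
      rw [zpow_sub, zpow_one, mul_inv_eq_one] at h6
      exact h6
    rw [h4] at hi
    refine hx' (t v * (t u)⁻¹) (Finset.mem_image.2 ⟨(u, v), Finset.mem_univ _, rfl⟩) ?_
    rw [isConj_iff]
    refine ⟨p⁻¹, ?_⟩
    have h5 : x = p * t v * (t u)⁻¹ * p⁻¹ := by
      rw [hi]; group
    rw [h5]; group
  · have h0 : NeZero (2 * n) := ⟨by omega⟩
    refine nonempty_FData x S n t q q0 q1 qH qx qx' qs (2 * n) ∅ (fun i hi => ?_)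
      fun ω hω p c => ?_
    · have : i = 0 := by
        by_contra hi0
        exact hfin (isOfFinOrder_iff_zpow_eq_one.2 ⟨i, hi0, hi⟩)
      rw [this]; exact dvd_zero _
    · have h1 : Nat.card {j : ZMod (2 * n) // ∃ u, ω (p * t u) = (j, c)} ≤ n := by
        let f : {j : ZMod (2 * n) // ∃ u, ω (p * t u) = (j, c)} → Fin n := fun j => j.2.choose
        have hf : Function.Injective f := by
          intro i j hij
          have h1 := i.2.choose_spec
          have h2 := j.2.choose_spec
          have h3 : i.2.choose = j.2.choose := hij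
          rw [h3, h2] at h1
          exact Subtype.ext (congrArg Prod.fst h1).symm
        have := Nat.card_le_card_of_injective f hf
        simpa using this
      omega

end Vale.Agent.P184.H191
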