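import Vale.Agent.P184.Ex.G7
import Vale.Agent.P184.Ex.F2

/-!
# F1, H1, H2: pull back of fields; exact groups
-/

namespace Vale.Agent.P184.H57

open Vale.Agent.P184.Un

universe u

/-- Block F1: pull back along homomorphisms. -/
theorem FData.pull {G L : Type u} [Group G] [Group L] (f : G →* L) {x : G} (S : Finset G)
    {ε : ℝ} [DecidableEq L] (D : FData L (f x) (S.image f) ε) : Nonempty (FData G x S ε) := by
  have hc : ∀ c : G, c * x = x * c → f c * f x = f x * f c := fun c h => by
    rw [← map_mul, h, map_mul]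
  exact ⟨{
    Ω := D.Ω
    tΩ := D.tΩ
    cΩ := D.cΩ
    nΩ := D.nΩ
    act := fun c => D.act (f c)
    act_inv := fun c h ω => by rw [map_inv]; exact D.act_inv _ (hc c h) ω
    φ := D.φ
    φ_one := D.φ_one
    φ_inv := fun c h g => D.φ_inv _ (hc c h) g
    m := D.m
    hm := D.hm
    C := D.C
    fC := D.fC
    E := D.E
    fE := D.fE
    q := fun r p u => D.q (f r) (f p) u
    q_nonneg := fun r p u => D.q_nonneg _ _ _
    q_sum := fun r p => D.q_sum _ _
    q_H := fun c h r p u => by rw [map_mul, map_mul]; exact D.q_H _ (hc c h) _ _ _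
    q_x := fun r p u => by rw [map_mul]; exact D.q_x _ _ _
    q_x' := fun r p u => by rw [map_mul]; exact D.q_x' _ _ _
    col := fun p u => D.col (f p) u
    col_act := fun c h p u ω => by rw [map_mul]; exact D.col_act _ (hc c h) _ _ _
    col_x := fun p u ω => by rw [map_mul]; exact D.col_x _ _ _
    fib := fun p ω c => D.fib _ _ _
    slow := fun s hs r p ω => by
      rw [map_mul]
      exact D.slow (f s) (Finset.mem_image_of_mem f hs) (f r) (f p) ω }⟩

/-- Block H1: vanishing. -/
theorem vanishesAt_of_propertyA {G L : Type u} [Group G] [Group L] (hA : PropertyA L)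
    (f : G →* L) (x : G) (hx : ¬ IsOfFinOrder (f x)) : VanishesAt x := by
  classical
  intro q e he
  obtain ⟨S, ε, hε, h⟩ := tau_eq_zero_of_FData' e he
  obtain ⟨F, hF⟩ := H191.exists_FData' hA (S.image f) hε
  obtain ⟨D⟩ := hF (f x) (Or.inl hx)
  exact h x (FData.pull f S D)

/-- Block H2: the `ℓ¹`-Bass conjecture for exact groups. -/
theorem l1Bass_of_propertyA {G : Type u} [Group G] (hA : PropertyA G) : L1Bass G := by
  classical
  intro q e he
  obtain ⟨S, ε, hε, h⟩ := tau_eq_zero_of_FData' e he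
  obtain ⟨F, hF⟩ := H191.exists_FData' hA S hε
  refine ⟨(F.image ConjClasses.mk).filter fun C => ∀ g ∈ C.carrier, IsOfFinOrder g,
    fun C hC => (Finset.mem_filter.1 hC).2, fun C hC => ?_⟩
  obtain ⟨x, rfl⟩ := ConjClasses.mk_surjective C
  refine h x (hF x ?_)
  by_cases hx : IsOfFinOrder x
  · refine Or.inr fun g hg hxg => hC ?_
    refine Finset.mem_filter.2 ⟨Finset.mem_image.2 ⟨g, hg, ?_⟩, fun y hy => ?_⟩
    · exact (ConjClasses.mk_eq_mk_iff_isConj.2 hxg).symm
    · have h1 : IsConj x y := by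
        rw [ConjClasses.mem_carrier_iff_mk_eq] at hy
        exact (ConjClasses.mk_eq_mk_iff_isConj.1 hy).symm
      obtain ⟨c, rfl⟩ := isConj_iff.1 h1
      exact (MulAut.conj c).toMonoidHom.isOfFinOrder hx
  · exact Or.inl hx

end Vale.Agent.P184.H57
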