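import Vale.Agent.P184.Ex.G0

/-!
# Block G5: invariance of the relative inverses
-/

open scoped Matrix Matrix.Norms.L2Operator Kronecker ENNReal

namespace Vale.Agent.P184.H57

open Vale.Agent.P184.Un Ker

set_option linter.unusedSectionVars false

universe u

namespace H422

/-! ### Transport of kernels -/

section

variable {G R : Type*} [Group G] [NormedRing R] [NormOneClass R]

theorem memLi (F : G → R) (C : ℝ) (h : ∀ p, ‖F p‖ ≤ C) : Memℓp F ∞ :=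
  memℓp_infty ⟨C, by rintro _ ⟨p, rfl⟩; exact h p⟩

theorem norm_mkLi_le (F : G → R) (C : ℝ) (hC : 0 ≤ C) (h : ∀ p, ‖F p‖ ≤ C) :
    ‖(⟨F, memLi F C h⟩ : Li G R)‖ ≤ C :=
  lp.norm_le_of_forall_le hC h

theorem norm_li_le (F : Li G R) (p : G) : ‖F.1 p‖ ≤ ‖F‖ :=
  lp.norm_apply_le_norm ENNReal.top_ne_zero F p

variable (f : R →+* R) (C : ℝ) (hC0 : 0 ≤ C) (hC : ∀ b, ‖f b‖ ≤ C * ‖b‖) (c : G)

include hC0 hC in
theorem tl_bd (F : Li G R) (p : G) : ‖f (F.1 (c⁻¹ * p))‖ ≤ C * ‖F‖ :=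
  (hC _).trans (mul_le_mul_of_nonneg_left (norm_li_le F _) hC0)

/-- The transport of bounded functions. -/
noncomputable def tl (F : Li G R) : Li G R :=
  ⟨fun p => f (F.1 (c⁻¹ * p)), memLi _ (C * ‖F‖) (tl_bd f C hC0 hC c F)⟩

theorem norm_tl_le (F : Li G R) : ‖tl f C hC0 hC c F‖ ≤ C * ‖F‖ :=
  norm_mkLi_le _ _ (mul_nonneg hC0 (norm_nonneg _)) (tl_bd f C hC0 hC c F)

/-- The transport of kernels. -/
noncomputable def Tm (k : Ker G R) : Ker G R :=
  Ker.mk (fun g => tl f C hC0 hC c (k.co g))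
    (Summable.of_nonneg_of_le (fun _ => norm_nonneg _) (fun _ => norm_tl_le f C hC0 hC c _)
      (k.summable.mul_left C))

theorem Tm_e (k : Ker G R) (p p' : G) :
    (Tm f C hC0 hC c k).e p p' = f (k.e (c⁻¹ * p) (c⁻¹ * p')) := by
  unfold Ker.e
  have h : (c⁻¹ * p)⁻¹ * (c⁻¹ * p') = p⁻¹ * p' := by group
  rw [h]
  rfl

theorem Tm_e' (k : Ker G R) (p p' : G) :
    (Tm f C hC0 hC c k).e (c * p) (c * p') = f (k.e p p') := by
  rw [Tm_e, inv_mul_cancel_left, inv_mul_cancel_left]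

theorem Tm_eq (k k' : Ker G R) (h : ∀ p p', k'.e (c * p) (c * p') = f (k.e p p')) :
    Tm f C hC0 hC c k = k' := by
  apply Ker.ext
  intro p p'
  rw [Tm_e, ← h, mul_inv_cancel_left, mul_inv_cancel_left]

variable [CompleteSpace R]

theorem Tm_mul (k k' : Ker G R) :
    Tm f C hC0 hC c (k * k') = Tm f C hC0 hC c k * Tm f C hC0 hC c k' := by
  apply Ker.ext
  intro p p'
  have hf : Continuous f := AddMonoidHomClass.continuous_of_bound f C hC
  have hs : Summable fun h => k.e (c⁻¹ * p) h * k'.e h (c⁻¹ * p') :=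
    (e_mul_summable k k' (c⁻¹ * p) (c⁻¹ * p')).of_norm
  rw [Tm_e, e_mul, e_mul, hs.map_tsum f hf]
  rw [← (Equiv.mulLeft c⁻¹).tsum_eq]
  refine tsum_congr fun h => ?_
  rw [Tm_e, Tm_e, map_mul]
  rfl

theorem Tm_diag (F F' : Li G R) (h : ∀ p, F'.1 (c * p) = f (F.1 p)) :
    Tm f C hC0 hC c (diag F) = diag F' := by
  refine Tm_eq f C hC0 hC c _ _ fun p p' => ?_
  rw [e_diag, e_diag]
  by_cases hp : p = p'
  · rw [if_pos hp, if_pos (by rw [hp]), h]
  · rw [if_neg hp, if_neg (fun h' => hp (mul_left_cancel h')), map_zero]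

end

/-! ### Regions -/

section

variable {G : Type*} [Group G]

theorem mass_map (s : G →₀ ℝ) (c : G) : mass (s.mapDomain (c * ·)) = mass s :=
  Finsupp.sum_mapDomain_index (fun _ => rfl) fun _ _ _ => rfl

theorem map_apply (s : G →₀ ℝ) (c p : G) : s.mapDomain (c * ·) (c * p) = s p :=
  Finsupp.mapDomain_apply (mul_right_injective c) s p

theorem reg_map {κ : ℝ} (s : G →₀ ℝ) (c : G) : Reg κ (s.mapDomain (c * ·)) ↔ Reg κ s := by
  unfold Reg
  rw [mass_map]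
  refine and_congr_left fun _ => ⟨fun h r => ?_, fun h r => ?_⟩
  · rw [← map_apply s c r]
    exact h _
  · have hr := map_apply s c (c⁻¹ * r)
    rw [mul_inv_cancel_left] at hr
    rw [hr]
    exact h _

theorem mass_add' (s s' : G →₀ ℝ) : mass (s + s') = mass s + mass s' :=
  Finsupp.sum_add_index' (fun _ => rfl) (fun _ _ _ => rfl)

theorem mass_single' (r : G) (τ : ℝ) : mass (Finsupp.single r τ) = τ :=
  Finsupp.sum_single_index rfl

theorem reg_add_iff {κ : ℝ} (s : G →₀ ℝ) (r : G) (τ : ℝ) (hs : ∀ g, 0 ≤ s g) (hτ : 0 ≤ τ) :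
    Reg κ (s + Finsupp.single r τ) ↔ |mass s + τ - 1| < κ := by
  unfold Reg
  rw [mass_add', mass_single']
  refine and_iff_right fun g => ?_
  classical
  rw [Finsupp.add_apply, Finsupp.single_apply]
  split_ifs
  · exact add_nonneg (hs _) hτ
  · rw [add_zero]
    exact hs _

end

/-! ### The norm bounds -/

section

variable {G : Type u} [Group G] {x : G} {S : Finset G} {ε : ℝ} (D : FData G x S ε)
  (K : Cliff D.m D.C) (q : ℕ) [NeZero q]

theorem norm_fσ (c : G) (b : RR D K q) : ‖fσ D K q c b‖ ≤ 1 * ‖b‖ := by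
  rw [one_mul]
  refine (ContinuousMap.norm_le _ (norm_nonneg _)).2 fun ω => ?_
  exact b.norm_coe_le_norm (D.act c⁻¹ ω)

/-- The bound of the twist. -/
noncomputable def bθ : ℝ := ‖((1 : Matrix (Fin q) (Fin q) ℂ) ⊗ₖ K.Λᴴ)‖ *
  ‖((1 : Matrix (Fin q) (Fin q) ℂ) ⊗ₖ K.Λ)‖

theorem bθ_nonneg : 0 ≤ bθ D K q := mul_nonneg (norm_nonneg _) (norm_nonneg _)

theorem norm_fθ (b : RR D K q) : ‖fθ D K q b‖ ≤ bθ D K q * ‖b‖ := by
  refine (ContinuousMap.norm_le _ (mul_nonneg (bθ_nonneg D K q) (norm_nonneg _))).2 fun ω => ?_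
  refine (norm_mul_le _ _).trans ?_
  have h1 := norm_mul_le ((1 : Matrix (Fin q) (Fin q) ℂ) ⊗ₖ K.Λᴴ) (b ω)
  have h2 := b.norm_coe_le_norm ω
  calc _ ≤ (‖((1 : Matrix (Fin q) (Fin q) ℂ) ⊗ₖ K.Λᴴ)‖ * ‖b ω‖) *
        ‖((1 : Matrix (Fin q) (Fin q) ℂ) ⊗ₖ K.Λ)‖ := mul_le_mul_of_nonneg_right h1 (norm_nonneg _)
    _ ≤ (‖((1 : Matrix (Fin q) (Fin q) ℂ) ⊗ₖ K.Λᴴ)‖ * ‖b‖) *
        ‖((1 : Matrix (Fin q) (Fin q) ℂ) ⊗ₖ K.Λ)‖ := by gcongr
    _ = bθ D K q * ‖b‖ := by unfold bθ; ring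

theorem Λ_P0 : K.Λ * P0 K = P0 K * K.Λ := by
  unfold P0
  rw [mul_smul_comm, smul_mul_assoc, mul_add, add_mul, mul_one, one_mul, K.Λ_Γ]

theorem Λ_P1 : K.Λ * P1 K = P1 K * K.Λ := by
  unfold P1
  rw [mul_smul_comm, smul_mul_assoc, mul_sub, sub_mul, mul_one, one_mul, K.Λ_Γ]

/-- Transport of the relative inverses. -/
theorem transp (e : Mat G q) (he : IsIdem e) (P : Polynomial ℝ) (κ : ℝ)
    (V : (G →₀ ℝ) → Ker G (RR D K q)) (h0 : ∀ s, ¬ Reg κ s → V s = 0)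
    (h1 : ∀ s, Reg κ s → V s * (fE D K q e he.1 (P1 K) * diag (fW D K q P s) *
      fE D K q e he.1 (P0 K)) = fE D K q e he.1 (P0 K))
    (h2 : ∀ s, Reg κ s → (fE D K q e he.1 (P1 K) * diag (fW D K q P s) *
      fE D K q e he.1 (P0 K)) * V s = fE D K q e he.1 (P1 K))
    (h3 : ∀ s, fE D K q e he.1 (P0 K) * V s = V s)
    (h4 : ∀ s, V s * fE D K q e he.1 (P1 K) = V s)
    (f : RR D K q →+* RR D K q) (C : ℝ) (hC0 : 0 ≤ C) (hC : ∀ b, ‖f b‖ ≤ C * ‖b‖) (c : G)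
    (s s' : G →₀ ℝ) (hr : Reg κ s ↔ Reg κ s')
    (hE0 : ∀ p p', (fE D K q e he.1 (P0 K)).e (c * p) (c * p') =
      f ((fE D K q e he.1 (P0 K)).e p p'))
    (hE1 : ∀ p p', (fE D K q e he.1 (P1 K)).e (c * p) (c * p') =
      f ((fE D K q e he.1 (P1 K)).e p p'))
    (hW : ∀ p, (fW D K q P s').1 (c * p) = f ((fW D K q P s).1 p)) (p p' : G) :
    (V s').e (c * p) (c * p') = f ((V s).e p p') := by
  by_cases hs : Reg κ s
  · have hs' := hr.1 hs
    have e0 := Tm_eq f C hC0 hC c _ _ hE0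
    have e1 := Tm_eq f C hC0 hC c _ _ hE1
    have ew := Tm_diag f C hC0 hC c (fW D K q P s) (fW D K q P s') hW
    have hv : V s' = Tm f C hC0 hC c (V s) := by
      refine inv_unique (h1 s' hs') (h4 s') ?_ ?_
      · have h5 := congrArg (Tm f C hC0 hC c) (h2 s hs)
        rw [Tm_mul, Tm_mul, Tm_mul, e0, e1, ew] at h5
        exact h5
      · have h5 := congrArg (Tm f C hC0 hC c) (h3 s)
        rw [Tm_mul, e0] at h5
        exact h5
    rw [hv, Tm_e']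
  · rw [h0 s hs, h0 s' (fun h => hs (hr.2 h))]
    have h6 : ∀ a b : G, (0 : Ker G (RR D K q)).e a b = 0 := fun a b => by
      have := e_sub (0 : Ker G (RR D K q)) 0 a b
      simpa using this
    rw [h6, h6, map_zero]

/-- Block G5. -/
theorem V_inv (e : Mat G q) (he : IsIdem e) (P : Polynomial ℝ) (κ : ℝ)
    (V : (G →₀ ℝ) → Ker G (RR D K q)) (h0 : ∀ s, ¬ Reg κ s → V s = 0)
    (h1 : ∀ s, Reg κ s → V s * (fE D K q e he.1 (P1 K) * diag (fW D K q P s) *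
      fE D K q e he.1 (P0 K)) = fE D K q e he.1 (P0 K))
    (h2 : ∀ s, Reg κ s → (fE D K q e he.1 (P1 K) * diag (fW D K q P s) *
      fE D K q e he.1 (P0 K)) * V s = fE D K q e he.1 (P1 K))
    (h3 : ∀ s, fE D K q e he.1 (P0 K) * V s = V s)
    (h4 : ∀ s, V s * fE D K q e he.1 (P1 K) = V s) :
    (∀ s r τ, (∀ g, 0 ≤ s g) → 0 ≤ τ →
      V (s + Finsupp.single (x * r) τ) = V (s + Finsupp.single r τ)) ∧
    (∀ c, c * x = x * c → ∀ s p p',
      (V (s.mapDomain (c * ·))).e (c * p) (c * p') = fσ D K q c ((V s).e p p')) ∧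
    ∀ s p p', (V s).e (x * p) (x * p') = fθ D K q ((V s).e p p') := by
  refine ⟨fun s r τ hs hτ => ?_, fun c hc s p p' => ?_, fun s p p' => ?_⟩
  · by_cases hR : |mass s + τ - 1| < κ
    · have ha : Reg κ (s + Finsupp.single (x * r) τ) := (reg_add_iff s _ τ hs hτ).2 hR
      have hb : Reg κ (s + Finsupp.single r τ) := (reg_add_iff s _ τ hs hτ).2 hR
      have hw := fW_shift D K q P s r τ
      refine inv_unique (h1 _ ha) (h4 _) ?_ (h3 _)
      rw [hw]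
      exact h2 _ hb
    · rw [h0 _ (fun h => hR ((reg_add_iff s _ τ hs hτ).1 h)),
        h0 _ (fun h => hR ((reg_add_iff s _ τ hs hτ).1 h))]
  · exact transp D K q e he P κ V h0 h1 h2 h3 h4 (fσ D K q c) 1 zero_le_one (norm_fσ D K q c) c s
      (s.mapDomain (c * ·)) (reg_map s c).symm (fE_H D K q e he.1 _ c) (fE_H D K q e he.1 _ c)
      (fW_H D K q P c hc s) p p'
  · exact transp D K q e he P κ V h0 h1 h2 h3 h4 (fθ D K q) (bθ D K q) (bθ_nonneg D K q)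
      (norm_fθ D K q) x s s Iff.rfl (fE_x D K q e he.1 _ (Λ_P0 D K))
      (fE_x D K q e he.1 _ (Λ_P1 D K)) (fW_x D K q P s) p p'

end

end H422

end Vale.Agent.P184.H57
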