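import Vale.Agent.P184.Ex.G4
import Vale.Agent.P184.Ex.G5a

/-!
# Blocks G4, G5: the statements
-/

open scoped Matrix Matrix.Norms.L2Operator Kronecker ENNReal

namespace Vale.Agent.P184.H57

open Vale.Agent.P184.Un Ker

set_option linter.unusedSectionVars false

universe u

/-- The inverse kernels. -/
theorem exists_V {G : Type u} [Group G] {q : ℕ} [NeZero q] (e : Mat G q) (he : IsIdem e) :
    ∃ (S : Finset G) (ε : ℝ), 0 < ε ∧ ∀ (x : G) (D : FData G x S ε) (K : Cliff D.m D.C),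
      ∃ (P : Polynomial ℝ) (κ : ℝ) (V : (G →₀ ℝ) → Ker G (RR D K q)) (b : G → ℝ),
        0 < κ ∧ κ < 1 ∧ (∀ g, 0 ≤ b g) ∧ Summable b ∧
        (∀ s, ¬ Reg κ s → V s = 0) ∧
        (∀ s, Reg κ s → V s * (fE D K q e he.1 (P1 K) * diag (fW D K q P s) *
          fE D K q e he.1 (P0 K)) = fE D K q e he.1 (P0 K)) ∧
        (∀ s, Reg κ s → (fE D K q e he.1 (P1 K) * diag (fW D K q P s) *
          fE D K q e he.1 (P0 K)) * V s = fE D K q e he.1 (P1 K)) ∧
        (∀ s, fE D K q e he.1 (P0 K) * V s = V s) ∧ (∀ s, V s * fE D K q e he.1 (P1 K) = V s) ∧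
        Maj (fE D K q e he.1 (P0 K)) b ∧ Maj (fE D K q e he.1 (P1 K)) b ∧
        (∀ s, Reg κ s → Maj (fE D K q e he.1 (P1 K) * diag (fW D K q P s) *
          fE D K q e he.1 (P0 K)) b) ∧ ∀ s, Maj (V s) b :=
  H159.exists_V e he

section

variable {G : Type u} [Group G] {x : G} {S : Finset G} {ε : ℝ} (D : FData G x S ε)
  (K : Cliff D.m D.C) (q : ℕ) [NeZero q]

/-- Block G5. -/
theorem V_inv (e : Mat G q) (he : IsIdem e) (P : Polynomial ℝ) (κ : ℝ)
    (V : (G →₀ ℝ) → Ker G (RR D K q)) (h0 : ∀ s, ¬ Reg κ s → V s = 0)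
    (h1 : ∀ s, Reg κ s → V s * (fE D K q e he.1 (P1 K) * diag (fW D K q P s) *
      fE D K q e he.1 (P0 K)) = fE D K q e he.1 (P0 K))
    (h2 : ∀ s, Reg κ s → (fE D K q e he.1 (P1 K) * diag (fW D K q P s) *
      fE D K q e he.1 (P0 K)) * V s = fE D K q e he.1 (P1 K))
    (h3 : ∀ s, fE D K q e he.1 (P0 K) * V s = V s)
    (h4 : ∀ s, V s * fE D K q e he.1 (P1 K) = V s) :
    (∀ s r τ, (∀ g, 0 ≤ s g) → 0 ≤ τ →
      V (s + Finsupp.single (x * r) τ) = V (s + Finsupp.single r τ)) ∧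
    (∀ c, c * x = x * c → ∀ s p p',
      (V (s.mapDomain (c * ·))).e (c * p) (c * p') = fσ D K q c ((V s).e p p')) ∧
    ∀ s p p', (V s).e (x * p) (x * p') = fθ D K q ((V s).e p p') :=
  H422.V_inv D K q e he P κ V h0 h1 h2 h3 h4

end

end Vale.Agent.P184.H57
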