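import Vale.Agent.P184.Ex.G3b

/-!
# Block G6: the idempotents and their traces
-/

open scoped Matrix Matrix.Norms.L2Operator Kronecker ENNReal

namespace Vale.Agent.P184.H57

open Vale.Agent.P184.Un Ker

set_option linter.unusedSectionVars false

universe u

/-- The coefficient matrices of `e`. -/
def cE {G : Type*} {q : ℕ} (e : Mat G q) (g : G) : Matrix (Fin q) (Fin q) ℂ :=
  Matrix.of fun i j => e i j g

section

variable {G : Type u} [Group G]

/-- Products of summable functions. -/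
theorem summable_conv {a b : G → ℂ} (ha : Summable fun g => ‖a g‖) (hb : Summable fun g => ‖b g‖)
    (g : G) : Summable fun h => a h * b (h⁻¹ * g) := by
  have h1 : ∀ g, ‖b g‖ ≤ ∑' g, ‖b g‖ := fun g => hb.le_tsum g fun _ _ => norm_nonneg _
  refine Summable.of_norm_bounded (ha.mul_right (∑' g, ‖b g‖)) fun h => ?_
  rw [norm_mul]
  exact mul_le_mul_of_nonneg_left (h1 _) (norm_nonneg _)

theorem hasSum_cE {q : ℕ} (e : Mat G q) (he : IsIdem e) (p p' : G) :
    HasSum (fun h => cE e (p⁻¹ * h) * cE e (h⁻¹ * p')) (cE e (p⁻¹ * p')) := by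
  refine Pi.hasSum.2 fun i => Pi.hasSum.2 fun j => ?_
  have h1 : HasSum (fun h => ∑ k, e i k h * e k j (h⁻¹ * (p⁻¹ * p'))) (e i j (p⁻¹ * p')) := by
    have h2 : e i j (p⁻¹ * p') = ∑ k, ∑' h, e i k h * e k j (h⁻¹ * (p⁻¹ * p')) := by
      conv_lhs => rw [← he.2]
      rfl
    rw [h2]
    exact hasSum_sum fun k _ => (summable_conv (he.1 i k) (he.1 k j) _).hasSum
  have h3 := (Equiv.mulLeft p⁻¹).hasSum_iff.2 h1
  show HasSum _ (e i j (p⁻¹ * p'))
  convert h3 using 1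
  funext h
  show ((cE e (p⁻¹ * h) * cE e (h⁻¹ * p')) i j) =
    ∑ k, e i k (p⁻¹ * h) * e k j ((p⁻¹ * h)⁻¹ * (p⁻¹ * p'))
  rw [Matrix.mul_apply, mul_inv_rev, mul_assoc h⁻¹, inv_mul_cancel_left]
  rfl

end

section

variable {G : Type u} [Group G] {x : G} {S : Finset G} {ε : ℝ} (D : FData G x S ε)
  (K : Cliff D.m D.C) (q : ℕ) [NeZero q]

/-- Constant functions `A ⊗ X`. -/
noncomputable def kL (X : Matrix K.κ K.κ ℂ) : Matrix (Fin q) (Fin q) ℂ →L[ℂ] RR D K q :=
  LinearMap.toContinuousLinearMap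
    { toFun := fun A => ContinuousMap.const D.Ω (A ⊗ₖ X)
      map_add' := fun A B => by
        ext1 ω
        exact Matrix.add_kronecker A B X
      map_smul' := fun c A => by
        ext1 ω
        exact Matrix.smul_kronecker c A X }

theorem kL_apply (X : Matrix K.κ K.κ ℂ) (A : Matrix (Fin q) (Fin q) ℂ) :
    kL D K q X A = ContinuousMap.const D.Ω (A ⊗ₖ X) := rfl

theorem norm_proj_le {n : Type*} [Fintype n] [DecidableEq n] (A : Matrix n n ℂ)
    (h : Aᴴ * A = A) : ‖A‖ ≤ 1 := by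
  have h1 := CStarRing.norm_star_mul_self (x := A)
  rw [Matrix.star_eq_conjTranspose, h] at h1
  by_contra h2
  push Not at h2
  nlinarith

theorem norm_single_le {n : Type*} [Fintype n] [DecidableEq n] (i j : n) :
    ‖Matrix.single i j (1 : ℂ)‖ ≤ 1 := by
  have h1 := CStarRing.norm_star_mul_self (x := Matrix.single i j (1 : ℂ))
  rw [Matrix.star_eq_conjTranspose, Matrix.conjTranspose_single, Matrix.single_mul_single_same,
    star_one, mul_one] at h1
  have h2 : ‖Matrix.single j j (1 : ℂ)‖ ≤ 1 := norm_proj_le _ (by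
    rw [Matrix.conjTranspose_single, Matrix.single_mul_single_same, star_one, mul_one])
  nlinarith [norm_nonneg (Matrix.single i j (1 : ℂ))]

theorem norm_cE_le (e : Mat G q) (g : G) : ‖cE e g‖ ≤ ∑ i, ∑ j, ‖e i j g‖ := by
  have h : cE e g = ∑ i, ∑ j, e i j g • Matrix.single i j (1 : ℂ) := by
    conv_lhs => rw [Matrix.matrix_eq_sum_single (cE e g)]
    refine Finset.sum_congr rfl fun i _ => Finset.sum_congr rfl fun j _ => ?_
    rw [Matrix.smul_single, smul_eq_mul, mul_one]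
    rfl
  rw [h]
  refine (norm_sum_le _ _).trans (Finset.sum_le_sum fun i _ => (norm_sum_le _ _).trans
    (Finset.sum_le_sum fun j _ => ?_))
  rw [norm_smul]
  exact mul_le_of_le_one_right (norm_nonneg _) (norm_single_le i j)

theorem summable_cE {e : Mat G q} (he : InL1 e) : Summable fun g => ‖cE e g‖ :=
  Summable.of_nonneg_of_le (fun _ => norm_nonneg _) (norm_cE_le q e)
    (summable_sum fun i _ => summable_sum fun j _ => he i j)

theorem summable_fE {e : Mat G q} (he : InL1 e) (X : Matrix K.κ K.κ ℂ) :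
    Summable fun g => ‖(ContinuousMap.const D.Ω (cE e g ⊗ₖ X) : RR D K q)‖ :=
  Summable.of_nonneg_of_le (fun _ => norm_nonneg _) (fun g => (kL D K q X).le_opNorm (cE e g))
    ((summable_cE q he).mul_left _)

/-- The kernel of `e ⊗ X`. -/
noncomputable def fE (e : Mat G q) (he : InL1 e) (X : Matrix K.κ K.κ ℂ) : Ker G (RR D K q) :=
  cst (fun g => ContinuousMap.const D.Ω (cE e g ⊗ₖ X)) (summable_fE D K q he X)

theorem fE_e (e : Mat G q) (he : InL1 e) (X : Matrix K.κ K.κ ℂ) (p p' : G) :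
    (fE D K q e he X).e p p' = ContinuousMap.const D.Ω (cE e (p⁻¹ * p') ⊗ₖ X) := rfl

theorem fE_mul (e : Mat G q) (he : IsIdem e) (X Y : Matrix K.κ K.κ ℂ) :
    fE D K q e he.1 X * fE D K q e he.1 Y = fE D K q e he.1 (X * Y) := by
  ext1 p p'
  rw [e_mul]
  have h := (hasSum_cE e he p p').mapL (kL D K q (X * Y))
  rw [fE_e, ← kL_apply, ← h.tsum_eq]
  refine tsum_congr fun h => ?_
  rw [fE_e, fE_e, kL_apply, Matrix.mul_kronecker_mul]
  rfl

theorem fE_H (e : Mat G q) (he : InL1 e) (X : Matrix K.κ K.κ ℂ) (c p p' : G) :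
    (fE D K q e he X).e (c * p) (c * p') = fσ D K q c ((fE D K q e he X).e p p') := by
  rw [fE_e, fE_e, mul_inv_rev, mul_assoc, inv_mul_cancel_left]
  rfl

theorem fE_x (e : Mat G q) (he : InL1 e) (X : Matrix K.κ K.κ ℂ) (hX : K.Λ * X = X * K.Λ)
    (p p' : G) :
    (fE D K q e he X).e (x * p) (x * p') = fθ D K q ((fE D K q e he X).e p p') := by
  rw [fE_e, fE_e, mul_inv_rev, mul_assoc, inv_mul_cancel_left]
  ext1 ω
  show _ = ((1 : Matrix (Fin q) (Fin q) ℂ) ⊗ₖ K.Λᴴ) * (cE e (p⁻¹ * p') ⊗ₖ X) *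
    ((1 : Matrix (Fin q) (Fin q) ℂ) ⊗ₖ K.Λ)
  rw [← Matrix.mul_kronecker_mul, ← Matrix.mul_kronecker_mul, one_mul, mul_one, mul_assoc, ← hX,
    ← mul_assoc, K.Λ_star, one_mul]
  rfl

/-- Even and odd projections. -/
noncomputable def P0 {m : ℕ} [NeZero m] {C : Type} [Fintype C] (K : Cliff m C) :
    Matrix K.κ K.κ ℂ := (1 / 2 : ℂ) • (1 + K.Γ)

noncomputable def P1 {m : ℕ} [NeZero m] {C : Type} [Fintype C] (K : Cliff m C) :
    Matrix K.κ K.κ ℂ := (1 / 2 : ℂ) • (1 - K.Γ)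

theorem fT_const (A : Matrix (Fin q) (Fin q) ℂ) (X : Matrix K.κ K.κ ℂ) :
    fT D K q (ContinuousMap.const D.Ω (A ⊗ₖ X)) = A.trace * (X * K.Λᴴ).trace := by
  rw [fT_apply]
  have h : (⟨fun ω => ((ContinuousMap.const D.Ω (A ⊗ₖ X) : RR D K q) ω *
      ((1 : Matrix (Fin q) (Fin q) ℂ) ⊗ₖ K.Λᴴ)).trace, by fun_prop⟩ : C(D.Ω, ℂ)) =
      (A.trace * (X * K.Λᴴ).trace) • (1 : C(D.Ω, ℂ)) := by
    ext1 ω
    show ((A ⊗ₖ X) * ((1 : Matrix (Fin q) (Fin q) ℂ) ⊗ₖ K.Λᴴ)).trace = _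
    rw [← Matrix.mul_kronecker_mul, mul_one, Matrix.trace_kronecker]
    simp
  rw [h, map_smul, D.φ_one, smul_eq_mul, mul_one]

/-- Evaluation. -/
theorem fE_trace (e : Mat G q) (he : InL1 e) (ρ : G → G)
    (hρ : ∀ y, IsConj x y → (ρ y)⁻¹ * x * ρ y = y) :
    (∑' y : {y // IsConj x y}, fT D K q ((fE D K q e he (P0 K)).e (ρ y) (x * ρ y))) -
      (∑' y : {y // IsConj x y}, fT D K q ((fE D K q e he (P1 K)).e (ρ y) (x * ρ y))) =
      tau (ConjClasses.mk x) e * (K.Γ * K.Λᴴ).trace := by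
  have h1 : ∀ (X : Matrix K.κ K.κ ℂ) (y : {y // IsConj x y}),
      fT D K q ((fE D K q e he X).e (ρ y) (x * ρ y)) = (cE e y).trace * (X * K.Λᴴ).trace := by
    intro X y
    rw [fE_e, ← mul_assoc, hρ y y.2, fT_const]
  simp_rw [h1]
  rw [tsum_mul_right, tsum_mul_right, ← mul_sub, ← Matrix.trace_sub, ← sub_mul]
  have h2 : P0 K - P1 K = K.Γ := by
    rw [P0, P1, ← smul_sub]
    ext i j
    simp
    ring
  rw [h2]
  congr 1

end

end Vale.Agent.P184.H57
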