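import Vale.Agent.P184.Ex.G3a
import Vale.Agent.P184.Ex.G6

/-!
# Block G: the statements G3, and uniqueness of relative inverses
-/

open scoped Matrix Matrix.Norms.L2Operator Kronecker ENNReal

namespace Vale.Agent.P184.H57

open Vale.Agent.P184.Un Ker

set_option linter.unusedSectionVars false

universe u

section

variable {G : Type u} [Group G] {x : G} {S : Finset G} {ε : ℝ} (D : FData G x S ε)
  (K : Cliff D.m D.C) (q : ℕ) [NeZero q]

theorem fW_H (P : Polynomial ℝ) (c : G) (hc : c * x = x * c) (s : G →₀ ℝ) (p : G) :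
    (fW D K q P (s.mapDomain (c * ·))).1 (c * p) = fσ D K q c ((fW D K q P s).1 p) :=
  fW_H' D K q P c hc (fσ D K q c) (fun _ _ => rfl) s p

theorem fB_H (P : Polynomial ℝ) (c : G) (hc : c * x = x * c) (u : D.E) (s : G →₀ ℝ) (p : G) :
    (fB D K q P u (s.mapDomain (c * ·))).1 (c * p) = fσ D K q c ((fB D K q P u s).1 p) :=
  fB_H' D K q P c hc (fσ D K q c) (fun _ _ => rfl) u s p

theorem fW_x (P : Polynomial ℝ) (s : G →₀ ℝ) (p : G) :
    (fW D K q P s).1 (x * p) = fθ D K q ((fW D K q P s).1 p) :=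
  fW_x' D K q P (fθ D K q) (fun _ _ => rfl) s p

theorem fB_x (P : Polynomial ℝ) (u : D.E) (s : G →₀ ℝ) (p : G) :
    (fB D K q P u s).1 (x * p) = fθ D K q ((fB D K q P u s).1 p) :=
  fB_x' D K q P (fθ D K q) (fun _ _ => rfl) u s p

end

/-- Uniqueness of relative inverses. -/
theorem inv_unique {A : Type*} [Ring A] {e0 e1 u v v' : A} (h1 : v * u = e0) (h2 : v * e1 = v)
    (h3 : u * v' = e1) (h4 : e0 * v' = v') : v = v' := by
  rw [← h2, ← h3, ← mul_assoc, h1, h4]

end Vale.Agent.P184.H57
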