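import Vale.Agent.P184.Ex.G1a

/-!
# Blocks G1, G2: Clifford matrices for the colours, approximation of the square root
-/

open scoped Matrix Matrix.Norms.L2Operator

namespace Vale.Agent.P184.H57

/-- The quadratic form. -/
noncomputable def qf {m : ℕ} [NeZero m] {C : Type} [Fintype C] (f : ZMod m × C → ℝ) : ℝ :=
  ∑ k, f k ^ 2 - (1 / m) * ∑ c, (∑ j, f (j, c)) ^ 2

/-- Clifford data for the colours. -/
structure Cliff (m : ℕ) [NeZero m] (C : Type) [Fintype C] where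
  κ : Type
  fκ : Fintype κ
  dκ : DecidableEq κ
  ch : ZMod m × C → Matrix κ κ ℂ
  Γ : Matrix κ κ ℂ
  Λ : Matrix κ κ ℂ
  ch_star : ∀ k, (ch k)ᴴ = ch k
  ch_sq : ∀ f : ZMod m × C → ℝ,
    (∑ k, (f k : ℂ) • ch k) * (∑ k, (f k : ℂ) • ch k) = ((qf f : ℝ) : ℂ) • (1 : Matrix κ κ ℂ)
  Γ_sq : Γ * Γ = 1
  Γ_star : Γᴴ = Γ
  Γ_ch : ∀ k, Γ * ch k = -(ch k * Γ)
  Λ_star : Λᴴ * Λ = 1
  Λ_star' : Λ * Λᴴ = 1
  Λ_Γ : Λ * Γ = Γ * Λ
  Λ_ch : ∀ j c, Λ * ch (j + 1, c) = ch (j, c) * Λ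
  tr_ne : (Γ * Λᴴ).trace ≠ 0

/-- Block G1a. -/
theorem exists_cliff (m : ℕ) [NeZero m] (C : Type) [Fintype C] : Nonempty (Cliff m C) := by
  classical
  obtain ⟨κ, i1, i2, ch, Γ, Λ, h1, h2, h3, h4, h5, h6, h7, h8, h9, h10, h11⟩ :=
    H806.exists_clifford m C
  have hsum : ∀ f : ZMod m × C → ℝ, ∑ k, (f k : ℂ) • ch (Pi.single k 1) = ch f := by
    intro f
    have e : f = ∑ k, f k • (Pi.single k 1 : ZMod m × C → ℝ) := by
      funext k
      simp [Finset.sum_apply, Pi.single_apply]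
    conv_rhs => rw [e, map_sum]
    refine Finset.sum_congr rfl fun k _ => ?_
    rw [map_smul]
    ext a b
    simp
  refine ⟨{
    κ := κ
    fκ := i1
    dκ := i2
    ch := fun k => ch (Pi.single k 1)
    Γ := Γ
    Λ := Λᴴ
    ch_star := fun k => h2 _
    ch_sq := fun f => by rw [hsum]; exact h1 f
    Γ_sq := h3
    Γ_star := h4
    Γ_ch := fun k => h5 _
    Λ_star := by rw [Matrix.conjTranspose_conjTranspose]; exact h7
    Λ_star' := by rw [Matrix.conjTranspose_conjTranspose]; exact h6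
    Λ_Γ := by
      have := congrArg Matrix.conjTranspose h8
      rw [Matrix.conjTranspose_mul, Matrix.conjTranspose_mul, h4] at this
      exact this.symm
    Λ_ch := fun j c => by
      have e : (fun k : ZMod m × C => (Pi.single (j, c) 1 : ZMod m × C → ℝ) (k.1 - 1, k.2)) =
          Pi.single (j + 1, c) 1 := by
        funext k
        rcases k with ⟨a, b⟩
        simp only [Pi.single_apply, Prod.mk.injEq, sub_eq_iff_eq_add]
      have h12 := h9 (Pi.single (j, c) 1)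
      rw [e] at h12
      have h13 : ch (Pi.single (j + 1, c) 1) = Λ * ch (Pi.single (j, c) 1) * Λᴴ := by
        rw [h12, mul_assoc, h7, mul_one]
      rw [h13, mul_assoc, ← mul_assoc Λᴴ, h6, one_mul]
    tr_ne := by rw [Matrix.conjTranspose_conjTranspose]; exact h10 }⟩

theorem qf_eq {m : ℕ} [NeZero m] {C : Type} [Fintype C] (f : ZMod m × C → ℝ) :
    qf f = ∑ c, (∑ j, f (j, c) ^ 2 - (1 / m) * (∑ j, f (j, c)) ^ 2) := by
  rw [qf, Fintype.sum_prod_type_right, Finset.sum_sub_distrib, Finset.mul_sum]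

theorem qf_nonneg {m : ℕ} [NeZero m] {C : Type} [Fintype C] (f : ZMod m × C → ℝ) : 0 ≤ qf f := by
  rw [qf_eq]
  refine Finset.sum_nonneg fun c _ => ?_
  have hm : (0 : ℝ) < m := by exact_mod_cast Nat.pos_of_ne_zero (NeZero.ne m)
  have h := sq_sum_le_card_mul_sum_sq (s := (Finset.univ : Finset (ZMod m)))
    (f := fun j => f (j, c))
  rw [Finset.card_univ, ZMod.card] at h
  rw [sub_nonneg, one_div, inv_mul_le_iff₀ hm]
  exact h

theorem qf_le {m : ℕ} [NeZero m] {C : Type} [Fintype C] (f : ZMod m × C → ℝ) :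
    qf f ≤ ∑ k, f k ^ 2 := by
  rw [qf]
  have h : 0 ≤ (1 / m : ℝ) * ∑ c, (∑ j, f (j, c)) ^ 2 :=
    mul_nonneg (by positivity) (Finset.sum_nonneg fun c _ => sq_nonneg _)
  linarith

/-- Block G1b. -/
theorem qf_ge {m : ℕ} [NeZero m] {C : Type} [Fintype C] (f : ZMod m × C → ℝ)
    (h : ∀ c, 2 * Nat.card {j : ZMod m // f (j, c) ≠ 0} ≤ m) :
    (∑ k, f k ^ 2) / 2 ≤ qf f := by
  classical
  rw [qf_eq, Fintype.sum_prod_type_right, Finset.sum_div]
  refine Finset.sum_le_sum fun c _ => ?_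
  have hm : (0 : ℝ) < m := by exact_mod_cast Nat.pos_of_ne_zero (NeZero.ne m)
  have h1 := h c
  rw [Nat.card_eq_fintype_card, Fintype.card_subtype] at h1
  set s := Finset.univ.filter fun j : ZMod m => f (j, c) ≠ 0 with hs
  have e1 : ∑ j, f (j, c) = ∑ j ∈ s, f (j, c) := by
    rw [hs, Finset.sum_filter_ne_zero]
  have h2 := sq_sum_le_card_mul_sum_sq (s := s) (f := fun j => f (j, c))
  have h3 : ∑ j ∈ s, f (j, c) ^ 2 ≤ ∑ j, f (j, c) ^ 2 :=
    Finset.sum_le_sum_of_subset_of_nonneg (Finset.subset_univ _) fun _ _ _ => sq_nonneg _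
  have h4 : (s.card : ℝ) ≤ m / 2 := by
    have : ((2 * s.card : ℕ) : ℝ) ≤ m := by exact_mod_cast h1
    push_cast at this
    linarith
  have h5 : 0 ≤ ∑ j, f (j, c) ^ 2 := Finset.sum_nonneg fun _ _ => sq_nonneg _
  have h6 : (∑ j, f (j, c)) ^ 2 ≤ m / 2 * ∑ j, f (j, c) ^ 2 := by
    rw [e1]
    refine h2.trans ?_
    exact mul_le_mul h4 h3 (Finset.sum_nonneg fun _ _ => sq_nonneg _) (by positivity)
  have h7 : (1 / m : ℝ) * (∑ j, f (j, c)) ^ 2 ≤ (∑ j, f (j, c) ^ 2) / 2 := by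
    rw [one_div, inv_mul_le_iff₀ hm]
    refine h6.trans (le_of_eq ?_)
    ring
  linarith

/-- The norm of the Clifford matrices. -/
theorem cliff_norm {m : ℕ} [NeZero m] {C : Type} [Fintype C] (K : Cliff m C)
    (f : ZMod m × C → ℝ) :
    letI := K.fκ; letI := K.dκ
    ‖∑ k, (f k : ℂ) • K.ch k‖ = Real.sqrt (qf f) := by
  letI := K.fκ
  letI := K.dκ
  have hne : Nonempty K.κ := by
    by_contra hc
    rw [not_nonempty_iff] at hc
    exact K.tr_ne (by simp [Matrix.trace])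
  set A := ∑ k, (f k : ℂ) • K.ch k with hA
  have hstar : star A = A := by
    rw [hA, star_sum]
    refine Finset.sum_congr rfl fun k _ => ?_
    rw [star_smul, Matrix.star_eq_conjTranspose, K.ch_star, Complex.star_def, Complex.conj_ofReal]
  have h1 : ‖A‖ * ‖A‖ = qf f := by
    rw [← CStarRing.norm_star_mul_self, hstar, K.ch_sq f, norm_smul, norm_one, mul_one,
      Complex.norm_real, Real.norm_of_nonneg (qf_nonneg f)]
  rw [← h1, Real.sqrt_mul_self (norm_nonneg _)]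

/-- Block G2a. -/
theorem exists_poly (η : ℝ) (hη : 0 < η) : ∃ P : Polynomial ℝ, P.eval 0 = 0 ∧
    ∀ t ∈ Set.Icc (0 : ℝ) 2, |P.eval t - Real.sqrt t| ≤ η := by
  obtain ⟨p, hp⟩ := exists_polynomial_near_of_continuousOn 0 2 (fun t => Real.sqrt t)
    (Real.continuous_sqrt.continuousOn) (η / 2) (by positivity)
  refine ⟨p - Polynomial.C (p.eval 0), by simp, fun t ht => ?_⟩
  have h1 := hp t ht
  have h3 := hp 0 ⟨le_rfl, by norm_num⟩
  rw [Real.sqrt_zero, sub_zero] at h3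
  rw [Polynomial.eval_sub, Polynomial.eval_C]
  have : p.eval t - p.eval 0 - Real.sqrt t = (p.eval t - Real.sqrt t) - p.eval 0 := by ring
  rw [this]
  refine (abs_sub _ _).trans ?_
  linarith

theorem sq_sqrt_sub_le {a b : ℝ} (ha : 0 ≤ a) (hb : 0 ≤ b) :
    (Real.sqrt a - Real.sqrt b) ^ 2 ≤ |a - b| := by
  have h1 : a - b = (Real.sqrt a - Real.sqrt b) * (Real.sqrt a + Real.sqrt b) := by
    have e1 := Real.mul_self_sqrt ha
    have e2 := Real.mul_self_sqrt hb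
    linear_combination -e1 + e2
  rw [h1, abs_mul, ← sq_abs, sq]
  refine mul_le_mul_of_nonneg_left ?_ (abs_nonneg _)
  rw [abs_of_nonneg (add_nonneg (Real.sqrt_nonneg _) (Real.sqrt_nonneg _))]
  refine (abs_sub _ _).trans ?_
  rw [abs_of_nonneg (Real.sqrt_nonneg _), abs_of_nonneg (Real.sqrt_nonneg _)]

/-- Minkowski. -/
theorem sqrt_sum_add_le {K : Type*} [Fintype K] (f g : K → ℝ) :
    Real.sqrt (∑ k, (f k + g k) ^ 2) ≤
      Real.sqrt (∑ k, f k ^ 2) + Real.sqrt (∑ k, g k ^ 2) := by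
  have h := norm_add_le (WithLp.toLp 2 f : EuclideanSpace ℝ K) (WithLp.toLp 2 g)
  rw [EuclideanSpace.norm_eq, EuclideanSpace.norm_eq, EuclideanSpace.norm_eq] at h
  simpa only [PiLp.add_apply, Real.norm_eq_abs, sq_abs] using h

/-- Bounded functions on small sets. -/
theorem sqrt_sum_le_supp {K : Type*} [Fintype K] (g : K → ℝ) (η : ℝ) (hη : 0 ≤ η)
    (hg : ∀ k, |g k| ≤ η) (Z : Finset K) (hZ : ∀ k ∉ Z, g k = 0) (n : ℕ) (hn : Z.card ≤ n) :
    Real.sqrt (∑ k, g k ^ 2) ≤ η * Real.sqrt n := by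
  classical
  refine Real.sqrt_le_iff.2 ⟨by positivity, ?_⟩
  rw [mul_pow, Real.sq_sqrt (Nat.cast_nonneg n)]
  have h1 : ∑ k, g k ^ 2 = ∑ k ∈ Z, g k ^ 2 := by
    refine (Finset.sum_subset (Finset.subset_univ _) fun k _ hk => ?_).symm
    rw [hZ k hk]
    norm_num
  rw [h1]
  calc ∑ k ∈ Z, g k ^ 2 ≤ ∑ k ∈ Z, η ^ 2 := by
        refine Finset.sum_le_sum fun k _ => ?_
        rw [← sq_abs]
        exact pow_le_pow_left₀ (abs_nonneg _) (hg k) 2
    _ = Z.card * η ^ 2 := by rw [Finset.sum_const, nsmul_eq_mul]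
    _ ≤ n * η ^ 2 := mul_le_mul_of_nonneg_right (by exact_mod_cast hn) (sq_nonneg _)
    _ = _ := mul_comm _ _

theorem le_two_of_sum {K : Type*} [Fintype K] {f : K → ℝ} (hf : ∀ k, 0 ≤ f k)
    (hf2 : ∑ k, f k ≤ 2) (k : K) : f k ≤ 2 :=
  (Finset.single_le_sum (fun k _ => hf k) (Finset.mem_univ k)).trans hf2

/-- Block G2b: dimension-free slowness. -/
theorem poly_slow {K : Type*} [Fintype K] (P : Polynomial ℝ) (η : ℝ) (hη : 0 ≤ η)
    (hP0 : P.eval 0 = 0) (hP : ∀ t ∈ Set.Icc (0 : ℝ) 2, |P.eval t - Real.sqrt t| ≤ η)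
    (f f' : K → ℝ) (hf : ∀ k, 0 ≤ f k) (hf' : ∀ k, 0 ≤ f' k) (hf2 : ∑ k, f k ≤ 2)
    (hf2' : ∑ k, f' k ≤ 2) (n : ℕ) (hn : Nat.card {k // f k ≠ 0} ≤ n)
    (hn' : Nat.card {k // f' k ≠ 0} ≤ n) :
    Real.sqrt (∑ k, (P.eval (f k) - P.eval (f' k)) ^ 2) ≤
      Real.sqrt (∑ k, |f k - f' k|) + 2 * η * Real.sqrt (2 * n) := by
  classical
  have e : ∀ k, P.eval (f k) - P.eval (f' k) = (Real.sqrt (f k) - Real.sqrt (f' k)) +
      ((P.eval (f k) - Real.sqrt (f k)) - (P.eval (f' k) - Real.sqrt (f' k))) := fun k => by ring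
  simp_rw [e]
  refine (sqrt_sum_add_le _ _).trans (add_le_add ?_ ?_)
  · exact Real.sqrt_le_sqrt (Finset.sum_le_sum fun k _ => sq_sqrt_sub_le (hf k) (hf' k))
  · have h := sqrt_sum_le_supp
      (fun k => (P.eval (f k) - Real.sqrt (f k)) - (P.eval (f' k) - Real.sqrt (f' k)))
      (2 * η) (by positivity) (fun k => ?_)
      (Finset.univ.filter (fun k => f k ≠ 0) ∪ Finset.univ.filter fun k => f' k ≠ 0)
      (fun k hk => ?_) (2 * n) ?_
    · refine h.trans (le_of_eq ?_)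
      push_cast
      rfl
    · have h1 := hP (f k) ⟨hf k, le_two_of_sum hf hf2 k⟩
      have h2 := hP (f' k) ⟨hf' k, le_two_of_sum hf' hf2' k⟩
      refine (abs_sub _ _).trans ?_
      linarith
    · simp only [Finset.mem_union, Finset.mem_filter, Finset.mem_univ, true_and, not_or,
        not_not] at hk
      rw [hk.1, hk.2]
      simp
    · refine (Finset.card_union_le _ _).trans ?_
      rw [Nat.card_eq_fintype_card, Fintype.card_subtype] at hn hn'
      omega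

/-- Block G2c: the norm. -/
theorem poly_norm {K : Type*} [Fintype K] (P : Polynomial ℝ) (η : ℝ) (hη : 0 ≤ η)
    (hP0 : P.eval 0 = 0) (hP : ∀ t ∈ Set.Icc (0 : ℝ) 2, |P.eval t - Real.sqrt t| ≤ η)
    (f : K → ℝ) (hf : ∀ k, 0 ≤ f k) (hf2 : ∑ k, f k ≤ 2) (n : ℕ)
    (hn : Nat.card {k // f k ≠ 0} ≤ n) :
    |Real.sqrt (∑ k, P.eval (f k) ^ 2) - Real.sqrt (∑ k, f k)| ≤ η * Real.sqrt n := by
  classical
  have e0 : ∑ k, f k = ∑ k, Real.sqrt (f k) ^ 2 :=
    Finset.sum_congr rfl fun k _ => (Real.sq_sqrt (hf k)).symm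
  have hs : Real.sqrt (∑ k, (P.eval (f k) - Real.sqrt (f k)) ^ 2) ≤ η * Real.sqrt n := by
    refine sqrt_sum_le_supp (fun k => P.eval (f k) - Real.sqrt (f k)) η hη
      (fun k => hP (f k) ⟨hf k, le_two_of_sum hf hf2 k⟩)
      (Finset.univ.filter fun k => f k ≠ 0) (fun k hk => ?_) n ?_
    · simp only [Finset.mem_filter, Finset.mem_univ, true_and, not_not] at hk
      rw [hk, hP0]
      simp
    · rwa [Nat.card_eq_fintype_card, Fintype.card_subtype] at hn
  have hs' : Real.sqrt (∑ k, (Real.sqrt (f k) - P.eval (f k)) ^ 2) ≤ η * Real.sqrt n := by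
    refine le_trans (le_of_eq ?_) hs
    congr 1
    exact Finset.sum_congr rfl fun k _ => by ring
  rw [e0, abs_le]
  constructor
  · have h := sqrt_sum_add_le (fun k => P.eval (f k)) fun k => Real.sqrt (f k) - P.eval (f k)
    simp only [add_sub_cancel] at h
    linarith
  · have h := sqrt_sum_add_le (fun k => Real.sqrt (f k)) fun k => P.eval (f k) - Real.sqrt (f k)
    simp only [add_sub_cancel] at h
    linarith

end Vale.Agent.P184.H57
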