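import Mathlib

/-!
# G1: Clifford matrices of the colours
-/

open scoped Matrix Kronecker

namespace Vale.Agent.P184.H806

/-- Clifford matrices for `ι → ℂ`, with grading `Γ` and a unitary `Λ` implementing the diagonal
matrix `ζ` on vectors; the supertrace of `Λ` is nonzero. -/
def Cliff (ι : Type) [Fintype ι] : Prop :=
  ∀ ζ : ι → ℂ, (∀ j, ‖ζ j‖ = 1 ∧ ζ j ≠ 1) →
  ∃ (κ : Type) (_ : Fintype κ) (_ : DecidableEq κ) (c : (ι → ℂ) →ₗ[ℝ] Matrix κ κ ℂ)
    (Γ Λ : Matrix κ κ ℂ),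
    (∀ v, (c v)ᴴ = c v) ∧
    (∀ v, c v * c v = ((∑ j, ‖v j‖ ^ 2 : ℝ) : ℂ) • 1) ∧
    Γ * Γ = 1 ∧ (∀ v, Γ * c v = - (c v * Γ)) ∧ Λᴴ * Λ = 1 ∧ Λ * Λᴴ = 1 ∧
    Λ * Γ = Γ * Λ ∧ Γᴴ = Γ ∧
    (∀ v, Λ * c v = c (fun j => ζ j * v j) * Λ) ∧ (Γ * Λ).trace ≠ 0

/-- off-diagonal matrix -/
def offd (w : ℂ) : Matrix (Fin 2) (Fin 2) ℂ := !![0, w; star w, 0]
/-- grading -/
def sz : Matrix (Fin 2) (Fin 2) ℂ := !![1, 0; 0, -1]
/-- diagonal unitary -/
def dz (z : ℂ) : Matrix (Fin 2) (Fin 2) ℂ := !![z, 0; 0, 1]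

theorem offd_add (v w : ℂ) : offd (v + w) = offd v + offd w := by
  unfold offd; ext i j; fin_cases i <;> fin_cases j <;> simp

theorem offd_smul (r : ℝ) (w : ℂ) : offd (r • w) = r • offd w := by
  unfold offd; ext i j; fin_cases i <;> fin_cases j <;> simp

theorem offd_star (w : ℂ) : (offd w)ᴴ = offd w := by
  unfold offd; ext i j; fin_cases i <;> fin_cases j <;> simp [Matrix.conjTranspose_apply]

theorem offd_sq (w : ℂ) : offd w * offd w = ((‖w‖ ^ 2 : ℝ) : ℂ) • 1 := by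
  unfold offd; ext i j
  fin_cases i <;> fin_cases j <;> simp [Matrix.mul_apply, Fin.sum_univ_two, Complex.mul_conj,
    Complex.normSq_eq_norm_sq, mul_comm]

theorem sz_sq : sz * sz = 1 := by
  unfold sz; ext i j; fin_cases i <;> fin_cases j <;> simp [Matrix.mul_apply, Fin.sum_univ_two]

theorem sz_star : szᴴ = sz := by
  unfold sz; ext i j; fin_cases i <;> fin_cases j <;> simp [Matrix.conjTranspose_apply]

theorem sz_offd (w : ℂ) : sz * offd w = - (offd w * sz) := by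
  unfold sz offd; ext i j
  fin_cases i <;> fin_cases j <;> simp [Matrix.mul_apply, Fin.sum_univ_two]

theorem dz_sz (z : ℂ) : dz z * sz = sz * dz z := by
  unfold sz dz; ext i j
  fin_cases i <;> fin_cases j <;> simp [Matrix.mul_apply, Fin.sum_univ_two]

theorem dz_offd {z : ℂ} (hz : ‖z‖ = 1) (w : ℂ) : dz z * offd w = offd (z * w) * dz z := by
  have h : star z * z = 1 := by
    rw [Complex.star_def, mul_comm, Complex.mul_conj, Complex.normSq_eq_norm_sq, hz]; norm_num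
  unfold dz offd; ext i j
  fin_cases i <;> fin_cases j <;> simp [Matrix.mul_apply, Fin.sum_univ_two]
  rw [Complex.star_def] at h
  linear_combination (-(starRingEnd ℂ w)) * h

theorem dz_unitary {z : ℂ} (hz : ‖z‖ = 1) : (dz z)ᴴ * dz z = 1 := by
  have h : star z * z = 1 := by
    rw [Complex.star_def, mul_comm, Complex.mul_conj, Complex.normSq_eq_norm_sq, hz]; norm_num
  unfold dz; ext i j
  fin_cases i <;> fin_cases j <;>
    simp [Matrix.mul_apply, Fin.sum_univ_two, Matrix.conjTranspose_apply]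
  exact h

theorem dz_unitary' {z : ℂ} (hz : ‖z‖ = 1) : dz z * (dz z)ᴴ = 1 :=
  mul_eq_one_comm.1 (dz_unitary hz)

theorem sz_dz_trace (z : ℂ) : (sz * dz z).trace = z - 1 := by
  unfold sz dz
  simp [Matrix.trace, Fin.sum_univ_two, sub_eq_add_neg]

/-- The Clifford map with one more coordinate. -/
noncomputable def optC {ι κ : Type} [Fintype κ] [DecidableEq κ]
    (c : (ι → ℂ) →ₗ[ℝ] Matrix κ κ ℂ) :
    (Option ι → ℂ) →ₗ[ℝ] Matrix (κ × Fin 2) (κ × Fin 2) ℂ where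
  toFun v := c (fun j => v (some j)) ⊗ₖ sz + (1 : Matrix κ κ ℂ) ⊗ₖ offd (v none)
  map_add' v w := by
    have e : (fun j => (v + w) (some j)) = (fun j => v (some j)) + fun j => w (some j) := rfl
    rw [e, map_add, Pi.add_apply, offd_add, Matrix.add_kronecker, Matrix.kronecker_add]
    abel
  map_smul' r v := by
    have e : (fun j => (r • v) (some j)) = r • (fun j => v (some j)) := rfl
    rw [e, map_smul, Pi.smul_apply, offd_smul, Matrix.smul_kronecker, Matrix.kronecker_smul,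
      RingHom.id_apply, smul_add]

theorem cliff_option (ι : Type) [Fintype ι] (ih : Cliff ι) : Cliff (Option ι) := by
  intro ζ hζ
  obtain ⟨κ, _, _, c, Γ, Λ, h2, h3, h4, h5, h6, h7, h8, h9, h10, h11⟩ :=
    ih (fun j => ζ (some j)) (fun j => hζ (some j))
  have hz := (hζ none).1
  refine ⟨κ × Fin 2, inferInstance, inferInstance, optC c,
    Γ ⊗ₖ sz, Λ ⊗ₖ dz (ζ none), ?_, ?_, ?_, ?_, ?_, ?_, ?_, ?_, ?_, ?_⟩
  · intro v
    change (c (fun j => v (some j)) ⊗ₖ sz + (1 : Matrix κ κ ℂ) ⊗ₖ offd (v none))ᴴ =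
      c (fun j => v (some j)) ⊗ₖ sz + (1 : Matrix κ κ ℂ) ⊗ₖ offd (v none)
    rw [Matrix.conjTranspose_add, Matrix.conjTranspose_kronecker, Matrix.conjTranspose_kronecker,
      h2, sz_star, offd_star, Matrix.conjTranspose_one]
  · intro v
    change (c (fun j => v (some j)) ⊗ₖ sz + (1 : Matrix κ κ ℂ) ⊗ₖ offd (v none)) *
      (c (fun j => v (some j)) ⊗ₖ sz + (1 : Matrix κ κ ℂ) ⊗ₖ offd (v none)) = _
    rw [add_mul, mul_add, mul_add, ← Matrix.mul_kronecker_mul, ← Matrix.mul_kronecker_mul,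
      ← Matrix.mul_kronecker_mul, ← Matrix.mul_kronecker_mul, h3, sz_sq, offd_sq, mul_one,
      one_mul, one_mul, sz_offd]
    ext ⟨i, a⟩ ⟨j, b⟩
    simp only [Matrix.add_apply, Matrix.kroneckerMap_apply, Matrix.smul_apply, Matrix.neg_apply,
      Fintype.sum_option, smul_eq_mul, Matrix.one_apply, Prod.mk.injEq]
    by_cases h : i = j <;> by_cases h' : a = b <;> simp [h, h'] <;> ring
  · rw [← Matrix.mul_kronecker_mul, h4, sz_sq, Matrix.one_kronecker_one]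
  · intro v
    change Γ ⊗ₖ sz * (c (fun j => v (some j)) ⊗ₖ sz + (1 : Matrix κ κ ℂ) ⊗ₖ offd (v none)) =
      -((c (fun j => v (some j)) ⊗ₖ sz + (1 : Matrix κ κ ℂ) ⊗ₖ offd (v none)) * Γ ⊗ₖ sz)
    rw [mul_add, add_mul, ← Matrix.mul_kronecker_mul, ← Matrix.mul_kronecker_mul,
      ← Matrix.mul_kronecker_mul, ← Matrix.mul_kronecker_mul, h5, sz_offd, mul_one, one_mul]
    ext ⟨i, a⟩ ⟨j, b⟩
    simp only [Matrix.add_apply, Matrix.kroneckerMap_apply, Matrix.neg_apply]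
    ring
  · rw [Matrix.conjTranspose_kronecker, ← Matrix.mul_kronecker_mul, h6, dz_unitary hz,
      Matrix.one_kronecker_one]
  · rw [Matrix.conjTranspose_kronecker, ← Matrix.mul_kronecker_mul, h7, dz_unitary' hz,
      Matrix.one_kronecker_one]
  · rw [← Matrix.mul_kronecker_mul, ← Matrix.mul_kronecker_mul, h8, dz_sz]
  · rw [Matrix.conjTranspose_kronecker, h9, sz_star]
  · intro v
    change Λ ⊗ₖ dz (ζ none) *
      (c (fun j => v (some j)) ⊗ₖ sz + (1 : Matrix κ κ ℂ) ⊗ₖ offd (v none)) =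
      (c (fun j => ζ (some j) * v (some j)) ⊗ₖ sz +
        (1 : Matrix κ κ ℂ) ⊗ₖ offd (ζ none * v none)) * Λ ⊗ₖ dz (ζ none)
    rw [mul_add, add_mul, ← Matrix.mul_kronecker_mul, ← Matrix.mul_kronecker_mul,
      ← Matrix.mul_kronecker_mul, ← Matrix.mul_kronecker_mul, h10, dz_offd hz, mul_one, one_mul,
      dz_sz]
  · rw [← Matrix.mul_kronecker_mul, Matrix.trace_kronecker, sz_dz_trace]
    exact mul_ne_zero h11 (sub_ne_zero.2 (hζ none).2)

theorem cliff_empty : Cliff PEmpty := by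
  intro ζ _
  refine ⟨Unit, inferInstance, inferInstance, 0, 1, 1, ?_, ?_, ?_, ?_, ?_, ?_, ?_,
    ?_, ?_, ?_⟩ <;> simp

theorem cliff_equiv (α β : Type) [Fintype β] (e : α ≃ β)
    (h : @Cliff α (Fintype.ofEquiv β e.symm)) : Cliff β := by
  intro ζ hζ
  let _ : Fintype α := Fintype.ofEquiv β e.symm
  obtain ⟨κ, i1, i2, c, Γ, Λ, h2, h3, h4, h5, h6, h7, h8, h9, h10, h11⟩ :=
    h (fun j => ζ (e j)) (fun j => hζ (e j))
  refine ⟨κ, i1, i2, c.comp (LinearMap.funLeft ℝ ℂ e), Γ, Λ, fun v => h2 _,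
    fun v => ?_, h4, fun v => h5 _, h6, h7, h8, h9, fun v => h10 _, h11⟩
  rw [← e.sum_comp (fun j => ‖v j‖ ^ 2)]
  exact h3 _

theorem cliff (ι : Type) [Fintype ι] : Cliff ι :=
  Fintype.induction_empty_option (P := fun ι _ => Cliff ι) cliff_equiv
    cliff_empty (fun ι _ ih => cliff_option ι ih) ι

/-! ### Fourier coefficients -/

section Fourier

variable {m : ℕ} [NeZero m]

theorem norm_chi (l : ZMod m) : ‖(ZMod.stdAddChar l : ℂ)‖ = 1 := by
  rw [ZMod.stdAddChar_apply]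
  exact Circle.norm_coe _

theorem chi_ne_one {l : ZMod m} (hl : l ≠ 0) : (ZMod.stdAddChar l : ℂ) ≠ 1 := by
  intro h
  refine hl (ZMod.injective_stdAddChar ?_)
  rw [h, AddChar.map_zero_eq_one]

theorem parseval (f : ZMod m → ℝ) :
    ∑ l : ZMod m, ‖∑ j, (f j : ℂ) * ZMod.stdAddChar (l * j)‖ ^ 2 = m * ∑ j, f j ^ 2 := by
  have h1 : ∀ l : ZMod m, ((‖∑ j, (f j : ℂ) * ZMod.stdAddChar (l * j)‖ ^ 2 : ℝ) : ℂ) =
      ∑ j, ∑ j', (f j : ℂ) * f j' * ZMod.stdAddChar (l * (j - j')) := by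
    intro l
    rw [← Complex.normSq_eq_norm_sq, ← Complex.mul_conj, map_sum, Finset.sum_mul_sum]
    refine Finset.sum_congr rfl fun j _ => Finset.sum_congr rfl fun j' _ => ?_
    have h2 : (starRingEnd ℂ) (ZMod.stdAddChar (l * j') : ℂ) = (ZMod.stdAddChar (l * j') : ℂ)⁻¹ := by
      rw [Complex.inv_def, Complex.normSq_eq_norm_sq, norm_chi]
      simp
    have h3 : (ZMod.stdAddChar (l * (j - j')) : ℂ) =
        ZMod.stdAddChar (l * j) * (ZMod.stdAddChar (l * j') : ℂ)⁻¹ := by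
      rw [mul_sub, sub_eq_add_neg, AddChar.map_add_eq_mul, AddChar.map_neg_eq_inv]
    rw [RingHom.map_mul, Complex.conj_ofReal, h2, h3]
    ring
  have h3 : ((∑ l : ZMod m, ‖∑ j, (f j : ℂ) * ZMod.stdAddChar (l * j)‖ ^ 2 : ℝ) : ℂ) =
      ((m * ∑ j, f j ^ 2 : ℝ) : ℂ) := by
    rw [Complex.ofReal_sum]
    simp_rw [h1]
    rw [Finset.sum_comm]
    have h4 : ∀ j : ZMod m, ∑ l : ZMod m, ∑ j', (f j : ℂ) * f j' * ZMod.stdAddChar (l * (j - j')) =
        (m : ℂ) * (f j : ℂ) ^ 2 := by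
      intro j
      rw [Finset.sum_comm]
      have h5 : ∀ j' : ZMod m, ∑ l : ZMod m, (f j : ℂ) * f j' * ZMod.stdAddChar (l * (j - j')) =
          if j = j' then (m : ℂ) * (f j : ℂ) ^ 2 else 0 := by
        intro j'
        rw [← Finset.mul_sum, AddChar.sum_mulShift _ (ZMod.isPrimitive_stdAddChar m), ZMod.card]
        by_cases h : j = j'
        · rw [if_pos h, if_pos (sub_eq_zero.2 h), h]
          ring
        · rw [if_neg h, if_neg (sub_ne_zero.2 h), Nat.cast_zero, mul_zero]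
      simp_rw [h5]
      simp
    simp_rw [h4]
    push_cast
    rw [Finset.mul_sum]
  exact_mod_cast h3

/-- The nonconstant Fourier coefficients. -/
noncomputable def fou (m : ℕ) [NeZero m] (C : Type) :
    (ZMod m × C → ℝ) →ₗ[ℝ] ({l : ZMod m // l ≠ 0} × C → ℂ) where
  toFun f lc := (Real.sqrt m)⁻¹ * ∑ j : ZMod m, (f (j, lc.2) : ℂ) * ZMod.stdAddChar (lc.1.1 * j)
  map_add' f g := by
    funext lc
    simp only [Pi.add_apply, Complex.ofReal_add, add_mul, Finset.sum_add_distrib, mul_add]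
  map_smul' r f := by
    funext lc
    simp only [Pi.smul_apply, smul_eq_mul, Complex.ofReal_mul, RingHom.id_apply,
      Complex.real_smul]
    rw [mul_left_comm, Finset.mul_sum]
    simp only [mul_assoc]
    rw [← Finset.mul_sum, ← Finset.mul_sum]

theorem fou_shift {C : Type} (f : ZMod m × C → ℝ) (lc : {l : ZMod m // l ≠ 0} × C) :
    fou m C (fun j => f (j.1 - 1, j.2)) lc = ZMod.stdAddChar lc.1.1 * fou m C f lc := by
  simp only [fou, LinearMap.coe_mk, AddHom.coe_mk]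
  rw [mul_left_comm]
  congr 1
  rw [Finset.mul_sum]
  refine (Fintype.sum_equiv (Equiv.addRight (1 : ZMod m)) _ _ fun j => ?_).symm
  rw [Equiv.coe_addRight, add_sub_cancel_right, mul_add, mul_one, AddChar.map_add_eq_mul]
  ring

theorem fou_norm {C : Type} [Fintype C] (f : ZMod m × C → ℝ) :
    ∑ lc, ‖fou m C f lc‖ ^ 2 =
      ∑ j, f j ^ 2 - (1 / m : ℝ) * ∑ c, (∑ i, f (i, c)) ^ 2 := by
  have hm : (m : ℝ) ≠ 0 := by exact_mod_cast NeZero.ne m
  have h1 : ∀ c : C, ∑ l : {l : ZMod m // l ≠ 0}, ‖fou m C f (l, c)‖ ^ 2 =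
      ∑ i, f (i, c) ^ 2 - (1 / m : ℝ) * (∑ i, f (i, c)) ^ 2 := by
    intro c
    have h2 : ∀ l : {l : ZMod m // l ≠ 0}, ‖fou m C f (l, c)‖ ^ 2 =
        (1 / m : ℝ) * ‖∑ j : ZMod m, (f (j, c) : ℂ) * ZMod.stdAddChar (l.1 * j)‖ ^ 2 := by
      intro l
      simp only [fou, LinearMap.coe_mk, AddHom.coe_mk]
      rw [norm_mul, mul_pow]
      congr 1
      rw [Complex.norm_real, norm_inv, Real.norm_of_nonneg (Real.sqrt_nonneg _), inv_pow,
        Real.sq_sqrt (Nat.cast_nonneg m), one_div]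
    simp_rw [h2]
    rw [← Finset.mul_sum]
    have h3 := parseval (fun j => f (j, c))
    have h4 : ∑ l : ZMod m, ‖∑ j, (f (j, c) : ℂ) * ZMod.stdAddChar (l * j)‖ ^ 2 =
        (∑ i, f (i, c)) ^ 2 +
        ∑ l : {l : ZMod m // l ≠ 0}, ‖∑ j, (f (j, c) : ℂ) * ZMod.stdAddChar (l.1 * j)‖ ^ 2 := by
      rw [← Finset.add_sum_erase Finset.univ _ (Finset.mem_univ (0 : ZMod m)),
        Finset.sum_subtype (Finset.univ.erase (0 : ZMod m)) (p := fun l => l ≠ 0) (by simp)]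
      congr 1
      simp only [zero_mul, AddChar.map_zero_eq_one, mul_one]
      rw [← Complex.ofReal_sum, Complex.norm_real, Real.norm_eq_abs, sq_abs]
    rw [h4] at h3
    have h5 : ∑ l : {l : ZMod m // l ≠ 0},
        ‖∑ j, (f (j, c) : ℂ) * ZMod.stdAddChar (l.1 * j)‖ ^ 2 =
        m * ∑ j, f (j, c) ^ 2 - (∑ i, f (i, c)) ^ 2 := by linarith
    rw [h5]
    field_simp
  rw [Fintype.sum_prod_type_right]
  simp_rw [h1]
  rw [Finset.sum_sub_distrib, Finset.mul_sum, Fintype.sum_prod_type_right]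

end Fourier

/-- Clifford matrices of the colours. -/
theorem exists_clifford (m : ℕ) [NeZero m] (C : Type) [Fintype C] :
    ∃ (κ : Type) (_ : Fintype κ) (_ : DecidableEq κ)
      (ch : (ZMod m × C → ℝ) →ₗ[ℝ] Matrix κ κ ℂ) (Γ Λ : Matrix κ κ ℂ),
      (∀ f, ch f * ch f =
        ((∑ j, f j ^ 2 - (1 / m : ℝ) * ∑ c, (∑ i, f (i, c)) ^ 2 : ℝ) : ℂ) • 1) ∧
      (∀ f, (ch f)ᴴ = ch f) ∧ Γ * Γ = 1 ∧ Γᴴ = Γ ∧ (∀ f, Γ * ch f = -(ch f * Γ)) ∧
      Λᴴ * Λ = 1 ∧ Λ * Λᴴ = 1 ∧ Λ * Γ = Γ * Λ ∧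
      (∀ f, Λ * ch f = ch (fun j => f (j.1 - 1, j.2)) * Λ) ∧
      (Γ * Λ).trace ≠ 0 ∧ (Γ * Λᴴ).trace ≠ 0 := by
  obtain ⟨κ, i1, i2, c, Γ, Λ, h2, h3, h4, h5, h6, h7, h8, h9, h10, h11⟩ :=
    cliff ({l : ZMod m // l ≠ 0} × C) (fun lc => ZMod.stdAddChar lc.1.1)
      fun lc => ⟨norm_chi _, chi_ne_one lc.1.2⟩
  refine ⟨κ, i1, i2, c.comp (fou m C), Γ, Λ, fun f => ?_, fun f => h2 _, h4, h9, fun f => h5 _,
    h6, h7, h8, fun f => ?_, h11, ?_⟩
  · rw [LinearMap.comp_apply, h3, fou_norm]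
  · rw [LinearMap.comp_apply, h10, LinearMap.comp_apply]
    congr 2
    funext lc
    rw [fou_shift]
  · intro h
    apply h11
    have h12 : (Γ * Λ).trace = star ((Γ * Λᴴ).trace) := by
      rw [← Matrix.trace_conjTranspose, Matrix.conjTranspose_mul, Matrix.conjTranspose_conjTranspose,
        h9, h8]
    rw [h12, h, star_zero]

end Vale.Agent.P184.H806
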