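import Mathlib

set_option linter.all false

/-! Block G3: the field `W` and its derivatives, abstractly. -/

noncomputable section

namespace Vale.Agent.P184.H460

open scoped ENNReal

/-! ### polynomials in commutative Banach algebras -/

section poly

variable {A : Type*} [NormedCommRing A] [NormedAlgebra ℝ A]

theorem aeval_hasDerivAt (P : Polynomial ℝ) {f : ℝ → A} {f' : A} {t : ℝ} (hf : HasDerivAt f f' t) :
    HasDerivAt (fun τ => Polynomial.aeval (f τ) P)
      (Polynomial.aeval (f t) (Polynomial.derivative P) * f') t := by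
  induction P using Polynomial.induction_on with
  | C a =>
      simp only [Polynomial.aeval_C, Polynomial.derivative_C, map_zero, zero_mul]
      exact hasDerivAt_const _ _
  | add p q hp hq =>
      simp only [map_add, add_mul]
      exact hp.add hq
  | monomial n a ih =>
      have e : Polynomial.C a * Polynomial.X ^ (n + 1) =
          (Polynomial.C a * Polynomial.X ^ n) * Polynomial.X := by ring
      rw [e]
      have h := ih.mul hf
      have e2 : Polynomial.aeval (f t) (Polynomial.derivative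
          ((Polynomial.C a * Polynomial.X ^ n) * Polynomial.X)) * f' =
          Polynomial.aeval (f t) (Polynomial.derivative (Polynomial.C a * Polynomial.X ^ n)) * f' *
            f t + Polynomial.aeval (f t) (Polynomial.C a * Polynomial.X ^ n) * f' := by
        rw [Polynomial.derivative_mul, Polynomial.derivative_X, mul_one, map_add, map_mul,
          Polynomial.aeval_X]
        ring
      rw [e2]
      refine h.congr_of_eventuallyEq (Filter.Eventually.of_forall fun τ => ?_)
      simp only [Pi.mul_apply, map_mul, Polynomial.aeval_X]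

theorem aeval_norm_le [NormOneClass A] (P : Polynomial ℝ) {a : A} {K : ℝ} (hK : 0 ≤ K)
    (ha : ‖a‖ ≤ K) :
    ‖Polynomial.aeval a P‖ ≤ ∑ i ∈ Finset.range (P.natDegree + 1), |P.coeff i| * K ^ i := by
  rw [Polynomial.aeval_eq_sum_range]
  refine (norm_sum_le _ _).trans (Finset.sum_le_sum fun i _ => ?_)
  rw [norm_smul, Real.norm_eq_abs]
  refine mul_le_mul_of_nonneg_left ((norm_pow_le a i).trans ?_) (abs_nonneg _)
  exact pow_le_pow_left₀ (norm_nonneg _) ha i

end poly

/-! ### bounded functions -/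

section lift

variable {G : Type*} {A R : Type*} [NormedRing A] [NormedAlgebra ℝ A] [NormedRing R]
  [NormedAlgebra ℂ R]

/-- bounded maps act on bounded functions -/
def lft (ψ : A →L[ℝ] R) : lp (fun _ : G => A) ∞ →L[ℝ] lp (fun _ : G => R) ∞ :=
  LinearMap.mkContinuous
    { toFun := fun F => ⟨fun p => ψ (F.1 p), by
        refine memℓp_infty ⟨‖ψ‖ * ‖F‖, ?_⟩
        rintro _ ⟨p, rfl⟩
        exact (ψ.le_opNorm _).trans (mul_le_mul_of_nonneg_left (lp.norm_apply_le_norm
          (by simp) F p) (norm_nonneg _))⟩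
      map_add' := fun F F' => by
        apply Subtype.ext
        funext p
        exact ψ.map_add _ _
      map_smul' := fun c F => by
        apply Subtype.ext
        funext p
        exact ψ.map_smul _ _ } ‖ψ‖ (by
    intro F
    refine lp.norm_le_of_forall_le (by positivity) fun p => ?_
    exact (ψ.le_opNorm _).trans (mul_le_mul_of_nonneg_left (lp.norm_apply_le_norm
          (by simp) F p) (norm_nonneg _)))

theorem lft_apply (ψ : A →L[ℝ] R) (F : lp (fun _ : G => A) ∞) (p : G) :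
    (lft ψ F).1 p = ψ (F.1 p) := rfl

end lift

section aev

variable {G : Type*} {A : Type*} [NormedCommRing A] [NormOneClass A] [NormedAlgebra ℝ A]

theorem aeval_apply (P : Polynomial ℝ) (F : lp (fun _ : G => A) ∞) (p : G) :
    (Polynomial.aeval F P).1 p = Polynomial.aeval (F.1 p) P := by
  induction P using Polynomial.induction_on with
  | C a =>
      simp only [Polynomial.aeval_C]
      rw [Algebra.algebraMap_eq_smul_one, Algebra.algebraMap_eq_smul_one]
      rfl
  | add p q hp hq =>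
      simp only [map_add]
      rw [← hp, ← hq]
      rfl
  | monomial n a ih =>
      have e : Polynomial.C a * Polynomial.X ^ (n + 1) =
          (Polynomial.C a * Polynomial.X ^ n) * Polynomial.X := by ring
      have h1 : Polynomial.aeval F ((Polynomial.C a * Polynomial.X ^ n) * Polynomial.X) =
          Polynomial.aeval F (Polynomial.C a * Polynomial.X ^ n) * F := by
        rw [map_mul (Polynomial.aeval F) (Polynomial.C a * Polynomial.X ^ n), Polynomial.aeval_X]
      have h2 : Polynomial.aeval (F.1 p) ((Polynomial.C a * Polynomial.X ^ n) * Polynomial.X) =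
          Polynomial.aeval (F.1 p) (Polynomial.C a * Polynomial.X ^ n) * F.1 p := by
        rw [map_mul (Polynomial.aeval (F.1 p)) (Polynomial.C a * Polynomial.X ^ n),
          Polynomial.aeval_X]
      rw [e, h1, h2, ← ih]
      rfl

end aev

/-! ### the field -/

/-- The input of the field `W`. -/
structure WS (G A R K E : Type*) [Group G] [NormedCommRing A] [NormOneClass A] [NormedAlgebra ℝ A]
    [NormedRing R] [NormedAlgebra ℂ R] [Fintype K] [Fintype E] where
  q : G → G → E → ℝ
  q_nonneg : ∀ r p u, 0 ≤ q r p u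
  q_sum : ∀ r p, ∑ u, q r p u = 1
  ind : G → E → K → A
  ind_bd : ∀ p u k, ‖ind p u k‖ ≤ 1
  ψ : K → (A →L[ℝ] R)
  P : Polynomial ℝ

namespace WS

variable {G A R K E : Type*} [Group G] [NormedCommRing A] [NormOneClass A] [NormedAlgebra ℝ A]
    [NormedRing R] [NormedAlgebra ℂ R] [Fintype K] [Fintype E] (D : WS G A R K E)

theorem mL_bd (r p : G) (k : K) : ‖∑ u, D.q r p u • D.ind p u k‖ ≤ 1 := by
  refine (norm_sum_le _ _).trans ?_
  rw [← D.q_sum r p]
  refine Finset.sum_le_sum fun u _ => ?_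
  rw [norm_smul, Real.norm_eq_abs, abs_of_nonneg (D.q_nonneg r p u)]
  exact mul_le_of_le_one_right (D.q_nonneg r p u) (D.ind_bd p u k)

/-- the field of the point `r` -/
def mL (r : G) (k : K) : lp (fun _ : G => A) ∞ :=
  ⟨fun p => ∑ u, D.q r p u • D.ind p u k, memℓp_infty ⟨1, by
    rintro _ ⟨p, rfl⟩
    exact D.mL_bd r p k⟩⟩

/-- indicators -/
def iL (u : E) (k : K) : lp (fun _ : G => A) ∞ :=
  ⟨fun p => D.ind p u k, memℓp_infty ⟨1, by
    rintro _ ⟨p, rfl⟩
    exact D.ind_bd p u k⟩⟩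

theorem norm_mL (r : G) (k : K) : ‖D.mL r k‖ ≤ 1 :=
  lp.norm_le_of_forall_le (by norm_num) fun p => D.mL_bd r p k

theorem norm_iL (u : E) (k : K) : ‖D.iL u k‖ ≤ 1 :=
  lp.norm_le_of_forall_le (by norm_num) fun p => D.ind_bd p u k

/-- the mass functions -/
def M (s : G →₀ ℝ) (k : K) : lp (fun _ : G => A) ∞ := s.sum fun r t => t • D.mL r k

theorem M_add (s s' : G →₀ ℝ) (k : K) : D.M (s + s') k = D.M s k + D.M s' k := by
  classical
  unfold M
  rw [Finsupp.sum_add_index']
  · intro r; rw [zero_smul]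
  · intro r a b; rw [add_smul]

theorem M_single (r : G) (τ : ℝ) (k : K) : D.M (Finsupp.single r τ) k = τ • D.mL r k := by
  unfold M
  rw [Finsupp.sum_single_index (by rw [zero_smul])]

theorem M_zero (k : K) : D.M 0 k = 0 := by
  unfold M
  rw [Finsupp.sum_zero_index]

theorem M_sum {ι : Type*} (S : Finset ι) (f : ι → G →₀ ℝ) (k : K) :
    D.M (∑ i ∈ S, f i) k = ∑ i ∈ S, D.M (f i) k := by
  classical
  induction S using Finset.induction_on with
  | empty => rw [Finset.sum_empty, Finset.sum_empty, M_zero]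
  | insert a S ha ih => rw [Finset.sum_insert ha, Finset.sum_insert ha, M_add, ih]

/-- the field `W` -/
def W (s : G →₀ ℝ) : lp (fun _ : G => R) ∞ :=
  ∑ k, lft (D.ψ k) (Polynomial.aeval (D.M s k) D.P)

/-- the derivatives with respect to the coordinates -/
def B (u : E) (s : G →₀ ℝ) : lp (fun _ : G => R) ∞ :=
  ∑ k, lft (D.ψ k) (Polynomial.aeval (D.M s k) (Polynomial.derivative D.P) * D.iL u k)

/-- the second derivatives -/
def B' (u v : E) (s : G →₀ ℝ) : lp (fun _ : G => R) ∞ :=
  ∑ k, lft (D.ψ k) (Polynomial.aeval (D.M s k)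
    (Polynomial.derivative (Polynomial.derivative D.P)) * (D.iL u k * D.iL v k))

/-- directional derivatives -/
def W1 (r : G) (s : G →₀ ℝ) : lp (fun _ : G => R) ∞ :=
  ∑ k, lft (D.ψ k) (Polynomial.aeval (D.M s k) (Polynomial.derivative D.P) * D.mL r k)

/-- directional derivatives of `B` -/
def B1 (u : E) (r : G) (s : G →₀ ℝ) : lp (fun _ : G => R) ∞ :=
  ∑ k, lft (D.ψ k) (Polynomial.aeval (D.M s k)
    (Polynomial.derivative (Polynomial.derivative D.P)) * (D.iL u k * D.mL r k))

theorem B'_symm (u v : E) (s : G →₀ ℝ) : D.B' u v s = D.B' v u s := by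
  unfold B'
  refine Finset.sum_congr rfl fun k _ => ?_
  rw [mul_comm (D.iL u k)]

theorem sum_val {ι : Type*} (S : Finset ι) (f : ι → lp (fun _ : G => R) ∞) (p : G) :
    (∑ i ∈ S, f i).1 p = ∑ i ∈ S, (f i).1 p := by
  classical
  induction S using Finset.induction_on with
  | empty => rfl
  | insert a S ha ih =>
      rw [Finset.sum_insert ha, Finset.sum_insert ha, ← ih]
      rfl

/-- the mass functions at a point -/
def mm (s : G →₀ ℝ) (p : G) (k : K) : A := s.sum fun r t => t • ∑ u, D.q r p u • D.ind p u k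

theorem M_val (s : G →₀ ℝ) (k : K) (p : G) : (D.M s k).1 p = D.mm s p k := by
  classical
  induction s using Finsupp.induction_linear with
  | zero => rw [M_zero]; unfold mm; rw [Finsupp.sum_zero_index]; rfl
  | add f g hf hg =>
      rw [M_add]
      have : D.mm (f + g) p k = D.mm f p k + D.mm g p k := by
        unfold mm
        rw [Finsupp.sum_add_index']
        · intro r; rw [zero_smul]
        · intro r a b; rw [add_smul]
      rw [this, ← hf, ← hg]
      rfl
  | single r t =>
      rw [M_single]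
      unfold mm
      rw [Finsupp.sum_single_index (by rw [zero_smul])]
      rfl

theorem W_val (s : G →₀ ℝ) (p : G) :
    (D.W s).1 p = ∑ k, D.ψ k (Polynomial.aeval (D.mm s p k) D.P) := by
  unfold W
  rw [sum_val]
  refine Finset.sum_congr rfl fun k _ => ?_
  rw [lft_apply, aeval_apply, M_val]

theorem B_val (u : E) (s : G →₀ ℝ) (p : G) : (D.B u s).1 p =
    ∑ k, D.ψ k (Polynomial.aeval (D.mm s p k) (Polynomial.derivative D.P) * D.ind p u k) := by
  unfold B
  rw [sum_val]
  refine Finset.sum_congr rfl fun k _ => ?_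
  rw [lft_apply, ← M_val, ← aeval_apply]
  rfl

theorem B'_val (u v : E) (s : G →₀ ℝ) (p : G) : (D.B' u v s).1 p =
    ∑ k, D.ψ k (Polynomial.aeval (D.mm s p k) (Polynomial.derivative (Polynomial.derivative D.P)) *
      (D.ind p u k * D.ind p v k)) := by
  unfold B'
  rw [sum_val]
  refine Finset.sum_congr rfl fun k _ => ?_
  rw [lft_apply, ← M_val, ← aeval_apply]
  rfl

theorem map_smul_sum (ψ : A →L[ℝ] R) (a : A) (c : E → ℝ) (f : E → A) :
    ψ (a * ∑ u, c u • f u) = ∑ u, (c u : ℂ) • ψ (a * f u) := by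
  rw [Finset.mul_sum, map_sum]
  refine Finset.sum_congr rfl fun u _ => ?_
  rw [mul_smul_comm, map_smul]
  rfl

theorem W1_eq (r : G) (s : G →₀ ℝ) (p : G) :
    (D.W1 r s).1 p = ∑ u, (D.q r p u : ℂ) • (D.B u s).1 p := by
  simp only [B_val]
  unfold W1
  rw [sum_val]
  simp only [Finset.smul_sum]
  rw [Finset.sum_comm]
  refine Finset.sum_congr rfl fun k _ => ?_
  rw [← map_smul_sum, lft_apply, ← M_val, ← aeval_apply]
  rfl

theorem B1_eq (u : E) (r : G) (s : G →₀ ℝ) (p : G) :
    (D.B1 u r s).1 p = ∑ v, (D.q r p v : ℂ) • (D.B' u v s).1 p := by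
  simp only [B'_val]
  unfold B1
  rw [sum_val]
  simp only [Finset.smul_sum]
  rw [Finset.sum_comm]
  refine Finset.sum_congr rfl fun k _ => ?_
  simp only [← mul_assoc]
  rw [← map_smul_sum, lft_apply, ← M_val, ← aeval_apply]
  rfl

theorem M_path_deriv (s : G →₀ ℝ) (r : G) (k : K) :
    HasDerivAt (fun τ : ℝ => D.M (s + Finsupp.single r τ) k) (D.mL r k) 0 := by
  have h : (fun τ : ℝ => D.M (s + Finsupp.single r τ) k) = fun τ : ℝ => D.M s k + τ • D.mL r k := by
    funext τ
    rw [M_add, M_single]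
  rw [h]
  have h1 : HasDerivAt (fun τ : ℝ => τ • D.mL r k) ((1 : ℝ) • D.mL r k) 0 :=
    (hasDerivAt_id (0 : ℝ)).smul_const (D.mL r k)
  rw [one_smul] at h1
  exact h1.const_add _

theorem W_deriv (s : G →₀ ℝ) (r : G) :
    HasDerivAt (fun τ : ℝ => D.W (s + Finsupp.single r τ)) (D.W1 r s) 0 := by
  unfold W W1
  refine HasDerivAt.fun_sum fun k _ => ?_
  refine (lft (D.ψ k)).hasFDerivAt.comp_hasDerivAt 0 ?_
  have h := aeval_hasDerivAt D.P (D.M_path_deriv s r k)
  simpa using h

theorem B_deriv (u : E) (s : G →₀ ℝ) (r : G) :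
    HasDerivAt (fun τ : ℝ => D.B u (s + Finsupp.single r τ)) (D.B1 u r s) 0 := by
  unfold B B1
  refine HasDerivAt.fun_sum fun k _ => ?_
  refine (lft (D.ψ k)).hasFDerivAt.comp_hasDerivAt 0 ?_
  have h := (aeval_hasDerivAt (Polynomial.derivative D.P) (D.M_path_deriv s r k)).mul_const
    (D.iL u k)
  have e : D.M (s + Finsupp.single r 0) k = D.M s k := by simp
  rw [e] at h
  rw [mul_comm (D.iL u k), ← mul_assoc]
  exact h

theorem M_cont (N : ℕ) (c : Fin N → G) (k : K) :
    Continuous fun t : Fin N → ℝ => D.M (∑ l, Finsupp.single (c l) (t l)) k := by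
  have h : (fun t : Fin N → ℝ => D.M (∑ l, Finsupp.single (c l) (t l)) k) =
      fun t : Fin N → ℝ => ∑ l, t l • D.mL (c l) k := by
    funext t
    rw [M_sum]
    simp only [M_single]
  rw [h]
  fun_prop

theorem W_cont (N : ℕ) (c : Fin N → G) :
    Continuous fun t : Fin N → ℝ => D.W (∑ l, Finsupp.single (c l) (t l)) := by
  unfold W
  refine continuous_finsetSum _ fun k _ => (lft (D.ψ k)).continuous.comp ?_
  exact (Polynomial.continuous_aeval D.P).comp (D.M_cont N c k)

theorem B_cont (N : ℕ) (c : Fin N → G) (u : E) :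
    Continuous fun t : Fin N → ℝ => D.B u (∑ l, Finsupp.single (c l) (t l)) := by
  unfold B
  refine continuous_finsetSum _ fun k _ => (lft (D.ψ k)).continuous.comp ?_
  exact ((Polynomial.continuous_aeval _).comp (D.M_cont N c k)).mul continuous_const

theorem B'_cont (N : ℕ) (c : Fin N → G) (u v : E) :
    Continuous fun t : Fin N → ℝ => D.B' u v (∑ l, Finsupp.single (c l) (t l)) := by
  unfold B'
  refine continuous_finsetSum _ fun k _ => (lft (D.ψ k)).continuous.comp ?_
  exact ((Polynomial.continuous_aeval _).comp (D.M_cont N c k)).mul continuous_const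

theorem mL_shift {x : G} (hx : ∀ r p u, D.q (x * r) p u = D.q r p u) (r : G) (k : K) :
    D.mL (x * r) k = D.mL r k := by
  apply Subtype.ext
  funext p
  exact Finset.sum_congr rfl fun u _ => by rw [hx]

theorem M_shift {x : G} (hx : ∀ r p u, D.q (x * r) p u = D.q r p u) (s : G →₀ ℝ) (r : G) (τ : ℝ)
    (k : K) : D.M (s + Finsupp.single (x * r) τ) k = D.M (s + Finsupp.single r τ) k := by
  rw [M_add, M_add, M_single, M_single, D.mL_shift hx]

theorem W_shift {x : G} (hx : ∀ r p u, D.q (x * r) p u = D.q r p u) (s : G →₀ ℝ) (r : G) (τ : ℝ) :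
    D.W (s + Finsupp.single (x * r) τ) = D.W (s + Finsupp.single r τ) := by
  unfold W
  simp only [D.M_shift hx]

theorem B_shift {x : G} (hx : ∀ r p u, D.q (x * r) p u = D.q r p u) (u : E) (s : G →₀ ℝ) (r : G)
    (τ : ℝ) : D.B u (s + Finsupp.single (x * r) τ) = D.B u (s + Finsupp.single r τ) := by
  unfold B
  simp only [D.M_shift hx]

/-! ### equivariance -/

theorem mm_H {c : G} (hq : ∀ r p u, D.q (c * r) (c * p) u = D.q r p u) (σ' : A →ₐ[ℝ] A)
    (hi : ∀ p u k, D.ind (c * p) u k = σ' (D.ind p u k)) (s : G →₀ ℝ) (p : G) (k : K) :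
    D.mm (s.mapDomain (c * ·)) (c * p) k = σ' (D.mm s p k) := by
  unfold mm
  rw [Finsupp.sum_mapDomain_index (by intro b; rw [zero_smul])
    (by intro b m₁ m₂; rw [add_smul]), Finsupp.sum, Finsupp.sum, map_sum]
  refine Finset.sum_congr rfl fun r _ => ?_
  rw [map_smul, map_sum]
  congr 1
  refine Finset.sum_congr rfl fun u _ => ?_
  rw [map_smul, hq, hi]

theorem W_H {c : G} (hq : ∀ r p u, D.q (c * r) (c * p) u = D.q r p u) (σ' : A →ₐ[ℝ] A)
    (hi : ∀ p u k, D.ind (c * p) u k = σ' (D.ind p u k)) (σ : R →+* R)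
    (hσ : ∀ k a, σ (D.ψ k a) = D.ψ k (σ' a)) (s : G →₀ ℝ) (p : G) :
    (D.W (s.mapDomain (c * ·))).1 (c * p) = σ ((D.W s).1 p) := by
  rw [W_val, W_val, map_sum]
  refine Finset.sum_congr rfl fun k _ => ?_
  rw [D.mm_H hq σ' hi, hσ, Polynomial.aeval_algHom_apply]

theorem B_H {c : G} (hq : ∀ r p u, D.q (c * r) (c * p) u = D.q r p u) (σ' : A →ₐ[ℝ] A)
    (hi : ∀ p u k, D.ind (c * p) u k = σ' (D.ind p u k)) (σ : R →+* R)
    (hσ : ∀ k a, σ (D.ψ k a) = D.ψ k (σ' a)) (u : E) (s : G →₀ ℝ) (p : G) :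
    (D.B u (s.mapDomain (c * ·))).1 (c * p) = σ ((D.B u s).1 p) := by
  rw [B_val, B_val, map_sum]
  refine Finset.sum_congr rfl fun k _ => ?_
  rw [D.mm_H hq σ' hi, hσ, Polynomial.aeval_algHom_apply, map_mul σ', hi]

theorem mm_x {x : G} (hq : ∀ r p u, D.q r (x * p) u = D.q r p u) (π : K ≃ K)
    (hi : ∀ p u k, D.ind (x * p) u (π k) = D.ind p u k) (s : G →₀ ℝ) (p : G) (k : K) :
    D.mm s (x * p) (π k) = D.mm s p k := by
  unfold mm
  refine Finset.sum_congr rfl fun r _ => ?_
  simp only [hq, hi]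

theorem W_x {x : G} (hq : ∀ r p u, D.q r (x * p) u = D.q r p u) (π : K ≃ K)
    (hi : ∀ p u k, D.ind (x * p) u (π k) = D.ind p u k) (θ : R →+* R)
    (hθ : ∀ k a, θ (D.ψ k a) = D.ψ (π k) a) (s : G →₀ ℝ) (p : G) :
    (D.W s).1 (x * p) = θ ((D.W s).1 p) := by
  rw [W_val, W_val, map_sum, ← π.sum_comp]
  refine Finset.sum_congr rfl fun k _ => ?_
  rw [D.mm_x hq π hi, hθ]

theorem B_x {x : G} (hq : ∀ r p u, D.q r (x * p) u = D.q r p u) (π : K ≃ K)
    (hi : ∀ p u k, D.ind (x * p) u (π k) = D.ind p u k) (θ : R →+* R)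
    (hθ : ∀ k a, θ (D.ψ k a) = D.ψ (π k) a) (u : E) (s : G →₀ ℝ) (p : G) :
    (D.B u s).1 (x * p) = θ ((D.B u s).1 p) := by
  rw [B_val, B_val, map_sum, ← π.sum_comp]
  refine Finset.sum_congr rfl fun k _ => ?_
  rw [D.mm_x hq π hi, hθ, hi]

/-! ### bounds -/

theorem M_norm (s : G →₀ ℝ) (hs : ∀ r, 0 ≤ s r) (k : K) : ‖D.M s k‖ ≤ s.sum fun _ t => t := by
  unfold M Finsupp.sum
  refine (norm_sum_le _ _).trans (Finset.sum_le_sum fun r _ => ?_)
  rw [norm_smul, Real.norm_eq_abs, abs_of_nonneg (hs r)]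
  exact mul_le_of_le_one_right (hs r) (D.norm_mL r k)

/-- a bound of all fields for masses at most `2` -/
theorem exists_bd : ∃ CB : ℝ, ∀ s : G →₀ ℝ, (∀ r, 0 ≤ s r) → (s.sum fun _ t => t) ≤ 2 →
    ‖D.W s‖ ≤ CB ∧ (∀ u, ‖D.B u s‖ ≤ CB) ∧ ∀ u v, ‖D.B' u v s‖ ≤ CB := by
  let c : Polynomial ℝ → ℝ := fun P => ∑ i ∈ Finset.range (P.natDegree + 1), |P.coeff i| * 2 ^ i
  have hc : ∀ P, 0 ≤ c P := fun P => Finset.sum_nonneg fun i _ => by positivity
  let P1 := Polynomial.derivative D.P
  let P2 := Polynomial.derivative P1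
  let S := ∑ k, ‖D.ψ k‖
  have hS : 0 ≤ S := Finset.sum_nonneg fun k _ => norm_nonneg _
  have hl : ∀ (k : K) (F : lp (fun _ : G => A) ∞) (C : ℝ), ‖F‖ ≤ C →
      ‖lft (D.ψ k) F‖ ≤ ‖D.ψ k‖ * C := fun k F C hF => by
    refine lp.norm_le_of_forall_le (mul_nonneg (norm_nonneg _) ((norm_nonneg _).trans hF))
      fun p => ?_
    exact ((D.ψ k).le_opNorm _).trans (mul_le_mul_of_nonneg_left ((lp.norm_apply_le_norm
          (by simp) F p).trans hF) (norm_nonneg _))
  refine ⟨S * (c D.P + c P1 + c P2), fun s hs h2 => ⟨?_, fun u => ?_, fun u v => ?_⟩⟩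
  · unfold W
    refine (norm_sum_le _ _).trans ?_
    have : ∀ k ∈ Finset.univ, ‖lft (D.ψ k) (Polynomial.aeval (D.M s k) D.P)‖ ≤
        ‖D.ψ k‖ * (c D.P + c P1 + c P2) := fun k _ => by
      refine hl k _ _ ((aeval_norm_le D.P (by norm_num : (0:ℝ) ≤ 2)
        ((D.M_norm s hs k).trans h2)).trans ?_)
      have h1 := hc P1; have h3 := hc P2
      change c D.P ≤ _
      linarith
    refine (Finset.sum_le_sum this).trans ?_
    rw [← Finset.sum_mul]
  · unfold B
    refine (norm_sum_le _ _).trans ?_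
    have : ∀ k ∈ Finset.univ, ‖lft (D.ψ k) (Polynomial.aeval (D.M s k)
        (Polynomial.derivative D.P) * D.iL u k)‖ ≤
        ‖D.ψ k‖ * (c D.P + c P1 + c P2) := fun k _ => by
      refine hl k _ _ ((norm_mul_le _ _).trans ?_)
      have h0 := aeval_norm_le P1 (by norm_num : (0:ℝ) ≤ 2) ((D.M_norm s hs k).trans h2)
      have h1 := hc D.P; have h3 := hc P2
      have h4 := mul_le_mul h0 (D.norm_iL u k) (norm_nonneg _) (hc P1)
      refine h4.trans ?_
      change c P1 * 1 ≤ _
      linarith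
    refine (Finset.sum_le_sum this).trans ?_
    rw [← Finset.sum_mul]
  · unfold B'
    refine (norm_sum_le _ _).trans ?_
    have : ∀ k ∈ Finset.univ, ‖lft (D.ψ k) (Polynomial.aeval (D.M s k)
        (Polynomial.derivative (Polynomial.derivative D.P)) * (D.iL u k * D.iL v k))‖ ≤
        ‖D.ψ k‖ * (c D.P + c P1 + c P2) := fun k _ => by
      refine hl k _ _ ((norm_mul_le _ _).trans ?_)
      have h0 := aeval_norm_le P2 (by norm_num : (0:ℝ) ≤ 2) ((D.M_norm s hs k).trans h2)
      have h1 := hc D.P; have h3 := hc P1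
      have h5 : ‖D.iL u k * D.iL v k‖ ≤ 1 := (norm_mul_le _ _).trans
        (mul_le_one₀ (D.norm_iL u k) (norm_nonneg _) (D.norm_iL v k))
      have h4 := mul_le_mul h0 h5 (norm_nonneg _) (hc P2)
      refine h4.trans ?_
      change c P2 * 1 ≤ _
      linarith
    refine (Finset.sum_le_sum this).trans ?_
    rw [← Finset.sum_mul]

end WS

end Vale.Agent.P184.H460
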