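import Vale.Agent.P184.Ex.GBase

/-!
# Block G3b: the action of the centralizer, the twist, the twisted trace
-/

open scoped Matrix Matrix.Norms.L2Operator Kronecker ENNReal

namespace Vale.Agent.P184.H57

open Vale.Agent.P184.Un Ker

set_option linter.unusedSectionVars false

universe u

theorem norm_entry_le {n : Type*} [Fintype n] [DecidableEq n] (A : Matrix n n ℂ) (i j : n) :
    ‖A i j‖ ≤ ‖A‖ := by
  have h := Matrix.l2_opNorm_mulVec A (EuclideanSpace.single j (1 : ℂ))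
  rw [PiLp.norm_single, norm_one, mul_one] at h
  refine le_trans ?_ h
  have h2 := PiLp.norm_apply_le
    (WithLp.toLp 2 (A.mulVec (EuclideanSpace.single j (1 : ℂ)).ofLp) : EuclideanSpace ℂ n) i
  refine le_trans (le_of_eq ?_) h2
  simp

theorem norm_trace_le {n : Type*} [Fintype n] [DecidableEq n] (A : Matrix n n ℂ) :
    ‖A.trace‖ ≤ Fintype.card n * ‖A‖ := by
  rw [Matrix.trace]
  refine (norm_sum_le _ _).trans ?_
  refine (Finset.sum_le_sum fun i _ => norm_entry_le A i i).trans ?_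
  simp

section

variable {G : Type u} [Group G] {x : G} {S : Finset G} {ε : ℝ} (D : FData G x S ε)
  (K : Cliff D.m D.C) (q : ℕ) [NeZero q]

theorem kron_unit_left : ((1 : Matrix (Fin q) (Fin q) ℂ) ⊗ₖ K.Λᴴ) *
    ((1 : Matrix (Fin q) (Fin q) ℂ) ⊗ₖ K.Λ) = 1 := by
  rw [← Matrix.mul_kronecker_mul, K.Λ_star, one_mul, Matrix.one_kronecker_one]

theorem kron_unit_right : ((1 : Matrix (Fin q) (Fin q) ℂ) ⊗ₖ K.Λ) *
    ((1 : Matrix (Fin q) (Fin q) ℂ) ⊗ₖ K.Λᴴ) = 1 := by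
  rw [← Matrix.mul_kronecker_mul, K.Λ_star', one_mul, Matrix.one_kronecker_one]

theorem norm_kron_unit : ‖((1 : Matrix (Fin q) (Fin q) ℂ) ⊗ₖ K.Λᴴ)‖ = 1 := by
  have h := CStarRing.norm_star_mul_self (x := ((1 : Matrix (Fin q) (Fin q) ℂ) ⊗ₖ K.Λᴴ))
  rw [Matrix.star_eq_conjTranspose, Matrix.conjTranspose_kronecker, Matrix.conjTranspose_one,
    Matrix.conjTranspose_conjTranspose, kron_unit_right, norm_one] at h
  nlinarith [norm_nonneg ((1 : Matrix (Fin q) (Fin q) ℂ) ⊗ₖ K.Λᴴ)]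

/-- The action of the centralizer. -/
noncomputable def fσ (c : G) : RR D K q →+* RR D K q where
  toFun b := b.comp (D.act c⁻¹)
  map_one' := rfl
  map_mul' _ _ := rfl
  map_zero' := rfl
  map_add' _ _ := rfl

/-- The twist. -/
noncomputable def fθ : RR D K q →+* RR D K q where
  toFun b := ⟨fun ω => ((1 : Matrix (Fin q) (Fin q) ℂ) ⊗ₖ K.Λᴴ) * b ω *
    ((1 : Matrix (Fin q) (Fin q) ℂ) ⊗ₖ K.Λ), by fun_prop⟩
  map_one' := by
    ext1 ω
    simp [kron_unit_left]
  map_mul' a b := by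
    ext1 ω
    simp only [ContinuousMap.mul_apply, ContinuousMap.coe_mk]
    calc _ = ((1 : Matrix (Fin q) (Fin q) ℂ) ⊗ₖ K.Λᴴ) * a ω * 1 * b ω *
          ((1 : Matrix (Fin q) (Fin q) ℂ) ⊗ₖ K.Λ) := by simp only [mul_assoc, one_mul]
      _ = _ := by rw [← kron_unit_right D K q]; simp only [mul_assoc]
  map_zero' := by
    ext1 ω
    simp
  map_add' a b := by
    ext1 ω
    simp [mul_add, add_mul]

/-- The twisted trace. -/
noncomputable def fT : RR D K q →L[ℂ] ℂ :=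
  LinearMap.mkContinuous
    { toFun := fun b => D.φ ⟨fun ω => (b ω * ((1 : Matrix (Fin q) (Fin q) ℂ) ⊗ₖ K.Λᴴ)).trace,
        by fun_prop⟩
      map_add' := fun a b => by
        rw [← map_add]
        congr 1
        ext1 ω
        simp [add_mul]
      map_smul' := fun c a => by
        rw [RingHom.id_apply, ← map_smul]
        congr 1
        ext1 ω
        simp } (‖D.φ‖ * ((q * Fintype.card K.κ : ℕ) : ℝ)) (fun b => by
      rw [mul_assoc]
      refine (D.φ.le_opNorm _).trans (mul_le_mul_of_nonneg_left ?_ (norm_nonneg _))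
      rw [ContinuousMap.norm_le _ (by positivity)]
      intro ω
      refine (norm_trace_le _).trans ?_
      rw [Fintype.card_prod, Fintype.card_fin]
      refine mul_le_mul_of_nonneg_left ?_ (by positivity)
      refine (norm_mul_le _ _).trans ?_
      rw [norm_kron_unit, mul_one]
      exact b.norm_coe_le_norm ω)

theorem fT_apply (b : RR D K q) : fT D K q b =
    D.φ ⟨fun ω => (b ω * ((1 : Matrix (Fin q) (Fin q) ℂ) ⊗ₖ K.Λᴴ)).trace, by fun_prop⟩ := rfl

theorem fσ_cont (c : G) : Continuous (fσ D K q c) :=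
  ContinuousMap.continuous_precomp (D.act c⁻¹)

theorem fθ_cont : Continuous (fθ D K q) := by
  have h : ∀ b, fθ D K q b =
      ContinuousMap.const D.Ω ((1 : Matrix (Fin q) (Fin q) ℂ) ⊗ₖ K.Λᴴ) * b *
        ContinuousMap.const D.Ω ((1 : Matrix (Fin q) (Fin q) ℂ) ⊗ₖ K.Λ) := fun b => rfl
  have h2 : (fθ D K q : RR D K q → RR D K q) = fun b =>
      ContinuousMap.const D.Ω ((1 : Matrix (Fin q) (Fin q) ℂ) ⊗ₖ K.Λᴴ) * b *
        ContinuousMap.const D.Ω ((1 : Matrix (Fin q) (Fin q) ℂ) ⊗ₖ K.Λ) := funext h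
  rw [h2]
  exact (continuous_const.mul continuous_id).mul continuous_const

theorem fT_comm (a b : RR D K q) : fT D K q (a * b) = fT D K q (b * fθ D K q a) := by
  rw [fT_apply, fT_apply]
  congr 1
  ext1 ω
  show (a ω * b ω * _).trace = (b ω * (((1 : Matrix (Fin q) (Fin q) ℂ) ⊗ₖ K.Λᴴ) * a ω *
    ((1 : Matrix (Fin q) (Fin q) ℂ) ⊗ₖ K.Λ)) * ((1 : Matrix (Fin q) (Fin q) ℂ) ⊗ₖ K.Λᴴ)).trace
  rw [mul_assoc (a ω), Matrix.trace_mul_comm (a ω)]
  congr 1
  simp only [mul_assoc]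
  rw [kron_unit_right, mul_one]

theorem fT_σ (c : G) (hc : c * x = x * c) (a : RR D K q) :
    fT D K q (fσ D K q c a) = fT D K q a := by
  have hc' : c⁻¹ * x = x * c⁻¹ := by
    rw [inv_mul_eq_iff_eq_mul, ← mul_assoc, hc, mul_inv_cancel_right]
  rw [fT_apply, fT_apply]
  exact D.φ_inv c⁻¹ hc' ⟨fun ω => (a ω * ((1 : Matrix (Fin q) (Fin q) ℂ) ⊗ₖ K.Λᴴ)).trace,
    by fun_prop⟩

end

end Vale.Agent.P184.H57
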