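import Vale.Agent.P184.Ex.Nrm

/-!
# The masses of the colours, bounds for the symmetry
-/

open scoped Matrix Matrix.Norms.L2Operator Kronecker ENNReal

namespace Vale.Agent.P184.H159

open Vale.Agent.P184.Un Vale.Agent.P184.H57 Vale.Agent.P184.H57.Ker

set_option linter.unusedSectionVars false

universe u

section

variable {G : Type u} [Group G] {x : G} {S : Finset G} {ε : ℝ} (D : FData G x S ε)
  (K : Cliff D.m D.C) (q : ℕ) [NeZero q]

theorem Mk_eq (s : G →₀ ℝ) (p : G) (ω : D.Ω) (k : ZMod D.m × D.C) :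
    Mk D s p ω k = s.sum fun r t => t * open Classical in
      ∑ u, if D.col p u ω = k then D.q r p u else 0 := by
  classical
  unfold Mk Finsupp.sum
  simp_rw [Finset.mul_sum]
  rw [Finset.sum_comm]
  refine Finset.sum_congr rfl fun u _ => ?_
  split_ifs with h
  · rfl
  · simp

theorem sumq_nonneg (s : G →₀ ℝ) (hs : ∀ r, 0 ≤ s r) (p : G) (u : D.E) :
    0 ≤ s.sum fun r t => t * D.q r p u :=
  Finsupp.sum_nonneg fun r _ => mul_nonneg (hs r) (D.q_nonneg r p u)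

theorem Mk_nonneg (s : G →₀ ℝ) (hs : ∀ r, 0 ≤ s r) (p : G) (ω : D.Ω) (k : ZMod D.m × D.C) :
    0 ≤ Mk D s p ω k := by
  classical
  unfold Mk
  refine Finset.sum_nonneg fun u _ => ?_
  split_ifs
  · exact sumq_nonneg D s hs p u
  · exact le_rfl

theorem Mk_sum (s : G →₀ ℝ) (p : G) (ω : D.Ω) : ∑ k, Mk D s p ω k = mass s := by
  classical
  unfold Mk
  rw [Finset.sum_comm]
  have h : ∀ u : D.E, ∑ k : ZMod D.m × D.C,
      (if D.col p u ω = k then s.sum (fun r t => t * D.q r p u) else 0) =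
      s.sum fun r t => t * D.q r p u := fun u => by
    rw [Finset.sum_ite_eq, if_pos (Finset.mem_univ _)]
  simp_rw [h]
  unfold mass Finsupp.sum
  rw [Finset.sum_comm]
  refine Finset.sum_congr rfl fun r _ => ?_
  rw [← Finset.mul_sum, D.q_sum, mul_one]

theorem Mk_ne {s : G →₀ ℝ} {p : G} {ω : D.Ω} {k : ZMod D.m × D.C} (h : Mk D s p ω k ≠ 0) :
    ∃ u, D.col p u ω = k := by
  classical
  by_contra hc
  push Not at hc
  refine h ?_
  unfold Mk
  exact Finset.sum_eq_zero fun u _ => if_neg (hc u)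

theorem Mk_card (s : G →₀ ℝ) (p : G) (ω : D.Ω) (F : ZMod D.m × D.C → ℝ)
    (hF : ∀ k, Mk D s p ω k = 0 → F k = 0) :
    Nat.card {k // F k ≠ 0} ≤ Fintype.card D.E := by
  classical
  have h : ∀ k : {k // F k ≠ 0}, ∃ u, D.col p u ω = k.1 := fun k =>
    Mk_ne D fun h0 => k.2 (hF _ h0)
  choose g hg using h
  rw [← Nat.card_eq_fintype_card]
  refine Nat.card_le_card_of_injective g fun a b hab => Subtype.ext ?_
  rw [← hg a, ← hg b, hab]

theorem Mk_fib (s : G →₀ ℝ) (p : G) (ω : D.Ω) (F : ZMod D.m × D.C → ℝ)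
    (hF : ∀ k, Mk D s p ω k = 0 → F k = 0) (c : D.C) :
    2 * Nat.card {j : ZMod D.m // F (j, c) ≠ 0} ≤ D.m := by
  refine le_trans (Nat.mul_le_mul_left 2 ?_) (D.fib p ω c)
  refine Nat.card_le_card_of_injective
    (fun j => ⟨j.1, Mk_ne D fun h0 => j.2 (hF _ h0)⟩) fun a b hab => Subtype.ext ?_
  exact congrArg (fun z => z.1) hab

theorem Mk_slow (s : G →₀ ℝ) (hs : ∀ r, 0 ≤ s r) (g : G) (hg : g ∈ S) (p : G) (ω : D.Ω) :
    ∑ k, |Mk D s (p * g) ω k - Mk D s p ω k| ≤ ε * mass s := by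
  classical
  have h1 : ∀ k, |Mk D s (p * g) ω k - Mk D s p ω k| ≤ s.sum fun r t => t *
      |(∑ u, if D.col (p * g) u ω = k then D.q r (p * g) u else 0) -
        ∑ u, if D.col p u ω = k then D.q r p u else 0| := fun k => by
    rw [Mk_eq, Mk_eq]
    unfold Finsupp.sum
    rw [← Finset.sum_sub_distrib]
    refine (Finset.abs_sum_le_sum_abs _ _).trans (Finset.sum_le_sum fun r _ => ?_)
    rw [← mul_sub, abs_mul, abs_of_nonneg (hs r)]
  refine (Finset.sum_le_sum fun k _ => h1 k).trans ?_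
  unfold Finsupp.sum mass
  rw [Finset.sum_comm, Finsupp.sum, Finset.mul_sum]
  refine Finset.sum_le_sum fun r _ => ?_
  rw [← Finset.mul_sum, mul_comm ε]
  refine mul_le_mul_of_nonneg_left ?_ (hs r)
  have h2 := D.slow g hg r p ω
  rw [Fintype.sum_prod_type]
  convert h2

theorem loc_col (p : G) : IsLocallyConstant fun (ω : D.Ω) (u : D.E) => D.col p u ω := by
  rw [IsLocallyConstant.iff_eventually_eq]
  intro ω
  have h : ∀ u, ∀ᶠ ω' in nhds ω, D.col p u ω' = D.col p u ω := fun u =>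
    (D.col p u).isLocallyConstant.eventually_eq ω
  filter_upwards [Filter.eventually_all.2 h] with ω' hω
  funext u
  exact hω u

theorem loc_Mk (s : G →₀ ℝ) (p : G) : IsLocallyConstant fun ω : D.Ω => Mk D s p ω := by
  classical
  have h := (loc_col D p).comp fun (v : D.E → ZMod D.m × D.C) (k : ZMod D.m × D.C) =>
    ∑ u, if v u = k then s.sum (fun r t => t * D.q r p u) else 0
  convert h using 1
  funext ω k
  unfold Mk
  simp only [Function.comp]

/-- The values of the polynomial. -/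
noncomputable def PM (P : Polynomial ℝ) (s : G →₀ ℝ) (p : G) (ω : D.Ω) (k : ZMod D.m × D.C) : ℝ :=
  P.eval (Mk D s p ω k)

theorem fW_apply (P : Polynomial ℝ) (s : G →₀ ℝ) (p : G) (ω : D.Ω) :
    ((fW D K q P s).1 p) ω = cc K q (PM D P s p ω) := rfl

/-- Assumptions on the polynomial. -/
structure PH (P : Polynomial ℝ) (η : ℝ) (n : ℕ) : Prop where
  nn : 0 ≤ η
  zero : P.eval 0 = 0
  app : ∀ t ∈ Set.Icc (0 : ℝ) 2, |P.eval t - Real.sqrt t| ≤ η
  small : η * Real.sqrt n ≤ 1 / 10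

variable {P : Polynomial ℝ} {η : ℝ} (hP : PH P η (Fintype.card D.E))

include hP

theorem PM_zero (s : G →₀ ℝ) (p : G) (ω : D.Ω) (k : ZMod D.m × D.C) (h : Mk D s p ω k = 0) :
    PM D P s p ω k = 0 := by
  unfold PM
  rw [h, hP.zero]

theorem PM_bounds {s : G →₀ ℝ} (hs : Reg (1 / 4) s) (p : G) (ω : D.Ω) :
    ∑ k, PM D P s p ω k ^ 2 ≤ 4 ∧ 1 / 2 ≤ ∑ k, PM D P s p ω k ^ 2 := by
  have hm := Mk_sum D s p ω
  have h1 := abs_lt.1 hs.2
  have h := poly_norm P η hP.nn hP.zero hP.app (Mk D s p ω) (Mk_nonneg D s hs.1 p ω)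
    (by rw [hm]; linarith) (Fintype.card D.E) (Mk_card D s p ω _ fun k hk => hk)
  rw [hm] at h
  have h2 := abs_le.1 (h.trans hP.small)
  have h3 : Real.sqrt (mass s) ≤ 3 / 2 := by
    rw [Real.sqrt_le_left (by norm_num)]
    linarith
  have h4 : (4 / 5 : ℝ) + 1 / 20 ≤ Real.sqrt (mass s) := by
    refine Real.le_sqrt_of_sq_le ?_
    norm_num
    linarith
  have h0 : 0 ≤ ∑ k, P.eval (Mk D s p ω k) ^ 2 := Finset.sum_nonneg fun k _ => sq_nonneg _
  have h5 := Real.sq_sqrt h0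
  have h6 := Real.sqrt_nonneg (∑ k, P.eval (Mk D s p ω k) ^ 2)
  change ∑ k, P.eval (Mk D s p ω k) ^ 2 ≤ 4 ∧ 1 / 2 ≤ ∑ k, P.eval (Mk D s p ω k) ^ 2
  constructor
  · nlinarith
  · nlinarith

theorem qf_bounds {s : G →₀ ℝ} (hs : Reg (1 / 4) s) (p : G) (ω : D.Ω) :
    qf (PM D P s p ω) ≤ 4 ∧ 1 / 4 ≤ qf (PM D P s p ω) := by
  have h := PM_bounds D hP hs p ω
  refine ⟨(qf_le _).trans h.1, ?_⟩
  have h2 := qf_ge (PM D P s p ω) fun c =>
    Mk_fib D s p ω _ (PM_zero D hP s p ω) c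
  linarith [h.2]

theorem norm_W {s : G →₀ ℝ} (hs : Reg (1 / 4) s) : ‖fW D K q P s‖ ≤ 2 := by
  refine lp.norm_le_of_forall_le (by norm_num) fun p => ?_
  refine (ContinuousMap.norm_le _ (by norm_num)).2 fun ω => ?_
  have h1 : ‖((fW D K q P s).1 p) ω‖ ≤ Real.sqrt (qf (PM D P s p ω)) := by
    rw [fW_apply]
    exact norm_cc K q _
  refine h1.trans ?_
  rw [Real.sqrt_le_left (by norm_num)]
  linarith [(qf_bounds D hP hs p ω).1]

theorem W_slow {s : G →₀ ℝ} (hs : Reg (1 / 4) s) (g : G) (hg : g ∈ S) (p : G) :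
    ‖(fW D K q P s).1 (p * g) - (fW D K q P s).1 p‖ ≤
      Real.sqrt (2 * ε) + 2 * η * Real.sqrt (2 * (Fintype.card D.E : ℕ)) := by
  have h0 : 0 ≤ Real.sqrt (2 * ε) + 2 * η * Real.sqrt (2 * (Fintype.card D.E : ℕ)) :=
    add_nonneg (Real.sqrt_nonneg _) (mul_nonneg (mul_nonneg zero_le_two hP.nn)
      (Real.sqrt_nonneg _))
  refine (ContinuousMap.norm_le _ h0).2 fun ω => ?_
  rw [ContinuousMap.sub_apply, fW_apply, fW_apply, cc_sub]
  refine (norm_cc_le K q _).trans ?_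
  have h1 := abs_lt.1 hs.2
  have hm : 0 ≤ mass s := by linarith
  have hsl := Mk_slow D s hs.1 g hg p ω
  have hε : ε * mass s ≤ 2 * ε := by
    have h3 : 0 ≤ ε * mass s := le_trans (Finset.sum_nonneg fun k _ => abs_nonneg _) hsl
    have h4 : 0 ≤ ε := by
      by_contra hc
      push Not at hc
      have : 0 < mass s := by linarith
      nlinarith
    nlinarith
  refine (poly_slow P η hP.nn hP.zero hP.app (Mk D s (p * g) ω) (Mk D s p ω)
    (Mk_nonneg D s hs.1 _ ω) (Mk_nonneg D s hs.1 _ ω) (by rw [Mk_sum]; linarith)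
    (by rw [Mk_sum]; linarith) (Fintype.card D.E) (Mk_card D s _ ω _ fun k hk => hk)
    (Mk_card D s _ ω _ fun k hk => hk)).trans ?_
  exact add_le_add_left (Real.sqrt_le_sqrt (hsl.trans hε)) _

end

end Vale.Agent.P184.H159
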