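import Vale.Agent.P184.Ex.G
import Vale.Agent.P184.Ex.E7

/-!
# Block G7: traces of idempotents from fields
-/

open scoped Matrix Matrix.Norms.L2Operator Kronecker ENNReal

namespace Vale.Agent.P184.H57

open Vale.Agent.P184.Un Ker

set_option linter.unusedSectionVars false

universe u

theorem P0_idem {m : ℕ} [NeZero m] {C : Type} [Fintype C] (K : Cliff m C) :
    P0 K * P0 K = P0 K := by
  unfold P0
  rw [smul_mul_smul_comm, mul_add, add_mul, add_mul, K.Γ_sq, one_mul, mul_one, one_mul,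
    show (1 + K.Γ + (K.Γ + 1) : Matrix K.κ K.κ ℂ) = (2 : ℂ) • (1 + K.Γ) by rw [two_smul]; abel,
    smul_smul]
  norm_num

theorem P1_idem {m : ℕ} [NeZero m] {C : Type} [Fintype C] (K : Cliff m C) :
    P1 K * P1 K = P1 K := by
  unfold P1
  rw [smul_mul_smul_comm, mul_sub, sub_mul, sub_mul, K.Γ_sq, one_mul, mul_one, one_mul,
    show (1 - K.Γ - (K.Γ - 1) : Matrix K.κ K.κ ℂ) = (2 : ℂ) • (1 - K.Γ) by rw [two_smul]; abel,
    smul_smul]
  norm_num

theorem P0_Λ {m : ℕ} [NeZero m] {C : Type} [Fintype C] (K : Cliff m C) :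
    K.Λ * P0 K = P0 K * K.Λ := by
  unfold P0
  rw [mul_smul_comm, smul_mul_assoc, mul_add, add_mul, K.Λ_Γ, mul_one, one_mul]

theorem P1_Λ {m : ℕ} [NeZero m] {C : Type} [Fintype C] (K : Cliff m C) :
    K.Λ * P1 K = P1 K * K.Λ := by
  unfold P1
  rw [mul_smul_comm, smul_mul_assoc, mul_sub, sub_mul, K.Λ_Γ, mul_one, one_mul]

theorem q_le_one {G : Type u} [Group G] {x : G} {S : Finset G} {ε : ℝ} (D : FData G x S ε)
    (r p : G) (u : D.E) : |D.q r p u| ≤ 1 := by
  rw [abs_of_nonneg (D.q_nonneg r p u), ← D.q_sum r p]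
  exact Finset.single_le_sum (fun u _ => D.q_nonneg r p u) (Finset.mem_univ u)

theorem tau_eq_zero_of_FData_pos {G : Type u} [Group G] {q : ℕ} [NeZero q] (e : Mat G q)
    (he : IsIdem e) :
    ∃ (S : Finset G) (ε : ℝ), 0 < ε ∧ ∀ x : G, Nonempty (FData G x S ε) →
      tau (ConjClasses.mk x) e = 0 := by
  obtain ⟨S, ε, hε, h⟩ := exists_V e he
  refine ⟨S, ε, hε, fun x ⟨D⟩ => ?_⟩
  obtain ⟨K⟩ := exists_cliff D.m D.C
  obtain ⟨P, κ, V, b, hκ, hκ1, hb0, hbs, v0, v1, v2, v3, v4, m0, m1, m2, m3⟩ := h x D K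
  obtain ⟨w1, w2, w3⟩ := V_inv D K q e he P κ V v0 v1 v2 v3 v4
  obtain ⟨CB, hCB0, hCB⟩ := fB_bd D K q P
  have hsel : ∀ y : G, ∃ s : G, IsConj x y → s⁻¹ * x * s = y := by
    intro y
    by_cases hy : IsConj x y
    · obtain ⟨s, hs⟩ := isConj_iff.1 hy
      exact ⟨s⁻¹, fun _ => by rw [inv_inv]; exact hs⟩
    · exact ⟨1, fun h => absurd h hy⟩
  choose ρ hρ using hsel
  have hmass : ∀ s : G →₀ ℝ, Reg κ s → mass s ≤ 2 := fun s hs => by
    have := (abs_lt.1 hs.2).2
    linarith
  let TD : TData G (RR D K q) :=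
    { x := x
      ρ := ρ
      ρ_spec := hρ
      T := fT D K q
      θ := fθ D K q
      θ_cont := fθ_cont D K q
      T_comm := fT_comm D K q
      σ := fσ D K q
      σ_cont := fσ_cont D K q
      T_σ := fT_σ D K q
      E := D.E
      fE := D.fE
      q := D.q
      q_bd := q_le_one D
      q_H := D.q_H
      q_x := D.q_x
      q_x' := D.q_x'
      κ := κ
      κ_pos := hκ
      κ_lt := hκ1
      W := fW D K q P
      B := fB D K q P
      B' := fB' D K q P
      B'_symm := fB'_symm D K q P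
      W1 := fW1 D K q P
      B1 := fB1 D K q P
      W1_eq := fun _ _ _ => rfl
      B1_eq := fun _ _ _ _ => rfl
      W_deriv := fW_deriv D K q P
      B_deriv := fB_deriv D K q P
      W_cont := fW_cont D K q P
      B_cont := fB_cont D K q P
      B'_cont := fB'_cont D K q P
      W_shift := fW_shift D K q P
      B_shift := fB_shift D K q P
      W_H := fW_H D K q P
      B_H := fB_H D K q P
      W_x := fW_x D K q P
      B_x := fB_x D K q P
      E0 := fE D K q e he.1 (P0 K)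
      E1 := fE D K q e he.1 (P1 K)
      E0_idem := by rw [fE_mul D K q e he, P0_idem]
      E1_idem := by rw [fE_mul D K q e he, P1_idem]
      E0_H := fun c _ => fE_H D K q e he.1 (P0 K) c
      E1_H := fun c _ => fE_H D K q e he.1 (P1 K) c
      E0_x := fE_x D K q e he.1 (P0 K) (P0_Λ K)
      E1_x := fE_x D K q e he.1 (P1 K) (P1_Λ K)
      V := V
      V_zero := v0
      V_left := v1
      V_right := v2
      V_E0 := v3
      V_E1 := v4
      V_shift := w1
      V_H := w2
      V_x := w3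
      b := b
      b_nonneg := hb0
      b_sum := hbs
      E0_maj := m0
      E1_maj := m1
      U_maj := m2
      V_maj := m3
      CB := CB
      B_bd := fun u s hs => ((hCB s hs.1 (hmass s hs)).2 u).1
      B'_bd := fun u v s hs => ((hCB s hs.1 (hmass s hs)).2 u).2 v }
  have key := TD.main
  have h1 := fE_trace D K q e he.1 ρ hρ
  have h2 : (∑' y : {y // IsConj x y}, fT D K q ((fE D K q e he.1 (P0 K)).e (ρ y) (x * ρ y))) =
      ∑' y : {y // IsConj x y}, fT D K q ((fE D K q e he.1 (P1 K)).e (ρ y) (x * ρ y)) := key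
  rw [h2, sub_self] at h1
  exact (mul_eq_zero.1 h1.symm).resolve_right K.tr_ne

theorem tau_eq_zero_of_FData' {G : Type u} [Group G] {q : ℕ} (e : Mat G q) (he : IsIdem e) :
    ∃ (S : Finset G) (ε : ℝ), 0 < ε ∧ ∀ x : G, Nonempty (FData G x S ε) →
      tau (ConjClasses.mk x) e = 0 := by
  rcases Nat.eq_zero_or_pos q with rfl | hq
  · refine ⟨∅, 1, one_pos, fun x _ => ?_⟩
    unfold tau
    simp
  · have : NeZero q := ⟨hq.ne'⟩
    exact tau_eq_zero_of_FData_pos e he

end Vale.Agent.P184.H57
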