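import Vale.Agent.P184.Ex.E0
import Vale.Agent.P184.Ex.F0
import Vale.Agent.P184.Ex.G1

/-!
# The coefficient algebra
-/

open scoped Matrix Matrix.Norms.L2Operator Kronecker ENNReal

namespace Vale.Agent.P184.H57

open Vale.Agent.P184.Un Ker

set_option linter.unusedSectionVars false

universe u

attribute [instance] FData.tΩ FData.cΩ FData.nΩ FData.hm FData.fC FData.fE Cliff.fκ Cliff.dκ

/-- Coefficient matrices. -/
abbrev MM {m : ℕ} [NeZero m] {C : Type} [Fintype C] (K : Cliff m C) (q : ℕ) :=
  Matrix (Fin q × K.κ) (Fin q × K.κ) ℂ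

theorem Cliff.nonempty {m : ℕ} [NeZero m] {C : Type} [Fintype C] (K : Cliff m C) :
    Nonempty K.κ := by
  by_contra h
  rw [not_nonempty_iff] at h
  exact K.tr_ne (by simp [Matrix.trace])

instance {m : ℕ} [NeZero m] {C : Type} [Fintype C] (K : Cliff m C) : Nonempty K.κ := K.nonempty

section

variable {G : Type u} [Group G] {x : G} {S : Finset G} {ε : ℝ} (D : FData G x S ε)
  (K : Cliff D.m D.C) (q : ℕ) [NeZero q]

/-- The coefficient algebra. -/
abbrev RR := C(D.Ω, MM K q)

instance : NormOneClass (MM K q) := inferInstance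

instance : NormOneClass (RR D K q) := inferInstance

instance : CompleteSpace (MM K q) := FiniteDimensional.complete ℂ _

instance : CompleteSpace (RR D K q) := inferInstance

end

end Vale.Agent.P184.H57
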