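import Vale.Agent.P184.Ex.GBase
import Vale.Agent.P184.Ex.G3

/-!
# Block G: definitions of the fields
-/

open scoped Matrix Matrix.Norms.L2Operator Kronecker ENNReal

namespace Vale.Agent.P184.H57

open Vale.Agent.P184.Un Ker

set_option linter.unusedSectionVars false

universe u

section

variable {G : Type u} [Group G] {x : G} {S : Finset G} {ε : ℝ} (D : FData G x S ε)
  (K : Cliff D.m D.C) (q : ℕ) [NeZero q]

/-- The matrices of the colours. -/
noncomputable def cH {m : ℕ} [NeZero m] {C : Type} [Fintype C] (K : Cliff m C) (q : ℕ)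
    (k : ZMod m × C) : MM K q := (1 : Matrix (Fin q) (Fin q) ℂ) ⊗ₖ K.ch k

open Classical in
/-- The masses of the colours. -/
noncomputable def Mk (s : G →₀ ℝ) (p : G) (ω : D.Ω) (k : ZMod D.m × D.C) : ℝ :=
  ∑ u, if D.col p u ω = k then s.sum (fun r t => t * D.q r p u) else 0

/-- functions of the colours are continuous -/
theorem col_lc (p : G) : IsLocallyConstant fun (ω : D.Ω) (u : D.E) => D.col p u ω := by
  rw [IsLocallyConstant.iff_eventually_eq]
  intro ω
  have h : ∀ u : D.E, ∀ᶠ ω' in nhds ω, D.col p u ω' = D.col p u ω := fun u =>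
    (D.col p u).isLocallyConstant.eventually_eq ω
  filter_upwards [Filter.eventually_all.2 h] with ω' hω
  funext u
  exact hω u

theorem cont_col {X : Type*} [TopologicalSpace X] (p : G) (F : (D.E → ZMod D.m × D.C) → X) :
    Continuous fun ω : D.Ω => F fun u => D.col p u ω :=
  ((col_lc D p).comp F).continuous

open Classical in
/-- indicator functions of the colours -/
noncomputable def fInd (p : G) (u : D.E) (k : ZMod D.m × D.C) : C(D.Ω, ℝ) :=
  ⟨fun ω => if D.col p u ω = k then 1 else 0,
    cont_col D p fun f => if f u = k then (1 : ℝ) else 0⟩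

/-- multiples of the matrices of the colours -/
noncomputable def fPsi (k : ZMod D.m × D.C) : C(D.Ω, ℝ) →L[ℝ] RR D K q :=
  LinearMap.mkContinuous
    { toFun := fun f => ⟨fun ω => ((f ω : ℝ) : ℂ) • cH K q k,
        (Complex.continuous_ofReal.comp f.continuous).smul continuous_const⟩
      map_add' := fun f g => by
        ext1 ω
        change ((f ω + g ω : ℝ) : ℂ) • cH K q k = (f ω : ℂ) • cH K q k + (g ω : ℂ) • cH K q k
        rw [Complex.ofReal_add, add_smul]
      map_smul' := fun c f => by
        ext1 ω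
        change ((c * f ω : ℝ) : ℂ) • cH K q k = (c : ℂ) • ((f ω : ℂ) • cH K q k)
        rw [Complex.ofReal_mul, mul_smul] } ‖cH K q k‖ (by
    intro f
    refine (ContinuousMap.norm_le _ (by positivity)).2 fun ω => ?_
    change ‖((f ω : ℝ) : ℂ) • cH K q k‖ ≤ _
    rw [norm_smul, mul_comm, Complex.norm_real]
    exact mul_le_mul_of_nonneg_left (f.norm_coe_le_norm ω) (norm_nonneg _))

theorem fPsi_apply (k : ZMod D.m × D.C) (f : C(D.Ω, ℝ)) (ω : D.Ω) :
    fPsi D K q k f ω = ((f ω : ℝ) : ℂ) • cH K q k := rfl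

/-- the abstract field -/
noncomputable def fWS (P : Polynomial ℝ) :
    H460.WS G C(D.Ω, ℝ) (RR D K q) (ZMod D.m × D.C) D.E where
  q := D.q
  q_nonneg := D.q_nonneg
  q_sum := D.q_sum
  ind := fInd D
  ind_bd p u k := by
    classical
    refine (ContinuousMap.norm_le _ zero_le_one).2 fun ω => ?_
    change ‖(if D.col p u ω = k then (1 : ℝ) else 0)‖ ≤ 1
    split_ifs <;> simp
  ψ := fPsi D K q
  P := P

theorem mm_apply (P : Polynomial ℝ) (s : G →₀ ℝ) (p : G) (k : ZMod D.m × D.C) (ω : D.Ω) :
    (fWS D K q P).mm s p k ω = Mk D s p ω k := by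
  classical
  induction s using Finsupp.induction_linear with
  | zero =>
      simp [H460.WS.mm, Mk]
  | add f g hf hg =>
      have h1 : (fWS D K q P).mm (f + g) p k = (fWS D K q P).mm f p k + (fWS D K q P).mm g p k := by
        unfold H460.WS.mm
        rw [Finsupp.sum_add_index']
        · intro r; rw [zero_smul]
        · intro r a b; rw [add_smul]
      have h2 : Mk D (f + g) p ω k = Mk D f p ω k + Mk D g p ω k := by
        unfold Mk
        rw [← Finset.sum_add_distrib]
        refine Finset.sum_congr rfl fun u _ => ?_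
        rw [Finsupp.sum_add_index' (by intro r; rw [zero_mul]) (by intro r a b; rw [add_mul])]
        split_ifs <;> simp
      rw [h1, h2, ← hf, ← hg]
      rfl
  | single r t =>
      unfold H460.WS.mm Mk
      rw [Finsupp.sum_single_index (by rw [zero_smul])]
      have h3 : ∀ u, (Finsupp.single r t).sum (fun r t => t * D.q r p u) = t * D.q r p u :=
        fun u => Finsupp.sum_single_index (by rw [zero_mul])
      simp only [h3]
      change t • (∑ u, D.q r p u • fInd D p u k : C(D.Ω, ℝ)) ω = _
      rw [ContinuousMap.sum_apply, Finset.smul_sum]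
      refine Finset.sum_congr rfl fun u _ => ?_
      change t • (D.q r p u • (if D.col p u ω = k then (1 : ℝ) else 0)) = _
      split_ifs <;> simp

theorem Mk_cont (s : G →₀ ℝ) (p : G) (k : ZMod D.m × D.C) : Continuous fun ω => Mk D s p ω k := by
  classical
  exact cont_col D p fun f => ∑ u, if f u = k then s.sum (fun r t => t * D.q r p u) else 0

theorem aeval_mm (P Q : Polynomial ℝ) (s : G →₀ ℝ) (p : G) (k : ZMod D.m × D.C) (ω : D.Ω) :
    Polynomial.aeval ((fWS D K q P).mm s p k) Q ω = Q.eval (Mk D s p ω k) := by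
  rw [Polynomial.aeval_continuousMap_apply, mm_apply]

theorem sum_ind {M : Type*} [AddCommMonoid M] [Module ℂ M] (κ : ZMod D.m × D.C)
    (a : ZMod D.m × D.C → ℝ) (b : ZMod D.m × D.C → M) :
    ∑ k, ((a k * (open Classical in if κ = k then (1 : ℝ) else 0) : ℝ) : ℂ) • b k =
      ((a κ : ℝ) : ℂ) • b κ := by
  classical
  rw [Finset.sum_eq_single κ]
  · rw [if_pos rfl, mul_one]
  · intro k _ hk
    rw [if_neg (Ne.symm hk), mul_zero, Complex.ofReal_zero, zero_smul]
  · intro h
    exact absurd (Finset.mem_univ _) h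

/-- The symmetry. -/
noncomputable def fW (P : Polynomial ℝ) (s : G →₀ ℝ) : Li G (RR D K q) :=
  ⟨fun p => ⟨fun ω => ∑ k, ((P.eval (Mk D s p ω k) : ℝ) : ℂ) • cH K q k, by
    refine continuous_finsetSum _ fun k _ => Continuous.smul (Complex.continuous_ofReal.comp ?_)
      continuous_const
    exact P.continuous.comp (Mk_cont D s p k)⟩, by
    have h : ∀ p, ((fWS D K q P).W s).1 p =
        ⟨fun ω => ∑ k, ((P.eval (Mk D s p ω k) : ℝ) : ℂ) • cH K q k, by
          refine continuous_finsetSum _ fun k _ => Continuous.smul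
            (Complex.continuous_ofReal.comp ?_) continuous_const
          exact P.continuous.comp (Mk_cont D s p k)⟩ := by
      intro p
      rw [H460.WS.W_val]
      ext1 ω
      rw [ContinuousMap.sum_apply]
      refine Finset.sum_congr rfl fun k _ => ?_
      change fPsi D K q k _ ω = _
      rw [fPsi_apply]
      congr 2
      exact aeval_mm D K q P P s p k ω
    have h2 := ((fWS D K q P).W s).2
    rw [show (((fWS D K q P).W s).1 : ∀ _ : G, RR D K q) = _ from funext h] at h2
    exact h2⟩

theorem fW_eq (P : Polynomial ℝ) (s : G →₀ ℝ) : fW D K q P s = (fWS D K q P).W s := by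
  apply Subtype.ext
  funext p
  rw [H460.WS.W_val]
  ext1 ω
  rw [ContinuousMap.sum_apply]
  refine Finset.sum_congr rfl fun k _ => ?_
  change _ = fPsi D K q k _ ω
  rw [fPsi_apply]
  congr 2
  exact (aeval_mm D K q P P s p k ω).symm

theorem fB_val_eq (P : Polynomial ℝ) (u : D.E) (s : G →₀ ℝ) (p : G) :
    ((fWS D K q P).B u s).1 p =
      ⟨fun ω => ((P.derivative.eval (Mk D s p ω (D.col p u ω)) : ℝ) : ℂ) •
        cH K q (D.col p u ω), by
          classical
          exact cont_col D p fun f => ((P.derivative.eval (∑ v, if f v = f u then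
            s.sum (fun r t => t * D.q r p v) else 0) : ℝ) : ℂ) • cH K q (f u)⟩ := by
  classical
  rw [H460.WS.B_val]
  ext1 ω
  rw [ContinuousMap.sum_apply]
  change ∑ k, fPsi D K q k (Polynomial.aeval ((fWS D K q P).mm s p k) P.derivative * fInd D p u k) ω
    = _
  simp only [fPsi_apply, ContinuousMap.mul_apply, aeval_mm]
  change ∑ k, ((P.derivative.eval (Mk D s p ω k) * (if D.col p u ω = k then (1 : ℝ) else 0) : ℝ) :
    ℂ) • cH K q k = _
  rw [sum_ind D (D.col p u ω) (fun k => P.derivative.eval (Mk D s p ω k)) (cH K q)]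
  rfl

/-- Its partial derivatives. -/
noncomputable def fB (P : Polynomial ℝ) (u : D.E) (s : G →₀ ℝ) : Li G (RR D K q) :=
  ⟨fun p => ⟨fun ω => ((P.derivative.eval (Mk D s p ω (D.col p u ω)) : ℝ) : ℂ) •
    cH K q (D.col p u ω), by
      classical
      exact cont_col D p fun f => ((P.derivative.eval (∑ v, if f v = f u then
        s.sum (fun r t => t * D.q r p v) else 0) : ℝ) : ℂ) • cH K q (f u)⟩, by
    have h2 := ((fWS D K q P).B u s).2
    rw [show (((fWS D K q P).B u s).1 : ∀ _ : G, RR D K q) = _ from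
      funext (fB_val_eq D K q P u s)] at h2
    exact h2⟩

theorem fB_eq (P : Polynomial ℝ) (u : D.E) (s : G →₀ ℝ) :
    fB D K q P u s = (fWS D K q P).B u s := by
  apply Subtype.ext
  funext p
  exact (fB_val_eq D K q P u s p).symm

open Classical in
theorem fB'_val_eq (P : Polynomial ℝ) (u v : D.E) (s : G →₀ ℝ) (p : G) :
    ((fWS D K q P).B' u v s).1 p =
      ⟨fun ω => if D.col p u ω = D.col p v ω then
        ((P.derivative.derivative.eval (Mk D s p ω (D.col p u ω)) : ℝ) : ℂ) •
        cH K q (D.col p u ω) else 0, by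
          exact cont_col D p fun f => if f u = f v then
            ((P.derivative.derivative.eval (∑ v, if f v = f u then
            s.sum (fun r t => t * D.q r p v) else 0) : ℝ) : ℂ) • cH K q (f u) else 0⟩ := by
  rw [H460.WS.B'_val]
  ext1 ω
  rw [ContinuousMap.sum_apply]
  change ∑ k, fPsi D K q k (Polynomial.aeval ((fWS D K q P).mm s p k) P.derivative.derivative *
    (fInd D p u k * fInd D p v k)) ω = _
  simp only [fPsi_apply, ContinuousMap.mul_apply, aeval_mm]
  change ∑ k, ((P.derivative.derivative.eval (Mk D s p ω k) *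
    ((if D.col p u ω = k then (1 : ℝ) else 0) * (if D.col p v ω = k then (1 : ℝ) else 0)) : ℝ) :
    ℂ) • cH K q k = if D.col p u ω = D.col p v ω then
        ((P.derivative.derivative.eval (Mk D s p ω (D.col p u ω)) : ℝ) : ℂ) •
        cH K q (D.col p u ω) else 0
  have h := sum_ind D (D.col p u ω) (fun k => P.derivative.derivative.eval (Mk D s p ω k) *
    (if D.col p v ω = k then (1 : ℝ) else 0)) (cH K q)
  refine (Finset.sum_congr rfl fun k _ => ?_).trans (h.trans ?_)
  · congr 2
    ring
  · by_cases hc : D.col p u ω = D.col p v ω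
    · rw [if_pos hc, if_pos hc.symm, mul_one]
    · rw [if_neg hc, if_neg (Ne.symm hc), mul_zero, Complex.ofReal_zero, zero_smul]

open Classical in
/-- Its second partial derivatives. -/
noncomputable def fB' (P : Polynomial ℝ) (u v : D.E) (s : G →₀ ℝ) : Li G (RR D K q) :=
  ⟨fun p => ⟨fun ω => if D.col p u ω = D.col p v ω then
    ((P.derivative.derivative.eval (Mk D s p ω (D.col p u ω)) : ℝ) : ℂ) •
    cH K q (D.col p u ω) else 0, by
      exact cont_col D p fun f => if f u = f v then
        ((P.derivative.derivative.eval (∑ v, if f v = f u then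
        s.sum (fun r t => t * D.q r p v) else 0) : ℝ) : ℂ) • cH K q (f u) else 0⟩, by
    have h2 := ((fWS D K q P).B' u v s).2
    rw [show (((fWS D K q P).B' u v s).1 : ∀ _ : G, RR D K q) = _ from
      funext (fB'_val_eq D K q P u v s)] at h2
    exact h2⟩

theorem fB'_eq (P : Polynomial ℝ) (u v : D.E) (s : G →₀ ℝ) :
    fB' D K q P u v s = (fWS D K q P).B' u v s := by
  apply Subtype.ext
  funext p
  exact (fB'_val_eq D K q P u v s p).symm

theorem fW1_val_eq (P : Polynomial ℝ) (r : G) (s : G →₀ ℝ) (p : G) :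
    ((fWS D K q P).W1 r s).1 p = ∑ u, (D.q r p u : ℂ) • (fB D K q P u s).1 p := by
  rw [H460.WS.W1_eq]
  simp only [fB_eq]
  rfl

theorem fB1_val_eq (P : Polynomial ℝ) (u : D.E) (r : G) (s : G →₀ ℝ) (p : G) :
    ((fWS D K q P).B1 u r s).1 p = ∑ v, (D.q r p v : ℂ) • (fB' D K q P u v s).1 p := by
  rw [H460.WS.B1_eq]
  simp only [fB'_eq]
  rfl

/-- Directional derivatives. -/
noncomputable def fW1 (P : Polynomial ℝ) (r : G) (s : G →₀ ℝ) : Li G (RR D K q) :=
  ⟨fun p => ∑ u, (D.q r p u : ℂ) • (fB D K q P u s).1 p, by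
    have h2 := ((fWS D K q P).W1 r s).2
    rw [show (((fWS D K q P).W1 r s).1 : ∀ _ : G, RR D K q) = _ from
      funext (fW1_val_eq D K q P r s)] at h2
    exact h2⟩

noncomputable def fB1 (P : Polynomial ℝ) (u : D.E) (r : G) (s : G →₀ ℝ) : Li G (RR D K q) :=
  ⟨fun p => ∑ v, (D.q r p v : ℂ) • (fB' D K q P u v s).1 p, by
    have h2 := ((fWS D K q P).B1 u r s).2
    rw [show (((fWS D K q P).B1 u r s).1 : ∀ _ : G, RR D K q) = _ from
      funext (fB1_val_eq D K q P u r s)] at h2
    exact h2⟩

theorem fW1_eq (P : Polynomial ℝ) (r : G) (s : G →₀ ℝ) :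
    fW1 D K q P r s = (fWS D K q P).W1 r s := by
  apply Subtype.ext
  funext p
  exact (fW1_val_eq D K q P r s p).symm

theorem fB1_eq (P : Polynomial ℝ) (u : D.E) (r : G) (s : G →₀ ℝ) :
    fB1 D K q P u r s = (fWS D K q P).B1 u r s := by
  apply Subtype.ext
  funext p
  exact (fB1_val_eq D K q P u r s p).symm

end

end Vale.Agent.P184.H57
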