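import Mathlib

/-! P184, block LAB (helper428), part 1: greedy colouring along increasing labels (deterministic part). -/

open Finset

namespace Vale.Agent.P184.H428

variable {V : Type*}

open Classical in
/-- a colour not in `S` if there is one -/
noncomputable def mex {d : ℕ} (S : Finset (Fin (d + 1))) : Fin (d + 1) :=
  if h : ∃ c, c ∉ S then Classical.choose h else 0

theorem mex_notMem {d : ℕ} {S : Finset (Fin (d + 1))} (h : S.card ≤ d) : mex S ∉ S := by
  have h' : ∃ c, c ∉ S := by
    by_contra hc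
    push Not at hc
    have : S = Finset.univ := Finset.eq_univ_iff_forall.2 hc
    rw [this, Finset.card_univ, Fintype.card_fin] at h
    omega
  unfold mex
  rw [dif_pos h']
  exact Classical.choose_spec h'

open Classical in
/-- greedy colouring truncated after `L` steps: the neighbours with larger label come first -/
noncomputable def gcol (N : V → Finset V) (d : ℕ) (u : V → ℝ) : ℕ → V → Fin (d + 1)
  | 0, _ => 0
  | L + 1, v => mex (((N v).filter (fun w => u v < u w)).image (gcol N d u L))

/-- there is an increasing path of length `L` starting at `v` -/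
def asc (N : V → Finset V) (u : V → ℝ) : ℕ → V → Prop
  | 0, _ => True
  | L + 1, v => ∃ w ∈ N v, u v < u w ∧ asc N u L w

theorem gcol_stable (N : V → Finset V) (d : ℕ) (u : V → ℝ) :
    ∀ (L : ℕ) (v : V), ¬ asc N u L v → ∀ M, L ≤ M → gcol N d u M v = gcol N d u L v := by
  intro L
  induction L with
  | zero => intro v h; exact absurd trivial h
  | succ L ih =>
    intro v h M hM
    obtain ⟨M', rfl⟩ : ∃ M', M = M' + 1 := ⟨M - 1, by omega⟩
    have hM' : L ≤ M' := by omega
    simp only [gcol]
    congr 1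
    apply Finset.image_congr
    intro w hw
    rw [Finset.coe_filter] at hw
    have hw' : ¬ asc N u L w := fun ha => h ⟨w, hw.1, hw.2, ha⟩
    exact ih w hw' M' hM'

theorem gcol_ne (N : V → Finset V) (d : ℕ) (u : V → ℝ) (hN : ∀ v, (N v).card ≤ d)
    {L : ℕ} {v w : V} (hv : ¬ asc N u (L + 1) v) (hw : w ∈ N v) (huw : u v < u w)
    {M : ℕ} (hM : L + 1 ≤ M) : gcol N d u M v ≠ gcol N d u M w := by
  classical
  obtain ⟨M', rfl⟩ : ∃ M', M = M' + 1 := ⟨M - 1, by omega⟩
  have hM' : L ≤ M' := by omega
  have hw' : ¬ asc N u L w := fun ha => hv ⟨w, hw, huw, ha⟩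
  have h1 : gcol N d u (M' + 1) w = gcol N d u M' w := by
    rw [gcol_stable N d u L w hw' (M' + 1) (by omega), gcol_stable N d u L w hw' M' hM']
  rw [h1]
  simp only [gcol]
  intro h
  have hcard : (((N v).filter (fun w => u v < u w)).image (gcol N d u M')).card ≤ d :=
    (Finset.card_image_le.trans (Finset.card_filter_le _ _)).trans (hN v)
  have := mex_notMem hcard
  apply this
  have h2 : gcol N d u M' w ∈ ((N v).filter (fun w => u v < u w)).image (gcol N d u M') :=
    Finset.mem_image_of_mem _ (Finset.mem_filter.2 ⟨hw, huw⟩)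
  convert h2 using 1

/-- the limit colour (`0` if the truncated colours do not stabilise) -/
def IsLim {d : ℕ} (N : V → Finset V) (u : V → ℝ) (v : V) (c : Fin (d + 1)) : Prop :=
  ∃ L, ∀ M, L ≤ M → gcol N d u M v = c

theorem IsLim.unique {d : ℕ} {N : V → Finset V} {u : V → ℝ} {v : V} {c c' : Fin (d + 1)}
    (h : IsLim N u v c) (h' : IsLim N u v c') : c = c' := by
  obtain ⟨L, hL⟩ := h
  obtain ⟨L', hL'⟩ := h'
  rw [← hL (max L L') (le_max_left _ _), hL' (max L L') (le_max_right _ _)]

open Classical in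
noncomputable def glim (N : V → Finset V) (d : ℕ) (u : V → ℝ) (v : V) : Fin (d + 1) :=
  if h : ∃ c : Fin (d + 1), IsLim N u v c then Classical.choose h else 0

theorem glim_eq {d : ℕ} {N : V → Finset V} {u : V → ℝ} {v : V} {c : Fin (d + 1)}
    (h : IsLim N u v c) : glim N d u v = c := by
  have h' : ∃ c : Fin (d + 1), IsLim N u v c := ⟨c, h⟩
  unfold glim
  rw [dif_pos h']
  exact (Classical.choose_spec h').unique h

theorem glim_eq_iff {d : ℕ} {N : V → Finset V} {u : V → ℝ} {v : V} {c : Fin (d + 1)} :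
    glim N d u v = c ↔ IsLim N u v c ∨ (c = 0 ∧ ∀ c' : Fin (d + 1), ¬ IsLim N u v c') := by
  by_cases h' : ∃ c : Fin (d + 1), IsLim N u v c
  · obtain ⟨c', hc'⟩ := h'
    rw [glim_eq hc']
    constructor
    · rintro rfl; exact Or.inl hc'
    · rintro (h | ⟨_, h⟩)
      · exact hc'.unique h
      · exact absurd hc' (h c')
  · have : glim N d u v = 0 := by unfold glim; rw [dif_neg h']
    rw [this]
    push Not at h'
    constructor
    · intro h; exact Or.inr ⟨h.symm, h'⟩
    · rintro (h | ⟨h, _⟩)
      · exact absurd h (h' c)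
      · exact h.symm

theorem isLim_of_not_asc {d : ℕ} {N : V → Finset V} {u : V → ℝ} {v : V} {L : ℕ}
    (h : ¬ asc N u L v) : IsLim (d := d) N u v (gcol N d u L v) :=
  ⟨L, fun M hM => gcol_stable N d u L v h M hM⟩

/-- properness of the limit colouring -/
theorem glim_ne (N : V → Finset V) (d : ℕ) (u : V → ℝ) (hN : ∀ v, (N v).card ≤ d)
    (hsymm : ∀ v w, w ∈ N v → v ∈ N w)
    {v w : V} (hv : ∃ L, ¬ asc N u L v) (hw : ∃ L, ¬ asc N u L w) (hvw : w ∈ N v)
    (hne : u v ≠ u w) : glim N d u v ≠ glim N d u w := by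
  obtain ⟨L, hL⟩ := hv
  obtain ⟨L', hL'⟩ := hw
  have e1 : glim N d u v = gcol N d u (max L L') v := by
    rw [glim_eq (isLim_of_not_asc hL), gcol_stable N d u L v hL _ (le_max_left _ _)]
  have e2 : glim N d u w = gcol N d u (max L L') w := by
    rw [glim_eq (isLim_of_not_asc hL'), gcol_stable N d u L' w hL' _ (le_max_right _ _)]
  rw [e1, e2]
  rcases lt_or_gt_of_ne hne with h | h
  · cases L with
    | zero => exact absurd trivial hL
    | succ L => exact gcol_ne N d u hN hL hvw h (le_max_left _ _)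
  · cases L' with
    | zero => exact absurd trivial hL'
    | succ L' => exact (gcol_ne N d u hN hL' (hsymm v w hvw) h (le_max_right _ _)).symm

/-- equivariance -/
theorem gcol_equiv (N : V → Finset V) (d : ℕ) (σ : V ≃ V) (hσ : ∀ v w, w ∈ N v ↔ σ w ∈ N (σ v))
    (u : V → ℝ) : ∀ (L : ℕ) (v : V), gcol N d (fun w => u (σ.symm w)) L (σ v) = gcol N d u L v := by
  classical
  intro L
  induction L with
  | zero => intro v; rfl
  | succ L ih =>
    intro v
    simp only [gcol]
    congr 1
    ext c
    simp only [Finset.mem_image, Finset.mem_filter, Equiv.symm_apply_apply]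
    constructor
    · rintro ⟨w, ⟨hw, huw⟩, hc⟩
      refine ⟨σ.symm w, ⟨?_, huw⟩, ?_⟩
      · rw [hσ, Equiv.apply_symm_apply]; exact hw
      · rw [← hc, ← ih (σ.symm w), Equiv.apply_symm_apply]
    · rintro ⟨w, ⟨hw, huw⟩, hc⟩
      refine ⟨σ w, ⟨(hσ v w).1 hw, ?_⟩, ?_⟩
      · rw [Equiv.symm_apply_apply]; exact huw
      · rw [← hc]; exact ih w

theorem isLim_equiv {d : ℕ} (N : V → Finset V) (σ : V ≃ V) (hσ : ∀ v w, w ∈ N v ↔ σ w ∈ N (σ v))
    (u : V → ℝ) (v : V) (c : Fin (d + 1)) :
    IsLim N (fun w => u (σ.symm w)) (σ v) c ↔ IsLim N u v c := by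
  unfold IsLim
  simp only [gcol_equiv N d σ hσ u]

theorem glim_equiv (N : V → Finset V) (d : ℕ) (σ : V ≃ V) (hσ : ∀ v w, w ∈ N v ↔ σ w ∈ N (σ v))
    (u : V → ℝ) (v : V) : glim N d (fun w => u (σ.symm w)) (σ v) = glim N d u v := by
  rw [glim_eq_iff]
  simp only [isLim_equiv N σ hσ u v]
  exact glim_eq_iff.1 rfl

/-! paths -/

open Classical in
/-- lists of `L+1` vertices starting at `v`, consecutive ones adjacent -/
noncomputable def paths (N : V → Finset V) : ℕ → V → Finset (List V)
  | 0, v => {[v]}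
  | L + 1, v => (N v).biUnion fun w => (paths N L w).image (List.cons v)

theorem paths_card (N : V → Finset V) (d : ℕ) (hN : ∀ v, (N v).card ≤ d) :
    ∀ (L : ℕ) (v : V), (paths N L v).card ≤ d ^ L := by
  classical
  intro L
  induction L with
  | zero => intro v; simp [paths]
  | succ L ih =>
    intro v
    simp only [paths]
    calc _ ≤ ∑ w ∈ N v, ((paths N L w).image (List.cons v)).card := Finset.card_biUnion_le
      _ ≤ ∑ w ∈ N v, d ^ L := Finset.sum_le_sum fun w _ => Finset.card_image_le.trans (ih w)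
      _ = (N v).card * d ^ L := by rw [Finset.sum_const, smul_eq_mul]
      _ ≤ d * d ^ L := Nat.mul_le_mul_right _ (hN v)
      _ = d ^ (L + 1) := by ring

theorem paths_length (N : V → Finset V) :
    ∀ (L : ℕ) (v : V) (l : List V), l ∈ paths N L v → l.length = L + 1 := by
  classical
  intro L
  induction L with
  | zero => intro v l hl; simp only [paths, Finset.mem_singleton] at hl; subst hl; rfl
  | succ L ih =>
    intro v l hl
    simp only [paths, Finset.mem_biUnion, Finset.mem_image] at hl
    obtain ⟨w, _, l', hl', rfl⟩ := hl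
    simp [ih w l' hl']

theorem asc_path (N : V → Finset V) (u : V → ℝ) :
    ∀ (L : ℕ) (v : V), asc N u L v →
      ∃ l ∈ paths N L v, l.Pairwise (fun a b => u a < u b) ∧ ∀ b ∈ l, u v ≤ u b := by
  classical
  intro L
  induction L with
  | zero => intro v _; exact ⟨[v], by simp [paths], by simp, by simp⟩
  | succ L ih =>
    intro v h
    obtain ⟨w, hw, huw, hasc⟩ := h
    obtain ⟨l, hl, hp, hle⟩ := ih w hasc
    refine ⟨v :: l, ?_, ?_, ?_⟩
    · simp only [paths, Finset.mem_biUnion, Finset.mem_image]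
      exact ⟨w, hw, l, hl, rfl⟩
    · rw [List.pairwise_cons]
      exact ⟨fun b hb => huw.trans_le (hle b hb), hp⟩
    · intro b hb
      rcases List.mem_cons.1 hb with rfl | hb
      · exact le_rfl
      · exact (huw.trans_le (hle b hb)).le

end Vale.Agent.P184.H428
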