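import Vale.Agent.P184.Ex.E4Defs

/-!
# E4 : Pfaffians of the words
-/

namespace Vale.Agent.P184.H552

open Vale.Agent.P184.H57

/-- restriction of the symbols -/
def rs {N : ℕ} (p : Fin (N + 1)) : (Fin (N + 1) → ℝ) ⊕ Fin (N + 1) → (Fin N → ℝ) ⊕ Fin N
  | .inl f => .inl fun i => f (p.succAbove i)
  | .inr j => match finSuccEquiv' p j with
    | some k => .inr k
    | none => .inl fun _ => 0

theorem rs_inr {N : ℕ} (p : Fin (N + 1)) (k : Fin N) : rs p (.inr (p.succAbove k)) = .inr k := by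
  simp [rs]

theorem pr_rs {N : ℕ} (p : Fin (N + 1)) (v w : (Fin (N + 1) → ℝ) ⊕ Fin (N + 1))
    (hv : v ≠ .inr p) (hw : w ≠ .inr p) : pr (rs p v) (rs p w) = pr v w := by
  rcases v with f | i
  · rcases w with g | j
    · rfl
    · have hj : j ≠ p := fun h => hw (by rw [h])
      obtain ⟨k, rfl⟩ := Fin.exists_succAbove_eq hj
      rw [rs_inr]
      rfl
  · have hi : i ≠ p := fun h => hv (by rw [h])
    obtain ⟨k, rfl⟩ := Fin.exists_succAbove_eq hi
    rw [rs_inr]
    rcases w with g | j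
    · rfl
    · have hj : j ≠ p := fun h => hw (by rw [h])
      obtain ⟨k', rfl⟩ := Fin.exists_succAbove_eq hj
      rw [rs_inr]
      rfl

theorem Pf_rs {N : ℕ} (p : Fin (N + 1)) (L : List ((Fin (N + 1) → ℝ) ⊕ Fin (N + 1)))
    (h : .inr p ∉ L) : Pf (L.map (rs p)) = Pf L :=
  Pf_map (rs p) L fun v hv w hw => pr_rs p v w (fun h' => h (h' ▸ hv)) (fun h' => h (h' ▸ hw))

/-- expansion of a form in the basis -/
theorem Pf_expand {N : ℕ} (f : Fin N → ℝ) (A B : List ((Fin N → ℝ) ⊕ Fin N)) :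
    Pf (A ++ .inl f :: B) = ∑ i, f i * Pf (A ++ .inl (Pi.single i 1) :: B) := by
  rw [← Pf_sum Finset.univ f (fun i => Pi.single i 1) A B]
  congr 4
  funext i
  simp [Pi.single_apply]

variable {G R : Type*} [Group G] [NormedRing R] [NormOneClass R] [NormedAlgebra ℂ R]
  [CompleteSpace R] (D : TData G R)

theorem sum_pf1 {N : ℕ} (w : Fin N → Lt) (c : Fin N → G) (u : Fin N → Option D.E)
    (f : Fin N → ℝ) : ∑ i, f i * pf1 D w c u i =
      Pf (.inl (fun _ => 1) :: .inl f :: List.ofFn (D.sy w c u)) :=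
  (Pf_expand f [.inl fun _ => 1] (List.ofFn (D.sy w c u))).symm

theorem sum_pf1_one {N : ℕ} (w : Fin N → Lt) (c : Fin N → G) (u : Fin N → Option D.E) :
    ∑ i, pf1 D w c u i = 0 := by
  have h := sum_pf1 D w c u fun _ => 1
  simp only [one_mul] at h
  rw [h]
  exact Pf_dup [] [] (List.ofFn (D.sy w c u)) (.inl fun _ => 1)

theorem sy_succAbove {N : ℕ} (w : Fin (N + 1) → Lt) (c : Fin (N + 1) → G)
    (u : Fin (N + 1) → Option D.E) (p : Fin (N + 1)) (k : Fin N) :
    rs p (D.sy w c u (p.succAbove k)) = D.sy (fun j => w (p.succAbove j))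
      (fun j => c (p.succAbove j)) (fun j => u (p.succAbove j)) k := by
  unfold TData.sy
  rcases hw : w (p.succAbove k) with _ | _ | _ <;> rcases hu : u (p.succAbove k) with _ | v <;>
    simp only [hw, hu, rs_inr] <;> rfl

theorem sy_ne {N : ℕ} (w : Fin N → Lt) (c : Fin N → G) (u : Fin N → Option D.E) (p l : Fin N)
    (h : l ≠ p) : D.sy w c u l ≠ .inr p := by
  unfold TData.sy
  split
  · exact Sum.inl_ne_inr
  · intro h'
    exact h (Sum.inr_injective h')

theorem cf_insert {N : ℕ} (w : Fin N → Lt) (c : Fin N → G) (u : Fin N → Option D.E)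
    (l : Fin (N + 1)) (h : G) (v : D.E) :
    D.cf (l.insertNth Lt.a w : Fin (N + 1) → Lt) (l.insertNth h c : Fin (N + 1) → G)
      (l.insertNth (some v) u : Fin (N + 1) → Option D.E) =
      (-1) ^ (l : ℕ) * ∑ i, D.q (c i) h v * pf1 D w c u i := by
  unfold TData.cf
  set w' : Fin (N + 1) → Lt := l.insertNth Lt.a w with hw'
  set c' : Fin (N + 1) → G := l.insertNth h c with hc'
  set u' : Fin (N + 1) → Option D.E := l.insertNth (some v) u with hu'
  have h1 : (fun j => w' (l.succAbove j)) = w := by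
    funext j
    simp [hw']
  have h2 : (fun j => c' (l.succAbove j)) = c := by
    funext j
    simp [hc']
  have h3 : (fun j => u' (l.succAbove j)) = u := by
    funext j
    simp [hu']
  have h4 : D.sy w' c' u' l = .inl fun i => D.q (c' i) h v := by
    unfold TData.sy
    simp [hw', hu', hc']
  have hmem : .inr l ∉ (.inl (fun _ => 1) :: List.ofFn (D.sy w' c' u') :
      List ((Fin (N + 1) → ℝ) ⊕ Fin (N + 1))) := by
    rw [List.mem_cons, List.mem_ofFn]
    rintro (h5 | ⟨k, h5⟩)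
    · exact Sum.inr_ne_inl h5
    · by_cases hk : k = l
      · rw [hk, h4] at h5
        exact Sum.inl_ne_inr h5
      · exact sy_ne D w' c' u' l k hk h5
  rw [← Pf_rs l _ hmem, List.map_cons, List.map_ofFn]
  have h5 : List.ofFn (rs l ∘ D.sy w' c' u') = (List.ofFn (D.sy w c u)).take l ++
      .inl (fun i => D.q (c i) h v) :: (List.ofFn (D.sy w c u)).drop l := by
    rw [ofFn_split _ l]
    have h6 : (fun k => (rs l ∘ D.sy w' c' u') (l.succAbove k)) = D.sy w c u := by
      funext k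
      rw [Function.comp_apply, sy_succAbove, h1, h2, h3]
    rw [h6, Function.comp_apply, h4]
    congr 2
    simp only [rs]
    congr 1
    funext i
    simp [hc']
  rw [h5, sum_pf1]
  have h7 := Pf_move [.inl fun _ => 1] ((List.ofFn (D.sy w c u)).take l)
    ((List.ofFn (D.sy w c u)).drop l) (.inl fun i => D.q (c i) h v)
  rw [List.take_append_drop] at h7
  have h8 : ((List.ofFn (D.sy w c u)).take l).length = l := by
    rw [List.length_take, List.length_ofFn]
    omega
  rw [h8] at h7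
  have h9 : (-1 : ℝ) ^ (l : ℕ) * (-1) ^ (l : ℕ) = 1 := by
    rw [← mul_pow]
    simp
  simp only [List.cons_append, List.nil_append] at h7
  rw [h7, ← mul_assoc, h9, one_mul]
  rfl

/-- a bound of Pfaffians depending only on the length -/
theorem exists_bound (m : ℕ) : ∃ C : ℝ, 0 ≤ C ∧ ∀ {N : ℕ} (L : List ((Fin N → ℝ) ⊕ Fin N)),
    L.length = m → (∀ f : Fin N → ℝ, .inl f ∈ L → ∀ i, |f i| ≤ 1) → |Pf L| ≤ C := by
  rcases Nat.even_or_odd m with hm | hm
  · obtain ⟨n, hn⟩ := hm
    refine ⟨(n : ℝ) ^ ((n : ℝ) / 2), by positivity, fun L hL h => ?_⟩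
    exact Pf_bound L n (by omega) fun f hf i _ => h f hf i
  · refine ⟨0, le_rfl, fun L hL _ => ?_⟩
    rw [Pf_odd L (hL ▸ hm), abs_zero]

theorem sy_le {N : ℕ} (w : Fin N → Lt) (c : Fin N → G) (u : Fin N → Option D.E) (f : Fin N → ℝ)
    (hf : .inl f ∈ List.ofFn (D.sy w c u)) (i : Fin N) : |f i| ≤ 1 := by
  rw [List.mem_ofFn] at hf
  obtain ⟨k, hk⟩ := hf
  unfold TData.sy at hk
  split at hk
  · have h1 := Sum.inl_injective hk
    rw [← h1]
    exact D.q_bd _ _ _
  · exact absurd hk Sum.inr_ne_inl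

theorem exists_cf_bound (N : ℕ) : ∃ C : ℝ, 0 ≤ C ∧ ∀ (w : Fin N → Lt) (c : Fin N → G)
    (u : Fin N → Option D.E), |D.cf w c u| ≤ C ∧ ∀ i, |pf1 D w c u i| ≤ C := by
  obtain ⟨C1, h1, hC1⟩ := exists_bound (N + 1)
  obtain ⟨C2, h2, hC2⟩ := exists_bound (N + 2)
  refine ⟨max C1 C2, le_max_of_le_left h1, fun w c u => ⟨?_, fun i => ?_⟩⟩
  · refine (hC1 _ (by simp) ?_).trans (le_max_left _ _)
    intro f hf i
    rw [List.mem_cons] at hf
    rcases hf with hf | hf
    · have := Sum.inl_injective hf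
      rw [this]
      simp
    · exact sy_le D w c u f hf i
  · refine (hC2 _ (by simp) ?_).trans (le_max_right _ _)
    intro f hf j
    rw [List.mem_cons, List.mem_cons] at hf
    rcases hf with hf | hf | hf
    · have := Sum.inl_injective hf
      rw [this]
      simp
    · have := Sum.inl_injective hf
      rw [this, Pi.single_apply]
      split_ifs <;> simp
    · exact sy_le D w c u f hf j

end Vale.Agent.P184.H552
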