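import Vale.Agent.P184.Ex.Loc
import Vale.Agent.P184.Ex.PfL

/-!
# E4b : insertion of a form
-/

open MeasureTheory
open scoped ENNReal

namespace Vale.Agent.P184.H552

open Vale.Agent.P184.H57 Vale.Agent.P184.H57.Ker

variable {G R : Type*} [Group G] [NormedRing R] [NormOneClass R] [NormedAlgebra ℂ R]
  [CompleteSpace R] (D : TData G R) (ψ : Bump D.κ)

theorem Pw_insertNth {N : ℕ} (w : Fin N → Lt) (c : Fin N → G) (u : Fin N → Option D.E)
    (l : Fin (N + 1)) (h : G) (o : Option D.E) (s : Fin N → ℝ) :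
    D.Pw (l.insertNth Lt.a w : Fin (N + 1) → Lt) (l.insertNth h c : Fin (N + 1) → G)
      (l.insertNth o u : Fin (N + 1) → Option D.E) (l.insertNth 0 s) =
      pre (fk D w c u s) l * D.lk (sN c s) .a h o * post (fk D w c u s) l := by
  unfold TData.Pw
  rw [prod_eq _ l, sN_insertNth]
  simp only [Fin.insertNth_apply_succAbove, Fin.insertNth_apply_same]
  rfl

theorem mark_insertNth {N : ℕ} (w : Fin N → Lt) (l : Fin (N + 1)) :
    (fun k => TData.mark (l.insertNth Lt.a w : Fin (N + 1) → Lt) (l.succAbove k)) =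
      TData.mark w := by
  funext k
  simp [TData.mark]

theorem ig_insert {N : ℕ} (w : Fin N → Lt) (c : Fin N → G) (u : Fin N → Option D.E)
    (l : Fin (N + 1)) (h : G) (o : Option D.E) (y : G) :
    D.ig ψ y (l.insertNth Lt.a w : Fin (N + 1) → Lt) (l.insertNth h c : Fin (N + 1) → G)
      (l.insertNth o u : Fin (N + 1) → Option D.E) =
      kI D ψ (TData.mark w) y fun s =>
        pre (fk D w c u s) l * D.lk (sN c s) .a h o * post (fk D w c u s) l := by
  have h1 := kI_insert D ψ (TData.mark (l.insertNth Lt.a w : Fin (N + 1) → Lt)) l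
    (by simp [TData.mark]) y (D.Pw (l.insertNth Lt.a w : Fin (N + 1) → Lt)
      (l.insertNth h c : Fin (N + 1) → G) (l.insertNth o u : Fin (N + 1) → Option D.E))
  rw [mark_insertNth] at h1
  simp only [Pw_insertNth] at h1
  exact h1

/-- one inserted form at position `h` in direction `r` -/
noncomputable def inK {N : ℕ} (w : Fin N → Lt) (c : Fin N → G) (u : Fin N → Option D.E)
    (l : ℕ) (r h : G) (s : Fin N → ℝ) : Ker G R :=
  ∑ v : D.E, (D.q r h v : ℂ) •
    (pre (fk D w c u s) l * D.lk (sN c s) .a h (some v) * post (fk D w c u s) l)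

theorem inK_e {N : ℕ} (w : Fin N → Lt) (c : Fin N → G) (u : Fin N → Option D.E)
    (l : ℕ) (r h : G) (s : Fin N → ℝ) (p p' : G) :
    (inK D w c u l r h s).e p p' =
      (pre (fk D w c u s) l * D.V (sN c s)).e p h *
        (diag (D.W1 r (sN c s)) * (D.E0 * post (fk D w c u s) l)).e h p' := by
  have h1 : ∀ v, (pre (fk D w c u s) l * D.lk (sN c s) .a h (some v) *
      post (fk D w c u s) l).e p p' = (pre (fk D w c u s) l * D.V (sN c s)).e p h *
        ((D.B v (sN c s)).1 h * (D.E0 * post (fk D w c u s) l).e h p') := by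
    intro v
    have h2 : pre (fk D w c u s) l * D.lk (sN c s) .a h (some v) * post (fk D w c u s) l =
        (pre (fk D w c u s) l * D.V (sN c s)) * dl h *
          (diag (D.B v (sN c s)) * (D.E0 * post (fk D w c u s) l)) := by
      simp only [TData.lk, mul_assoc]
    rw [h2, mul_dl_mul_e, diag_mul_e]
  have h3 : (inK D w c u l r h s).e p p' = ∑ v : D.E, (D.q r h v : ℂ) •
      (pre (fk D w c u s) l * D.lk (sN c s) .a h (some v) * post (fk D w c u s) l).e p p' := by
    have h2 := map_sum (eL (G := G) (R := R) p p') (fun v : D.E => (D.q r h v : ℂ) •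
      (pre (fk D w c u s) l * D.lk (sN c s) .a h (some v) * post (fk D w c u s) l)) Finset.univ
    simp only [map_smul] at h2
    exact h2
  rw [h3, diag_mul_e, D.W1_eq, Finset.sum_mul, Finset.mul_sum]
  refine Finset.sum_congr rfl fun v _ => ?_
  rw [h1 v, smul_mul_assoc, mul_smul_comm]

theorem inK_cont {N : ℕ} (w : Fin N → Lt) (c : Fin N → G) (u : Fin N → Option D.E)
    (l : ℕ) (h : G) (v : Option D.E) : ContinuousOn (fun s : Fin N → ℝ =>
      pre (fk D w c u s) l * D.lk (sN c s) .a h v * post (fk D w c u s) l) (rg D c) :=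
  ((takeprod_cont (fun l t => fk D w c u t l) (fun _ => lk_cont D c _ _ _) l).mul
    (lk_cont D c _ _ _)).mul (dropprod_cont (fun l t => fk D w c u t l)
      (fun _ => lk_cont D c _ _ _) l)

theorem ch_nonneg {N : ℕ} (z : {y // IsConj D.x y} × (Fin N → G)) : 0 ≤ D.ch z := by
  unfold TData.ch
  refine Finset.prod_nonneg fun i _ => add_nonneg (D.b_nonneg _) ?_
  exact (cv_summable D.b_nonneg D.b_nonneg D.b_sum D.b_sum).2.1 _

/-- insertion of a form for fixed points -/
theorem ins_fix {N : ℕ} (w : Fin (N + 1) → Lt) (z : {y // IsConj D.x y} × (Fin (N + 1) → G))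
    (u : Fin (N + 1) → Option D.E) (l : Fin (N + 2)) (i : Fin (N + 1)) :
    HasSum (fun h => ∑ v : D.E, (D.q (z.2 i) h v : ℂ) *
      D.ig ψ z.1 (l.insertNth Lt.a w : Fin (N + 2) → Lt) (l.insertNth h z.2 : Fin (N + 2) → G)
        (l.insertNth (some v) u : Fin (N + 2) → Option D.E))
      (kI D ψ (TData.mark w) z.1 (insK D w z.2 u l i)) := by
  have h0 : ∀ h, kI D ψ (TData.mark w) z.1 (inK D w z.2 u l (z.2 i) h) =
      ∑ v : D.E, (D.q (z.2 i) h v : ℂ) *
      D.ig ψ z.1 (l.insertNth Lt.a w : Fin (N + 2) → Lt) (l.insertNth h z.2 : Fin (N + 2) → G)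
        (l.insertNth (some v) u : Fin (N + 2) → Option D.E) := by
    intro h
    simp only [ig_insert]
    exact kI_sum D ψ Finset.univ z.2 (TData.mark w) z.1 (fun v => (D.q (z.2 i) h v : ℂ))
      (fun v s => pre (fk D w z.2 u s) l * D.lk (sN z.2 s) .a h (some v) *
        post (fk D w z.2 u s) l) fun v _ => inK_cont D w z.2 u l h (some v)
  simp only [← h0]
  have hch := (summable_fib' l (D.ch_summable (N + 2))).2.1 (z.1, z.2)
  refine kI_hasSum D ψ z.2 (TData.mark w) z.1 (fun h => inK D w z.2 u l (z.2 i) h)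
    (insK D w z.2 u l i) (fun h => ?_)
    (fun h => Fintype.card D.E * ((max 1 D.CB) ^ (N + 2) * D.ch (z.1, l.insertNth h z.2)))
    ((hch.mul_left _).mul_left _) (fun h => ?_) (fun h t ht hreg => ?_) (fun t ht hreg => ?_)
  · exact continuousOn_finsetSum _ fun v _ =>
      (continuousOn_const (c := (D.q (z.2 i) h v : ℂ))).smul (inK_cont D w z.2 u l h (some v))
  · have := ch_nonneg D (z.1, (l.insertNth h z.2 : Fin (N + 2) → G))
    positivity
  · have h1 : (inK D w z.2 u l (z.2 i) h t).e (D.ρ z.1) (D.x * D.ρ z.1) =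
        ∑ v : D.E, (D.q (z.2 i) h v : ℂ) • (pre (fk D w z.2 u t) l *
          D.lk (sN z.2 t) .a h (some v) * post (fk D w z.2 u t) l).e (D.ρ z.1)
            (D.x * D.ρ z.1) := by
      have h2 := map_sum (eL (G := G) (R := R) (D.ρ z.1) (D.x * D.ρ z.1))
        (fun v : D.E => (D.q (z.2 i) h v : ℂ) • (pre (fk D w z.2 u t) l *
          D.lk (sN z.2 t) .a h (some v) * post (fk D w z.2 u t) l)) Finset.univ
      simp only [map_smul] at h2
      exact h2
    rw [h1]
    refine (norm_sum_le _ _).trans ?_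
    rw [← nsmul_eq_mul]
    refine Finset.sum_le_card_nsmul _ _ _ fun v _ => ?_
    rw [norm_smul]
    have h3 : ‖(D.q (z.2 i) h v : ℂ)‖ ≤ 1 := by
      rw [Complex.norm_real]
      exact D.q_bd _ _ _
    have h4 := D.Pw_bound (by omega) (l.insertNth Lt.a w : Fin (N + 2) → Lt)
      (z.1, (l.insertNth h z.2 : Fin (N + 2) → G))
      (l.insertNth (some v) u : Fin (N + 2) → Option D.E) (l.insertNth 0 t) (by
        rw [sN_insertNth]
        simpa using hreg)
    rw [Pw_insertNth] at h4
    calc _ ≤ 1 * _ := mul_le_mul_of_nonneg_right h3 (norm_nonneg _)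
      _ ≤ _ := by
        rw [one_mul]
        exact h4
  · have h1 := e_mul_summable (pre (fk D w z.2 u t) l * D.V (sN z.2 t))
      (diag (D.W1 (z.2 i) (sN z.2 t)) * (D.E0 * post (fk D w z.2 u t) l))
      (D.ρ z.1) (D.x * D.ρ z.1)
    have h2 := h1.of_norm.hasSum
    rw [← e_mul] at h2
    have h3 : pre (fk D w z.2 u t) l * D.V (sN z.2 t) *
        (diag (D.W1 (z.2 i) (sN z.2 t)) * (D.E0 * post (fk D w z.2 u t) l)) =
        insK D w z.2 u l i t := by
      simp only [insK, TData.aD, mul_assoc]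
    rw [h3] at h2
    simp only [inK_e]
    exact h2

/-- sum over the labels of an inserted letter -/
theorem sum_u_insert {N : ℕ} {M : Type*} [AddCommMonoid M] (l : Fin (N + 1))
    (f : (Fin (N + 1) → Option D.E) → M) :
    ∑ u, f u = ∑ u : Fin N → Option D.E, (f (l.insertNth none u) +
      ∑ v : D.E, f (l.insertNth (some v) u)) := by
  rw [← (Fin.insertNthEquiv (fun _ => Option D.E) l).sum_comp, Fintype.sum_prod_type_right]
  refine Finset.sum_congr rfl fun u _ => ?_
  rw [Fintype.sum_option]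
  rfl

theorem lk_a_none (s : G →₀ ℝ) (h : G) : D.lk s .a h none = 0 := rfl

theorem ig_none {N : ℕ} (w : Fin N → Lt) (c : Fin N → G) (u : Fin N → Option D.E)
    (l : Fin (N + 1)) (h : G) (y : G) :
    D.ig ψ y (l.insertNth Lt.a w : Fin (N + 1) → Lt) (l.insertNth h c : Fin (N + 1) → G)
      (l.insertNth none u : Fin (N + 1) → Option D.E) = 0 := by
  rw [ig_insert]
  unfold kI
  simp only [lk_a_none, mul_zero, zero_mul]
  have h1 : (0 : Ker G R).e (D.ρ y) (D.x * D.ρ y) = 0 :=
    map_zero (eL (G := G) (R := R) (D.ρ y) (D.x * D.ρ y))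
  simp [h1]

/-- the terms of the word functional -/
noncomputable def tm {N : ℕ} (w : Fin N → Lt) (z : {y // IsConj D.x y} × (Fin N → G)) : ℂ :=
  ∑ u : Fin N → Option D.E, (D.cf w z.2 u : ℂ) * D.ig ψ z.1 w z.2 u

theorem ig_bound {N : ℕ} (hN : 0 < N) (w : Fin N → Lt) (z : {y // IsConj D.x y} × (Fin N → G))
    (u : Fin N → Option D.E) :
    ‖D.ig ψ z.1 w z.2 u‖ ≤ (max 1 D.CB) ^ N * D.ch z * (‖D.T‖ * gm D ψ (TData.mark w)) :=
  kI_bound D ψ z.2 (TData.mark w) z.1 (D.Pw w z.2 u) _ fun t _ hreg =>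
    D.Pw_bound hN w z u t hreg

theorem tm_summable {N : ℕ} (hN : 0 < N) (w : Fin N → Lt) : Summable (tm D ψ w) := by
  obtain ⟨C, hC0, hC⟩ := exists_cf_bound D N
  refine Summable.of_norm_bounded (g := fun z => (Fintype.card (Fin N → Option D.E) : ℝ) *
    (C * ((max 1 D.CB) ^ N * D.ch z * (‖D.T‖ * gm D ψ (TData.mark w))))) ?_ fun z => ?_
  · exact ((((D.ch_summable N).mul_left _).mul_right _).mul_left _).mul_left _
  · unfold tm
    refine (norm_sum_le _ _).trans ?_
    rw [← nsmul_eq_mul]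
    refine Finset.sum_le_card_nsmul _ _ _ fun u _ => ?_
    rw [norm_mul, Complex.norm_real, Real.norm_eq_abs]
    exact mul_le_mul (hC w z.2 u).1 (ig_bound D ψ hN w z u) (norm_nonneg _) hC0

/-- E4b. -/
theorem specIns : SpecIns D ψ := by
  intro N w l
  set w' : Fin (N + 2) → Lt := l.insertNth Lt.a w with hw'
  have h1 := summable_fib l (tm_summable D ψ (by omega) w')
  have h2 : HasSum (fun z : {y // IsConj D.x y} × (Fin (N + 1) → G) =>
      ∑' h, tm D ψ w' (z.1, l.insertNth h z.2)) (D.tF ψ w') := by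
    have h3 : D.tF ψ w' = ∑' z, tm D ψ w' z := rfl
    rw [h3, h1.2.2]
    exact h1.1.hasSum
  have h4 : ∀ z : {y // IsConj D.x y} × (Fin (N + 1) → G),
      ∑' h, tm D ψ w' (z.1, l.insertNth h z.2) = (-1 : ℂ) ^ (l : ℕ) *
        ∑ u : Fin (N + 1) → Option D.E, ∑ i : Fin (N + 1), (pf1 D w z.2 u i : ℂ) *
          kI D ψ (TData.mark w) z.1 (insK D w z.2 u l i) := by
    intro z
    refine HasSum.tsum_eq ?_
    have h5 : ∀ h, tm D ψ w' (z.1, l.insertNth h z.2) = (-1 : ℂ) ^ (l : ℕ) *
        ∑ u : Fin (N + 1) → Option D.E, ∑ i : Fin (N + 1), (pf1 D w z.2 u i : ℂ) *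
          ∑ v : D.E, (D.q (z.2 i) h v : ℂ) * D.ig ψ z.1 w' (l.insertNth h z.2)
            (l.insertNth (some v) u) := by
      intro h
      unfold tm
      rw [sum_u_insert D l, Finset.mul_sum]
      refine Finset.sum_congr rfl fun u _ => ?_
      rw [hw', ig_none, mul_zero, zero_add]
      simp only [Finset.mul_sum]
      rw [Finset.sum_comm]
      refine Finset.sum_congr rfl fun v _ => ?_
      rw [cf_insert]
      push_cast
      rw [Finset.mul_sum, Finset.sum_mul]
      refine Finset.sum_congr rfl fun i _ => ?_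
      ring
    simp only [h5]
    refine HasSum.mul_left _ (hasSum_sum fun u _ => hasSum_sum fun i _ => HasSum.mul_left _ ?_)
    exact ins_fix D ψ w z u l i
  simp only [h4] at h2
  have h6 := h2.mul_left ((-1 : ℂ) ^ (l : ℕ))
  have h7 : (-1 : ℂ) ^ (l : ℕ) * (-1) ^ (l : ℕ) = 1 := by
    rw [← mul_pow]
    simp
  simp only [← mul_assoc, h7, one_mul] at h6
  exact h6

end Vale.Agent.P184.H552
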