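import Vale.Agent.P184.Ex.D

/-!
# Relative inverses of kernels with uniform majorants
-/

open scoped ENNReal

namespace Vale.Agent.P184.H159

open Vale.Agent.P184.H57 Vale.Agent.P184.H57.Ker

set_option linter.unusedSectionVars false
set_option linter.unusedSimpArgs false
set_option linter.unusedVariables false

section Alg

variable {A : Type*} [Ring A]

theorem asc {a b c d : A} (h : a * b = c * d) (z : A) : a * (b * z) = c * (d * z) := by
  rw [← mul_assoc, h, mul_assoc]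

theorem asc1 {a b c : A} (h : a * b = c) (z : A) : a * (b * z) = c * z := by
  rw [← mul_assoc, h]

theorem rel_left {E p0 p1 w d : A} (hE : E * E = E) (h0 : p0 * p0 = p0) (h1 : p1 * p1 = p1)
    (e0 : p0 * E = E * p0) (e1 : p1 * E = E * p1) (w0 : p1 * w = w * p0) (w1 : p0 * w = w * p1)
    (d0 : p0 * d = d * p0) (d1 : p1 * d = d * p1) (hd : w * d * w = 1) :
    E * p0 * w * d * (E * p1) * (E * p1 * w * (E * p0)) =
      E * p0 - -(E * w * d * (E * w - w * E) * (E * p0)) := by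
  have r1 : E * p0 * w * d * (E * p1) * (E * p1 * w * (E * p0)) =
      E * w * d * E * w * E * p0 := by
    simp only [mul_assoc, e0, asc e0, e1, asc e1, w0, asc w0, w1, asc w1, d0, asc d0, d1, asc d1,
      h0, asc1 h0, h1, asc1 h1, hE, asc1 hE]
  rw [r1]
  have r2 : E * w * d * (E * w - w * E) * (E * p0) =
      E * w * d * E * w * E * p0 - E * (w * d * w) * E * E * p0 := by
    rw [mul_sub, sub_mul]
    simp only [mul_assoc]
  rw [r2, hd, mul_one, hE, hE]
  abel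

theorem rel_right {E p0 p1 w d : A} (hE : E * E = E) (h0 : p0 * p0 = p0) (h1 : p1 * p1 = p1)
    (e0 : p0 * E = E * p0) (e1 : p1 * E = E * p1) (w0 : p1 * w = w * p0) (w1 : p0 * w = w * p1)
    (d0 : p0 * d = d * p0) (d1 : p1 * d = d * p1) (hd : w * w * d = 1) :
    E * p1 * w * (E * p0) * (E * p0 * w * d * (E * p1)) =
      E * p1 - E * (E * w - w * E) * w * d * (E * p1) := by
  have r1 : E * p1 * w * (E * p0) * (E * p0 * w * d * (E * p1)) =
      E * w * E * w * d * E * p1 := by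
    simp only [mul_assoc, e0, asc e0, e1, asc e1, w0, asc w0, w1, asc w1, d0, asc d0, d1, asc d1,
      h0, asc1 h0, h1, asc1 h1, hE, asc1 hE]
  rw [r1]
  have r2 : E * (E * w - w * E) * w * d * (E * p1) =
      E * E * (w * w * d) * E * p1 - E * w * E * w * d * E * p1 := by
    rw [mul_sub, sub_mul, sub_mul, sub_mul]
    simp only [mul_assoc]
  rw [r2, hd, mul_one, hE, hE]
  abel

theorem inv_alg {e0 e1 u v a a' w0 w1 : A} (he0 : e0 * e0 = e0) (he1 : e1 * e1 = e1)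
    (hu : e1 * u = u) (hu' : u * e0 = u) (hv : e0 * v = v) (hv' : v * e1 = v)
    (h1 : v * u = e0 - a) (h2 : u * v = e1 - a') (hw0 : w0 * (1 - a) = 1)
    (hw1 : (1 - a') * w1 = 1) :
    e0 * w0 * v * u = e0 ∧ u * (e0 * w0 * v) = e1 ∧ e0 * (e0 * w0 * v) = e0 * w0 * v ∧
      e0 * w0 * v * e1 = e0 * w0 * v := by
  have ha : e0 - a = (1 - a) * e0 := by
    have : a = e0 - v * u := by rw [h1]; abel
    rw [this]
    calc e0 - (e0 - v * u) = v * (u * e0) := by rw [hu']; abel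
      _ = e0 - e0 * e0 + v * u * e0 := by rw [he0]; noncomm_ring
      _ = (1 - (e0 - v * u)) * e0 := by noncomm_ring
  have ha' : e1 - a' = e1 * (1 - a') := by
    have : a' = e1 - u * v := by rw [h2]; abel
    rw [this]
    calc e1 - (e1 - u * v) = (e1 * u) * v := by rw [hu]; abel
      _ = e1 - e1 * e1 + e1 * (u * v) := by rw [he1]; noncomm_ring
      _ = e1 * (1 - (e1 - u * v)) := by noncomm_ring
  have k1 : e0 * w0 * v * u = e0 := by
    rw [mul_assoc _ v u, h1, ha]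
    calc e0 * w0 * ((1 - a) * e0) = e0 * (w0 * (1 - a)) * e0 := by noncomm_ring
      _ = e0 := by rw [hw0, mul_one, he0]
  have k3 : e0 * (e0 * w0 * v) = e0 * w0 * v := by
    rw [← mul_assoc, ← mul_assoc, he0]
  have k4 : e0 * w0 * v * e1 = e0 * w0 * v := by rw [mul_assoc, hv']
  have k5 : u * (v * w1 * e1) = e1 := by
    calc u * (v * w1 * e1) = (u * v) * w1 * e1 := by noncomm_ring
      _ = e1 * ((1 - a') * w1) * e1 := by rw [h2, ha']; noncomm_ring
      _ = e1 := by rw [hw1, mul_one, he1]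
  have k6 : e0 * w0 * v = v * w1 * e1 := by
    calc e0 * w0 * v = e0 * w0 * v * e1 := k4.symm
      _ = e0 * w0 * v * (u * (v * w1 * e1)) := by rw [k5]
      _ = (e0 * w0 * v * u) * (v * w1 * e1) := by noncomm_ring
      _ = (e0 * v) * w1 * e1 := by rw [k1]; noncomm_ring
      _ = _ := by rw [hv]
  exact ⟨k1, by rw [k6, k5], k3, k4⟩

end Alg

section Sn

variable {G : Type*} [Group G]

/-- Nonnegative summable functions. -/
structure Sn (b : G → ℝ) : Prop where
  nn : ∀ g, 0 ≤ b g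
  sm : Summable b

theorem Sn.cv {b b' : G → ℝ} (h : Sn b) (h' : Sn b') : Sn (cv b b') :=
  ⟨(cv_summable h.nn h'.nn h.sm h'.sm).2.1, (cv_summable h.nn h'.nn h.sm h'.sm).1⟩

theorem Sn.tsum_cv {b b' : G → ℝ} (h : Sn b) (h' : Sn b') :
    ∑' g, Ker.cv b b' g = (∑' g, b g) * ∑' g, b' g :=
  (cv_summable h.nn h'.nn h.sm h'.sm).2.2.2

theorem Sn.add {b b' : G → ℝ} (h : Sn b) (h' : Sn b') : Sn fun g => b g + b' g :=
  ⟨fun g => add_nonneg (h.nn g) (h'.nn g), h.sm.add h'.sm⟩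

open Classical in
/-- Point mass at the unit. -/
noncomputable def dI (C : ℝ) (g : G) : ℝ := if g = 1 then C else 0

theorem dI_sn {C : ℝ} (hC : 0 ≤ C) : Sn (dI (G := G) C) := by
  classical
  refine ⟨fun g => ?_, summable_of_ne_finset_zero (s := {1}) fun g hg => ?_⟩
  · unfold dI
    split_ifs
    · exact hC
    · exact le_rfl
  · unfold dI
    rw [if_neg (by simpa using hg)]

theorem dI_tsum (C : ℝ) : ∑' g : G, dI C g = C := by
  classical
  rw [tsum_eq_single 1 fun g hg => ?_]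
  · unfold dI
    rw [if_pos rfl]
  · unfold dI
    rw [if_neg hg]

end Sn

section Main

variable {G R : Type*} [Group G] [NormedRing R] [NormOneClass R] [CompleteSpace R]

theorem diag_mul (F F' : Li G R) : (diag F * diag F' : Ker G R) = diag (F * F') := by
  classical
  ext p p'
  rw [diag_mul_e, e_diag, e_diag]
  split_ifs
  · rfl
  · rw [mul_zero]

theorem maj_dI {F : Li G R} {C : ℝ} (hF : ‖F‖ ≤ C) : Maj (diag F : Ker G R) (dI C) :=
  maj_diag hF

/-- Relative inverses with uniform majorants. -/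
theorem exists_inv_rel {β c : G → ℝ} (hβ : Sn β) (hc : Sn c) {CW CD : ℝ} (hW : 0 ≤ CW)
    (hD : 0 ≤ CD) (hs : (∑' g, β g) * CW * CD * (∑' g, c g) * (∑' g, β g) < 1) :
    ∃ b : G → ℝ, Sn b ∧ ∀ (E : Ker G R) (P0 P1 W Dv : Li G R), E * E = E → Maj E β →
      ‖P0‖ ≤ 1 → ‖P1‖ ≤ 1 → ‖W‖ ≤ CW → ‖Dv‖ ≤ CD → P0 * P0 = P0 → P1 * P1 = P1 →
      diag P0 * E = E * diag P0 → diag P1 * E = E * diag P1 → P1 * W = W * P0 → P0 * W = W * P1 →
      P0 * Dv = Dv * P0 → P1 * Dv = Dv * P1 → W * Dv * W = 1 → W * W * Dv = 1 →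
      Maj (E * diag W - diag W * E) c →
      ∃ V : Ker G R, V * (E * diag P1 * diag W * (E * diag P0)) = E * diag P0 ∧
        (E * diag P1 * diag W * (E * diag P0)) * V = E * diag P1 ∧
        (E * diag P0) * V = V ∧ V * (E * diag P1) = V ∧
        Maj (E * diag P0) b ∧ Maj (E * diag P1) b ∧
        Maj (E * diag P1 * diag W * (E * diag P0)) b ∧ Maj V b := by
  have d1 := dI_sn (G := G) zero_le_one
  have dW := dI_sn (G := G) hW
  have dD := dI_sn (G := G) hD
  have hE0 := hβ.cv d1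
  have ha := (((hβ.cv dW).cv dD).cv hc).cv hE0
  have ha' := (((hβ.cv hc).cv dW).cv dD).cv hE0
  have s1 : ∑' g, Ker.cv (Ker.cv (Ker.cv (Ker.cv β (dI CW)) (dI CD)) c)
      (Ker.cv β (dI 1)) g < 1 := by
    rw [(((hβ.cv dW).cv dD).cv hc).tsum_cv hE0, ((hβ.cv dW).cv dD).tsum_cv hc,
      (hβ.cv dW).tsum_cv dD, hβ.tsum_cv dW, hβ.tsum_cv d1, dI_tsum, dI_tsum, dI_tsum]
    calc _ = (∑' g, β g) * CW * CD * (∑' g, c g) * (∑' g, β g) := by ring
      _ < 1 := hs
  have s2 : ∑' g, Ker.cv (Ker.cv (Ker.cv (Ker.cv β c) (dI CW)) (dI CD))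
      (Ker.cv β (dI 1)) g < 1 := by
    rw [(((hβ.cv hc).cv dW).cv dD).tsum_cv hE0, ((hβ.cv hc).cv dW).tsum_cv dD,
      (hβ.cv hc).tsum_cv dW, hβ.tsum_cv hc, hβ.tsum_cv d1, dI_tsum, dI_tsum, dI_tsum]
    calc _ = (∑' g, β g) * CW * CD * (∑' g, c g) * (∑' g, β g) := by ring
      _ < 1 := hs
  obtain ⟨b0, h0, h0', hi⟩ := exists_inv_maj (R := R) _ ha.nn ha.sm s1
  obtain ⟨b1, h1, h1', hi'⟩ := exists_inv_maj (R := R) _ ha'.nn ha'.sm s2
  have hb0 : Sn b0 := ⟨h0, h0'⟩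
  have hVt := ((hE0.cv dW).cv dD).cv hE0
  have hU := (hE0.cv dW).cv hE0
  have hV := (hE0.cv hb0).cv hVt
  refine ⟨fun g => Ker.cv β (dI 1) g + (Ker.cv (Ker.cv (Ker.cv β (dI 1)) (dI CW))
    (Ker.cv β (dI 1)) g + Ker.cv (Ker.cv (Ker.cv β (dI 1)) b0)
      (Ker.cv (Ker.cv (Ker.cv (Ker.cv β (dI 1)) (dI CW)) (dI CD)) (Ker.cv β (dI 1))) g),
    hE0.add (hU.add hV), ?_⟩
  intro E P0 P1 W Dv hE hEβ n0 n1 nW nD q0 q1 c0 c1 w0 w1 e0 e1 r1 r2 hK
  have p0 : diag P0 * diag P0 = (diag P0 : Ker G R) := by rw [diag_mul, q0]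
  have p1 : diag P1 * diag P1 = (diag P1 : Ker G R) := by rw [diag_mul, q1]
  have w0' : diag P1 * diag W = (diag W * diag P0 : Ker G R) := by rw [diag_mul, w0, diag_mul]
  have w1' : diag P0 * diag W = (diag W * diag P1 : Ker G R) := by rw [diag_mul, w1, diag_mul]
  have e0' : diag P0 * diag Dv = (diag Dv * diag P0 : Ker G R) := by
    rw [diag_mul, e0, diag_mul]
  have e1' : diag P1 * diag Dv = (diag Dv * diag P1 : Ker G R) := by
    rw [diag_mul, e1, diag_mul]
  have r1' : diag W * diag Dv * diag W = (1 : Ker G R) := by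
    rw [diag_mul, diag_mul, r1]; rfl
  have r2' : diag W * diag W * diag Dv = (1 : Ker G R) := by
    rw [diag_mul, diag_mul, r2]; rfl
  have m0 : Maj (E * diag P0) (Ker.cv β (dI 1)) := hEβ.mul (maj_dI n0) hβ.sm d1.sm
  have m1 : Maj (E * diag P1) (Ker.cv β (dI 1)) := hEβ.mul (maj_dI n1) hβ.sm d1.sm
  have mW : Maj (diag W : Ker G R) (dI CW) := maj_dI nW
  have mD : Maj (diag Dv : Ker G R) (dI CD) := maj_dI nD
  have rl := rel_left hE p0 p1 c0 c1 w0' w1' e0' e1' r1'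
  have rr := rel_right hE p0 p1 c0 c1 w0' w1' e0' e1' r2'
  have i0 : (E * diag P0) * (E * diag P0) = E * diag P0 := by
    rw [mul_assoc, ← mul_assoc (diag P0) E, c0, mul_assoc E (diag P0) (diag P0), p0, ← mul_assoc,
      hE]
  have i1 : (E * diag P1) * (E * diag P1) = E * diag P1 := by
    rw [mul_assoc, ← mul_assoc (diag P1) E, c1, mul_assoc E (diag P1) (diag P1), p1, ← mul_assoc,
      hE]
  have ma : Maj (-(E * diag W * diag Dv * (E * diag W - diag W * E) * (E * diag P0))) _ :=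
    (((((hEβ.mul mW hβ.sm dW.sm).mul mD (hβ.cv dW).sm dD.sm).mul hK ((hβ.cv dW).cv dD).sm
      hc.sm)).mul m0 (((hβ.cv dW).cv dD).cv hc).sm hE0.sm).neg
  have ma' : Maj (E * (E * diag W - diag W * E) * diag W * diag Dv * (E * diag P1)) _ :=
    ((((hEβ.mul hK hβ.sm hc.sm).mul mW (hβ.cv hc).sm dW.sm).mul mD ((hβ.cv hc).cv dW).sm
      dD.sm)).mul m1 (((hβ.cv hc).cv dW).cv dD).sm hE0.sm
  obtain ⟨v0, hv0, -, hv0'⟩ := hi _ ma
  obtain ⟨v1, -, hv1, -⟩ := hi' _ ma'
  have key := inv_alg (e0 := E * diag P0) (e1 := E * diag P1)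
    (u := E * diag P1 * diag W * (E * diag P0))
    (v := E * diag P0 * diag W * diag Dv * (E * diag P1)) i0 i1
    (by rw [← mul_assoc (E * diag P1) (E * diag P1 * diag W),
      ← mul_assoc (E * diag P1) (E * diag P1), i1]) (by rw [mul_assoc (E * diag P1 * diag W), i0])
    (by rw [← mul_assoc (E * diag P0) (E * diag P0 * diag W * diag Dv),
      ← mul_assoc (E * diag P0) (E * diag P0 * diag W), ← mul_assoc (E * diag P0) (E * diag P0),
      i0]) (by rw [mul_assoc (E * diag P0 * diag W * diag Dv), i1]) rl rr hv0' hv1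
  refine ⟨_, key.1, key.2.1, key.2.2.1, key.2.2.2, ?_, ?_, ?_, ?_⟩
  · exact m0.mono fun g => le_add_of_nonneg_right (add_nonneg (hU.nn g) (hV.nn g))
  · exact m1.mono fun g => le_add_of_nonneg_right (add_nonneg (hU.nn g) (hV.nn g))
  · have mU := (m1.mul mW hE0.sm dW.sm).mul m0 (hE0.cv dW).sm hE0.sm
    exact mU.mono fun g => (le_add_of_nonneg_right (hV.nn g)).trans
      (le_add_of_nonneg_left (hE0.nn g))
  · have mV := (m0.mul hv0 hE0.sm hb0.sm).mul
      (((m0.mul mW hE0.sm dW.sm).mul mD (hE0.cv dW).sm dD.sm).mul m1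
        ((hE0.cv dW).cv dD).sm hE0.sm) (hE0.cv hb0).sm hVt.sm
    exact mV.mono fun g => (le_add_of_nonneg_left (hU.nn g)).trans
      (le_add_of_nonneg_left (hE0.nn g))

end Main

end Vale.Agent.P184.H159
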