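import Vale.Agent.P184.Ex.Orb

/-! P184, block LAB (helper428), part 4: random labels, the invariant measure and functional. -/

open Finset MeasureTheory

namespace Vale.Agent.P184.H428

/-- labels: a point of `ℤ/R` and a colour -/
abbrev Kl (R d : ℕ) := ZMod R × Fin (d + 1)

/-- the set of `x`-equivariant labellings whose colours separate different `⟨x⟩`-orbits at
distance `F` -/
def OmSet {G : Type*} [Group G] (x : G) (R : ℕ) (F : Finset G) : Set (G → Kl R (2 * F.card)) :=
  {ω | (∀ h, ω (x * h) = ((ω h).1 + 1, (ω h).2)) ∧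
    ∀ h, ∀ s ∈ F, (∀ i : ℤ, h * s ≠ x ^ i * h) → (ω h).2 ≠ (ω (h * s)).2}

theorem isClosed_OmSet {G : Type*} [Group G] (x : G) (R : ℕ) (F : Finset G) :
    IsClosed (OmSet x R F) := by
  have h1 : OmSet x R F = (⋂ h : G, {ω | ω (x * h) = ((ω h).1 + 1, (ω h).2)}) ∩
      ⋂ h : G, ⋂ s : G, ⋂ _ : s ∈ F, ⋂ _ : (∀ i : ℤ, h * s ≠ x ^ i * h),
        {ω | (ω h).2 ≠ (ω (h * s)).2} := by
    ext ω
    simp only [OmSet, Set.mem_inter_iff, Set.mem_iInter, Set.mem_ofPred_eq]
  rw [h1]
  refine IsClosed.inter (isClosed_iInter fun h => ?_) (isClosed_iInter fun h =>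
    isClosed_iInter fun s => isClosed_iInter fun _ => isClosed_iInter fun _ => ?_)
  · refine isClosed_eq (continuous_apply _) ?_
    exact (continuous_of_discreteTopology (f := fun k : Kl R (2 * F.card) => (k.1 + 1, k.2))).comp
      (continuous_apply h)
  · have : {ω : G → Kl R (2 * F.card) | (ω h).2 ≠ (ω (h * s)).2} =
        (fun ω : G → Kl R (2 * F.card) => (ω h, ω (h * s))) ⁻¹' {p | p.1.2 ≠ p.2.2} := rfl
    rw [this]
    exact (isClosed_discrete _).preimage ((continuous_apply _).prodMk (continuous_apply _))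

/-- the compact space of labellings -/
abbrev Om {G : Type*} [Group G] (x : G) (R : ℕ) (F : Finset G) : Type _ := ↥(OmSet x R F)

instance {G : Type*} [Group G] (x : G) (R : ℕ) [NeZero R] (F : Finset G) :
    CompactSpace (Om x R F) := by
  have : Finite (ZMod R) := inferInstance
  exact isCompact_iff_compactSpace.1 (isClosed_OmSet x R F).isCompact

section act

variable {G : Type*} [Group G] (x : G) (R : ℕ) (F : Finset G)

/-- the action of the centralizer on labellings -/
def actF (c : G) : (G → Kl R (2 * F.card)) → (G → Kl R (2 * F.card)) := fun ω h => ω (c⁻¹ * h)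

theorem actF_mem {c : G} (hc : c * x = x * c) {ω : G → Kl R (2 * F.card)} (hω : ω ∈ OmSet x R F) :
    actF R F c ω ∈ OmSet x R F := by
  have hc' := inv_comm x hc
  refine ⟨fun h => ?_, fun h s hs hne => ?_⟩
  · change ω (c⁻¹ * (x * h)) = ((ω (c⁻¹ * h)).1 + 1, (ω (c⁻¹ * h)).2)
    rw [← mul_assoc, hc', mul_assoc]
    exact hω.1 _
  · change (ω (c⁻¹ * h)).2 ≠ (ω (c⁻¹ * (h * s))).2
    rw [← mul_assoc]
    refine hω.2 _ s hs fun i hi => hne i ?_
    have hcx : c⁻¹ * x ^ i = x ^ i * c⁻¹ := ((show Commute c⁻¹ x from hc').zpow_right _)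
    have : c⁻¹ * (h * s) = c⁻¹ * (x ^ i * h) := by
      rw [← mul_assoc, hi, ← mul_assoc, ← hcx, mul_assoc]
    exact mul_left_cancel this

theorem actF_continuous (c : G) : Continuous (actF R F c) :=
  continuous_pi fun _ => continuous_apply _

/-- the action of the centralizer on the space of labellings -/
def actO (c : G) (hc : c * x = x * c) : C(Om x R F, Om x R F) where
  toFun ω := ⟨actF R F c ω.1, actF_mem x R F hc ω.2⟩
  continuous_toFun := ((actF_continuous R F c).comp continuous_subtype_val).subtype_mk _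

end act

/-! ### the law of the random labelling -/

section law

variable {G : Type*} [Group G] (x : G) (R : ℕ) (F : Finset G)

/-- the uniform measure on `ℤ/R` -/
noncomputable def unif (R : ℕ) : Measure (ZMod R) := (R : ENNReal)⁻¹ • Measure.count

instance (R : ℕ) [NeZero R] : IsProbabilityMeasure (unif R) := by
  constructor
  have h1 : (Measure.count : Measure (ZMod R)) Set.univ = R := by
    rw [Measure.count_univ, ENat.card_eq_coe_fintype_card, ZMod.card]
    rfl
  rw [unif, Measure.smul_apply, h1, smul_eq_mul]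
  refine ENNReal.inv_mul_cancel ?_ (ENNReal.natCast_ne_top _)
  exact_mod_cast NeZero.ne R

theorem unif_add (R : ℕ) [NeZero R] (j : ZMod R) :
    MeasurePreserving (fun k : ZMod R => k + j) (unif R) (unif R) := by
  refine ⟨Measurable.of_discrete, ?_⟩
  ext s hs
  rw [Measure.map_apply Measurable.of_discrete hs, unif, Measure.smul_apply, Measure.smul_apply]
  congr 1
  rw [Measure.count_apply (MeasurableSet.of_discrete), Measure.count_apply hs]
  congr 1
  have : (fun k : ZMod R => k + j) ⁻¹' s = (Equiv.addRight j).symm '' s := by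
    rw [Equiv.image_symm_eq_preimage]; rfl
  rw [this]
  exact (Equiv.injective _).encard_image s

/-- the law of one label -/
noncomputable def lab1 (R : ℕ) : Measure (ℝ × ZMod R) :=
  (volume.restrict (Set.Icc (0 : ℝ) 1)).prod (unif R)

instance : IsProbabilityMeasure (volume.restrict (Set.Icc (0 : ℝ) 1)) := by
  constructor
  simp

instance (R : ℕ) [NeZero R] : IsProbabilityMeasure (lab1 R) := by
  unfold lab1; infer_instance

theorem lab1_add (R : ℕ) [NeZero R] (j : ZMod R) :
    MeasurePreserving (fun k : ℝ × ZMod R => (k.1, k.2 + j)) (lab1 R) (lab1 R) :=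
  (MeasurePreserving.id _).prod (unif_add R j)

theorem lab1_fst (R : ℕ) [NeZero R] : (lab1 R).map Prod.fst = volume.restrict (Set.Icc (0 : ℝ) 1) := by
  unfold lab1
  rw [Measure.map_fst_prod]
  simp

/-- the labelling built from iid labels on the orbits -/
noncomputable def lw (u : Orb x → ℝ × ZMod R) : G → Kl R (2 * F.card) := fun h =>
  ((ind x h : ZMod R) + (u (orb x h)).2, glim (nb x F) (2 * F.card) (fun v => (u v).1) (orb x h))

theorem gcol_measurable {V : Type*} (N : V → Finset V) (d : ℕ) :
    ∀ (L : ℕ) (v : V), Measurable fun u : V → ℝ => gcol N d u L v := by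
  classical
  intro L
  induction L with
  | zero => intro v; exact measurable_const
  | succ L ih =>
    intro v
    let A : (V → ℝ) → (N v → Prop × Fin (d + 1)) := fun u w => (u v < u w, gcol N d u L w)
    have hA : Measurable A := by
      refine measurable_pi_lambda _ fun w => Measurable.prodMk ?_ (ih _)
      exact measurableSet_setOfPred.1 (measurableSet_lt (measurable_pi_apply _) (measurable_pi_apply _))
    let Φ : (N v → Prop × Fin (d + 1)) → Fin (d + 1) := fun a =>
      mex (((N v).attach.filter (fun w => (a w).1)).image (fun w => (a w).2))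
    have hΦ : Measurable Φ := Measurable.of_discrete
    have : (fun u : V → ℝ => gcol N d u (L + 1) v) = Φ ∘ A := by
      funext u
      simp only [gcol, Function.comp, Φ, A]
      congr 1
      ext c
      simp only [Finset.mem_image, Finset.mem_filter, Finset.mem_attach, true_and, Subtype.exists]
      constructor
      · rintro ⟨w, ⟨hw, h⟩, hc⟩; exact ⟨w, hw, h, hc⟩
      · rintro ⟨w, hw, h, hc⟩; exact ⟨w, ⟨hw, h⟩, hc⟩
    rw [this]
    exact hΦ.comp hA

theorem glim_measurable {V : Type*} (N : V → Finset V) (d : ℕ) (v : V) :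
    Measurable fun u : V → ℝ => glim N d u v := by
  refine measurable_to_countable' fun c => ?_
  have h1 (c : Fin (d + 1)) : MeasurableSet {u : V → ℝ | IsLim N u v c} := by
    have : {u : V → ℝ | IsLim N u v c} = ⋃ L : ℕ, ⋂ M : ℕ, ⋂ _ : L ≤ M,
        (fun u : V → ℝ => gcol N d u M v) ⁻¹' {c} := by
      ext u
      simp only [IsLim, Set.mem_ofPred_eq, Set.mem_iUnion, Set.mem_iInter, Set.mem_preimage,
        Set.mem_singleton_iff]
    rw [this]
    exact MeasurableSet.iUnion fun L => MeasurableSet.iInter fun M => MeasurableSet.iInter fun _ =>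
      gcol_measurable N d M v (measurableSet_singleton c)
  have : (fun u : V → ℝ => glim N d u v) ⁻¹' {c} = {u | IsLim N u v c} ∪
      ({u : V → ℝ | c = 0} ∩ ⋂ c' : Fin (d + 1), {u : V → ℝ | IsLim N u v c'}ᶜ) := by
    ext u
    simp only [Set.mem_preimage, Set.mem_singleton_iff, glim_eq_iff, Set.mem_union,
      Set.mem_ofPred_eq, Set.mem_inter_iff, Set.mem_iInter, Set.mem_compl_iff]
  rw [this]
  exact (h1 c).union ((MeasurableSet.const _).inter (MeasurableSet.iInter fun c' => (h1 c').compl))

theorem lw_measurable : Measurable (lw x R F) := by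
  refine measurable_pi_lambda _ fun h => Measurable.prodMk ?_ ?_
  · have h1 : Measurable fun u : Orb x → ℝ × ZMod R => (u (orb x h)).2 :=
      measurable_snd.comp (measurable_pi_apply _)
    exact (Measurable.of_discrete (f := fun k : ZMod R => (ind x h : ZMod R) + k)).comp h1
  · have h2 : Measurable fun u : Orb x → ℝ × ZMod R => fun v => (u v).1 :=
      measurable_pi_lambda _ fun v => measurable_fst.comp (measurable_pi_apply _)
    exact (glim_measurable (nb x F) (2 * F.card) (orb x h)).comp h2

theorem ind_zpow (hR : ∀ i : ℤ, x ^ i = 1 → (R : ℤ) ∣ i) (i : ℤ) (h : G) :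
    ((ind x (x ^ i * h) : ℤ) : ZMod R) = (ind x h : ZMod R) + i := by
  have h0 : orb x (x ^ i * h) = orb x h := by
    symm; rw [orb_eq_iff]; exact ⟨i, rfl⟩
  have h1 := ind_spec x (x ^ i * h)
  rw [h0] at h1
  have h2 := ind_spec x h
  have h3 : x ^ (ind x (x ^ i * h) - (ind x h + i)) = 1 := by
    have : x ^ (ind x (x ^ i * h)) * rep x (orb x h) = x ^ (ind x h + i) * rep x (orb x h) := by
      rw [← h1]
      conv_lhs => rw [h2]
      rw [← mul_assoc, ← zpow_add, add_comm]
    have h4 := mul_right_cancel this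
    rw [zpow_sub, h4, mul_inv_cancel]
  have h5 := hR _ h3
  rw [← ZMod.intCast_zmod_eq_zero_iff_dvd] at h5
  push_cast at h5
  linear_combination h5

theorem lw_first (hR : ∀ i : ℤ, x ^ i = 1 → (R : ℤ) ∣ i) (u : Orb x → ℝ × ZMod R) (h : G) :
    lw x R F u (x * h) = ((lw x R F u h).1 + 1, (lw x R F u h).2) := by
  unfold lw
  rw [orb_mul, ind_mul x R hR]
  ext
  · simp only; ring
  · rfl

/-- almost surely the labelling is proper -/
theorem lw_ae [Countable G] [NeZero R] (hR : ∀ i : ℤ, x ^ i = 1 → (R : ℤ) ∣ i) :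
    ∀ᵐ u ∂(Measure.infinitePi fun _ : Orb x => lab1 R), lw x R F u ∈ OmSet x R F := by
  have : Countable (Orb x) := inferInstance
  have h1 : ∀ᵐ u ∂(Measure.infinitePi fun _ : Orb x => lab1 R), ∀ v : Orb x,
      ∃ L, ¬ asc (nb x F) (fun w => (u w).1) L v := by
    rw [ae_all_iff]
    intro v
    exact ae_exists_not_asc (lab1 R) Prod.fst measurable_fst (nb x F) (2 * F.card)
      (nb_card x F) v
  have h2 : ∀ᵐ u ∂(Measure.infinitePi fun _ : Orb x => lab1 R), ∀ v w : Orb x, v ≠ w →
      (u v).1 ≠ (u w).1 := by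
    rw [ae_all_iff]
    intro v
    rw [ae_all_iff]
    intro w
    by_cases hvw : v = w
    · exact Filter.Eventually.of_forall fun u h => absurd hvw h
    · have := ae_ne (V := Orb x) (lab1 R) Prod.fst measurable_fst
        (by rw [lab1_fst]; infer_instance) v w hvw
      filter_upwards [this] with u hu _ using hu
  filter_upwards [h1, h2] with u hu1 hu2
  refine ⟨lw_first x R F hR u, fun h s hs hne => ?_⟩
  have hne' : orb x (h * s) ≠ orb x h := by
    intro he
    obtain ⟨i, hi⟩ := (orb_eq_iff x).1 he.symm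
    exact hne i hi
  have hmem : orb x (h * s) ∈ nb x F (orb x h) := by
    rw [mem_nb]
    exact ⟨⟨s, Or.inl hs, rfl⟩, hne'⟩
  exact glim_ne (nb x F) (2 * F.card) (fun v => (u v).1) (nb_card x F) (nb_symm x F) (hu1 _)
    (hu1 _) hmem (hu2 _ _ hne'.symm)

/-- the transformation of the iid labels induced by an element of the centralizer -/
noncomputable def tw (c : G) (hc : c * x = x * c) (u : Orb x → ℝ × ZMod R) : Orb x → ℝ × ZMod R :=
  fun v => ((u ((lorb x c hc).symm v)).1, (u ((lorb x c hc).symm v)).2 +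
    (((ind x (c⁻¹ * rep x v) : ℤ) : ZMod R) - ((ind x (rep x v) : ℤ) : ZMod R)))

theorem lw_tw (hR : ∀ i : ℤ, x ^ i = 1 → (R : ℤ) ∣ i) (c : G) (hc : c * x = x * c)
    (u : Orb x → ℝ × ZMod R) : lw x R F (tw x R c hc u) = actF R F c (lw x R F u) := by
  funext h
  change lw x R F (tw x R c hc u) h = lw x R F u (c⁻¹ * h)
  unfold lw tw
  ext
  · simp only
    rw [lorb_symm_orb]
    have h1 := ind_spec x h
    have hcx : c⁻¹ * x ^ ind x h = x ^ ind x h * c⁻¹ :=
      ((show Commute c⁻¹ x from inv_comm x hc).zpow_right _)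
    have h2 : ((ind x (c⁻¹ * h) : ℤ) : ZMod R) =
        (ind x (c⁻¹ * rep x (orb x h)) : ZMod R) + (ind x h : ZMod R) := by
      conv_lhs => rw [h1]
      rw [← mul_assoc, hcx, mul_assoc, ind_zpow x R hR]
    have h3 : ((ind x h : ℤ) : ZMod R) = (ind x (rep x (orb x h)) : ZMod R) + (ind x h : ZMod R) := by
      conv_lhs => rw [h1]
      rw [ind_zpow x R hR]
    rw [h2]
    linear_combination h3
  · simp only
    have h4 := glim_equiv (nb x F) (2 * F.card) (lorb x c hc) (lorb_nb x F c hc)
      (fun v => (u v).1) ((lorb x c hc).symm (orb x h))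
    rw [Equiv.apply_symm_apply, lorb_symm_orb] at h4
    rw [h4]

/-- the law of the random labelling on all functions -/
noncomputable def law : Measure (G → Kl R (2 * F.card)) :=
  (Measure.infinitePi fun _ : Orb x => lab1 R).map (lw x R F)

instance [NeZero R] : IsProbabilityMeasure (law x R F) :=
  Measure.isProbabilityMeasure_map (lw_measurable x R F).aemeasurable

theorem tw_measurePreserving [NeZero R] (c : G) (hc : c * x = x * c) :
    (Measure.infinitePi fun _ : Orb x => lab1 R).map (tw x R c hc) =
      Measure.infinitePi fun _ : Orb x => lab1 R :=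
  map_twist (lab1 R) (lorb x c hc).symm (fun v k => (k.1, k.2 +
    (((ind x (c⁻¹ * rep x v) : ℤ) : ZMod R) - ((ind x (rep x v) : ℤ) : ZMod R))))
    (fun _ => lab1_add R _)

theorem actF_measurable (c : G) : Measurable (actF (G := G) R F c) :=
  measurable_pi_lambda _ fun _ => measurable_pi_apply _

theorem tw_measurable (c : G) (hc : c * x = x * c) : Measurable (tw x R c hc) := by
  refine measurable_pi_lambda _ fun v => Measurable.prodMk ?_ ?_
  · exact measurable_fst.comp (measurable_pi_apply _)
  · exact (Measurable.of_discrete (f := fun k : ZMod R => k + _)).comp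
      (measurable_snd.comp (measurable_pi_apply _))

theorem law_act [NeZero R] (hR : ∀ i : ℤ, x ^ i = 1 → (R : ℤ) ∣ i) (c : G) (hc : c * x = x * c) :
    (law x R F).map (actF R F c) = law x R F := by
  unfold law
  rw [Measure.map_map (actF_measurable R F c) (lw_measurable x R F)]
  have : actF R F c ∘ lw x R F = lw x R F ∘ tw x R c hc := by
    funext u
    exact (lw_tw x R F hR c hc u).symm
  rw [this, ← Measure.map_map (lw_measurable x R F) (tw_measurable x R c hc),
    tw_measurePreserving]

/-- the invariant measure on the compact space of labellings -/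
noncomputable def omMeas : Measure (Om x R F) := (law x R F).comap Subtype.val

theorem measurableSet_OmSet [Countable G] [NeZero R] : MeasurableSet (OmSet x R F) := by
  have : Finite (ZMod R) := inferInstance
  exact (isClosed_OmSet x R F).measurableSet

theorem law_compl [Countable G] [NeZero R] (hR : ∀ i : ℤ, x ^ i = 1 → (R : ℤ) ∣ i) :
    law x R F (OmSet x R F)ᶜ = 0 := by
  unfold law
  rw [Measure.map_apply (lw_measurable x R F) (measurableSet_OmSet x R F).compl]
  exact lw_ae x R F hR

theorem omMeas_prob [Countable G] [NeZero R] (hR : ∀ i : ℤ, x ^ i = 1 → (R : ℤ) ∣ i) :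
    IsProbabilityMeasure (omMeas x R F) := by
  constructor
  unfold omMeas
  rw [(MeasurableEmbedding.subtype_coe (measurableSet_OmSet x R F)).comap_apply, Set.image_univ,
    Subtype.range_coe]
  exact (prob_compl_eq_zero_iff (measurableSet_OmSet x R F)).1 (law_compl x R F hR)

theorem omMeas_act [Countable G] [NeZero R] (hR : ∀ i : ℤ, x ^ i = 1 → (R : ℤ) ∣ i) (c : G)
    (hc : c * x = x * c) : MeasurePreserving (actO x R F c hc) (omMeas x R F) (omMeas x R F) := by
  have hOm := measurableSet_OmSet x R F
  have hm : Measurable (actO x R F c hc) :=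
    ((actF_measurable R F c).comp measurable_subtype_coe).subtype_mk
  refine ⟨hm, ?_⟩
  ext s hs
  rw [Measure.map_apply hm hs]
  unfold omMeas
  rw [(MeasurableEmbedding.subtype_coe hOm).comap_apply,
    (MeasurableEmbedding.subtype_coe hOm).comap_apply]
  have hs' : MeasurableSet (Subtype.val '' s) :=
    (MeasurableEmbedding.subtype_coe hOm).measurableSet_image' hs
  have h1 : law x R F (Subtype.val '' s) = law x R F (actF R F c ⁻¹' (Subtype.val '' s)) := by
    conv_lhs => rw [← law_act x R F hR c hc]
    exact Measure.map_apply (actF_measurable R F c) hs'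
  have h2 : Subtype.val '' (actO x R F c hc ⁻¹' s) =
      actF R F c ⁻¹' (Subtype.val '' s) ∩ OmSet x R F := by
    ext ω
    constructor
    · rintro ⟨ω', hω', rfl⟩
      exact ⟨⟨actO x R F c hc ω', hω', rfl⟩, ω'.2⟩
    · rintro ⟨⟨ω', hω', he⟩, hω⟩
      refine ⟨⟨ω, hω⟩, ?_, rfl⟩
      have : actO x R F c hc ⟨ω, hω⟩ = ω' := Subtype.ext he.symm
      change actO x R F c hc ⟨ω, hω⟩ ∈ s
      rw [this]
      exact hω'
  rw [h1, h2]
  have h3 := measure_inter_add_sdiff (μ := law x R F) (actF R F c ⁻¹' (Subtype.val '' s)) hOm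
  have h4 : law x R F (actF R F c ⁻¹' (Subtype.val '' s) \ OmSet x R F) = 0 :=
    measure_mono_null (fun _ h => h.2) (law_compl x R F hR)
  rw [h4, add_zero] at h3
  exact h3

end law

section functional

variable {G : Type*} [Group G] [Countable G] (x : G) (R : ℕ) [NeZero R] (F : Finset G)

/-- **Block LAB.** There is an invariant state on the continuous functions on the compact space of
all `x`-equivariant proper labellings. -/
theorem exists_functional (hR : ∀ i : ℤ, x ^ i = 1 → (R : ℤ) ∣ i) :
    ∃ φ : C(Om x R F, ℂ) →L[ℂ] ℂ, φ 1 = 1 ∧ (∀ f, ‖φ f‖ ≤ ‖f‖) ∧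
      ∀ (c : G) (hc : c * x = x * c) (f : C(Om x R F, ℂ)), φ (f.comp (actO x R F c hc)) = φ f := by
  have hp := omMeas_prob x R F hR
  have hint (f : C(Om x R F, ℂ)) : Integrable f (omMeas x R F) := by
    refine Integrable.of_bound f.continuous.aestronglyMeasurable ‖f‖ ?_
    exact Filter.Eventually.of_forall fun ω => f.norm_coe_le_norm ω
  have hbd (f : C(Om x R F, ℂ)) : ‖∫ ω, f ω ∂(omMeas x R F)‖ ≤ ‖f‖ := by
    have := norm_integral_le_of_norm_le_const (μ := omMeas x R F) (f := f) (C := ‖f‖)
      (Filter.Eventually.of_forall fun ω => f.norm_coe_le_norm ω)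
    simpa using this
  let φ : C(Om x R F, ℂ) →ₗ[ℂ] ℂ :=
    { toFun := fun f => ∫ ω, f ω ∂(omMeas x R F)
      map_add' := fun f g => integral_add (hint f) (hint g)
      map_smul' := fun a f => integral_const_mul a f }
  refine ⟨φ.mkContinuous 1 fun f => by rw [one_mul]; exact hbd f, ?_, hbd, ?_⟩
  · change ∫ ω, (1 : C(Om x R F, ℂ)) ω ∂(omMeas x R F) = 1
    simp
  · intro c hc f
    change ∫ ω, f (actO x R F c hc ω) ∂(omMeas x R F) = ∫ ω, f ω ∂(omMeas x R F)
    have h1 := omMeas_act x R F hR c hc
    rw [← integral_map h1.measurable.aemeasurable, h1.map_eq]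
    rw [h1.map_eq]
    exact f.continuous.aestronglyMeasurable

end functional

end Vale.Agent.P184.H428
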