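import Vale.Agent.P184.Ex.Lim1

/-!
# Transfer of idempotents to groups to which finite parts of the multiplication table lift
-/

open scoped ENNReal

namespace Vale.Agent.P184.H57

open Vale.Agent.P184.Un

namespace Lim

open Ker
open scoped Matrix.Norms.Operator

universe u v

/-- The coefficient algebra. -/
abbrev MR (q : ℕ) := Matrix (Fin q) (Fin q) ℂ

section conv

variable {G : Type*} [Group G] {q : ℕ}

theorem norm_entry (A : MR q) (i j : Fin q) : ‖A i j‖ ≤ ‖A‖ := by
  rw [Matrix.linfty_opNorm_def]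
  have h1 : ‖A i j‖₊ ≤ ∑ j, ‖A i j‖₊ :=
    Finset.single_le_sum (f := fun j => ‖A i j‖₊) (fun _ _ => zero_le) (Finset.mem_univ j)
  have h2 : ∑ j, ‖A i j‖₊ ≤ Finset.univ.sup fun i => ∑ j, ‖A i j‖₊ :=
    Finset.le_sup (f := fun i => ∑ j, ‖A i j‖₊) (Finset.mem_univ i)
  exact_mod_cast h1.trans h2

theorem norm_le_sum (A : MR q) : ‖A‖ ≤ ∑ i, ∑ j, ‖A i j‖ := by
  rw [Matrix.linfty_opNorm_def]
  have h2 : (Finset.univ.sup fun i => ∑ j, ‖A i j‖₊) ≤ ∑ i, ∑ j, ‖A i j‖₊ :=
    Finset.sup_le fun i _ => Finset.single_le_sum (f := fun i => ∑ j, ‖A i j‖₊)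
      (fun _ _ => zero_le) (Finset.mem_univ i)
  refine (NNReal.coe_le_coe.2 h2).trans_eq ?_
  push_cast
  rfl

instance [NeZero q] : NormOneClass (MR q) := inferInstance

instance : CompleteSpace (MR q) := inferInstance

/-- The coefficients of a matrix. -/
def cm (a : Mat G q) (g : G) : MR q := Matrix.of fun i j => a i j g

omit [Group G] in
theorem cm_sm {a : Mat G q} (h : InL1 a) : Summable fun g => ‖cm a g‖ :=
  Summable.of_nonneg_of_le (fun _ => norm_nonneg _) (fun _ => norm_le_sum _)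
    (summable_sum fun i _ => summable_sum fun j _ => h i j)

variable [NeZero q]

/-- The matrix of a kernel. -/
noncomputable def ofK (k : Ker G (MR q)) : Mat G q := fun i j g => k.e 1 g i j

theorem ofK_l1 (k : Ker G (MR q)) : InL1 (ofK k) := fun i j =>
  Summable.of_nonneg_of_le (fun _ => norm_nonneg _) (fun _ => norm_entry _ i j) (sm_e k)

theorem ofK_inj {k k' : Ker G (MR q)} (h : Inv k) (h' : Inv k') (e : ofK k = ofK k') : k = k' := by
  refine Ker.ext fun p p' => ?_
  rw [h.e_eq, h'.e_eq]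
  ext i j
  exact congrFun (congrFun (congrFun e i) j) _

/-- Entries as additive maps. -/
def enH (q : ℕ) (i j : Fin q) : MR q →+ ℂ where
  toFun A := A i j
  map_zero' := rfl
  map_add' _ _ := rfl

theorem enH_cont (q : ℕ) (i j : Fin q) : Continuous (enH q i j) :=
  AddMonoidHomClass.continuous_of_bound (enH q i j) 1 fun A => by
    rw [one_mul]
    exact norm_entry A i j

theorem ofK_mul (k : Ker G (MR q)) {k' : Ker G (MR q)} (h : Inv k') :
    mul (ofK k) (ofK k') = ofK (k * k') := by
  funext i j g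
  have h1 : Summable fun l => k.e 1 l * k'.e l g := (e_mul_summable k k' 1 g).of_norm
  have h2 := (h1.hasSum.map (enH q i j) (enH_cont q i j)).tsum_eq
  have h3 : ofK (k * k') i j g = enH q i j (∑' l, k.e 1 l * k'.e l g) :=
    congrArg (enH q i j) (e_mul k k' 1 g)
  rw [h3, ← h2]
  have h4 : ∀ l : Fin q, Summable fun t => ofK k i l t * ofK k' l j (t⁻¹ * g) := fun l => by
    refine Summable.of_norm_bounded (g := fun t => ‖ofK k i l t‖ * ‖k'‖)
      ((ofK_l1 k i l).mul_right _) fun t => ?_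
    refine (norm_mul_le _ _).trans (mul_le_mul_of_nonneg_left ?_ (norm_nonneg _))
    exact (norm_entry _ l j).trans ((norm_e_le k' _ _).trans (norm_co_le k' _))
  unfold mul
  rw [← Summable.tsum_finsetSum fun l _ => h4 l]
  refine tsum_congr fun t => ?_
  change _ = (k.e 1 t * k'.e t g) i j
  rw [h.e_eq t g, Matrix.mul_apply]
  rfl

/-- The trace of matrices. -/
def trH (q : ℕ) : MR q →+ ℂ := Matrix.traceAddMonoidHom (Fin q) ℂ

omit [NeZero q] in
theorem trH_le (A : MR q) : ‖trH q A‖ ≤ q * ‖A‖ := by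
  refine (norm_sum_le _ _).trans ((Finset.sum_le_card_nsmul _ _ ‖A‖ fun i _ =>
    norm_entry A i i).trans_eq ?_)
  simp

open Classical in
/-- The indicator function of a conjugacy class. -/
noncomputable def ind (C : ConjClasses G) (g : G) : ℂ := if ConjClasses.mk g = C then 1 else 0

theorem norm_ind (C : ConjClasses G) (g : G) : ‖ind C g‖ ≤ 1 := by
  unfold ind
  split_ifs <;> simp

theorem ind_mul (C : ConjClasses G) (g h : G) : ind C (g * h) = ind C (h * g) := by
  have : ConjClasses.mk (g * h) = ConjClasses.mk (h * g) :=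
    ConjClasses.mk_eq_mk_iff_isConj.2 (isConj_iff.2 ⟨h, by group⟩)
  unfold ind
  rw [this]

variable {H : Type*} [Group H]

theorem fiber_eq (φ : H →* G) (C : ConjClasses G) (u : H → ℂ) :
    ∑' h : {h : H // ConjClasses.mk (φ h) = C}, u h = ∑' h, ind C (φ h) * u h := by
  classical
  refine (tsum_subtype {h : H | ConjClasses.mk (φ h) = C} u).trans (tsum_congr fun h => ?_)
  unfold ind
  by_cases hh : ConjClasses.mk (φ h) = C
  · rw [Set.indicator_of_mem (s := {h : H | ConjClasses.mk (φ h) = C}) hh, if_pos hh, one_mul]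
  · rw [Set.indicator_of_notMem (s := {h : H | ConjClasses.mk (φ h) = C}) hh, if_neg hh, zero_mul]

theorem carrier_eq (C : ConjClasses G) (u : G → ℂ) :
    ∑' g : C.carrier, u g = ∑' g, ind C g * u g := by
  classical
  rw [tsum_subtype]
  refine tsum_congr fun g => ?_
  unfold ind
  by_cases hh : ConjClasses.mk g = C
  · rw [Set.indicator_of_mem (ConjClasses.mem_carrier_iff_mk_eq.2 hh), if_pos hh, one_mul]
  · rw [Set.indicator_of_notMem fun h => hh (ConjClasses.mem_carrier_iff_mk_eq.1 h), if_neg hh,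
      zero_mul]

end conv

theorem transfer_pos {G : Type u} [Group G] {q : ℕ} [NeZero q] (e : Mat G q) (he : IsIdem e) :
    ∃ S : Finset G, ∀ (H : Type v) [Group H] (f : H →* G) (s : G → H),
      (∀ x ∈ S, f (s x) = x) → (∀ x ∈ S, ∀ y ∈ S, x * y ∈ S → s x * s y = s (x * y)) →
      ∃ b : Mat H q, IsIdem b ∧ ∀ C : ConjClasses G,
        tau C e = ∑' h : {h : H // ConjClasses.mk (f h) = C}, ∑ i, b i i h := by
  set E : Ker G (MR q) := kr (cm e) (cm_sm he.1) with hE
  have i1 : Inv E := inv_kr _ _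
  have o1 : ofK E = e := by
    funext i j g
    change (kr (cm e) (cm_sm he.1)).e 1 g i j = _
    rw [e_kr, inv_one, one_mul]
    rfl
  have i2 : E * E = E := ofK_inj (i1.mul i1) i1 (by rw [← ofK_mul E i1, o1, he.2])
  obtain ⟨S, hS⟩ := lift_main.{v} i1 i2
  refine ⟨S, fun H _ f s h1 h2 => ?_⟩
  obtain ⟨b, b1, b2, b3⟩ := hS H f s h1 h2
  refine ⟨ofK b, ⟨ofK_l1 b, by rw [ofK_mul b b1, b2]⟩, fun C => ?_⟩
  have c1 : fw f b * fw f b = fw f b := by rw [← fw_mul f b b1, b2]
  have c2 := tC_close (t := trH q) trH_le (w := ind C) (norm_ind C)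
    (fun a b => Matrix.trace_mul_comm a b) (ind_mul C) (inv_fw f b) i1 c1 i2 b3
  rw [tC_fw f trH_le (norm_ind C)] at c2
  have c3 : tau C e = tC (trH q) (ind C) E := by
    unfold tau tC
    rw [carrier_eq C fun g => ∑ i, e i i g]
    refine tsum_congr fun g => ?_
    congr 1
    rw [hE, e_kr, inv_one, one_mul]
    rfl
  rw [c3, c2, fiber_eq f C fun h => ∑ i, ofK b i i h]
  rfl

/-- Summation over the conjugacy classes. -/
theorem regroup {G H : Type*} [Group G] [Group H] (f : H →* G) (C : ConjClasses G) {u : H → ℂ}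
    (hu : Summable fun h => ‖u h‖)
    (h0 : ∀ y : H, ConjClasses.mk (f y) = C → ∑' h : (ConjClasses.mk y).carrier, u h = 0) :
    ∑' h : {h : H // ConjClasses.mk (f h) = C}, u h = 0 := by
  rw [fiber_eq]
  have h1 : Summable fun h => ind C (f h) * u h :=
    Summable.of_norm_bounded hu fun h => by
      refine (norm_mul_le _ _).trans ?_
      exact mul_le_of_le_one_left (norm_nonneg _) (norm_ind C _)
  have h2 := (Equiv.sigmaFiberEquiv (ConjClasses.mk : H → ConjClasses H)).tsum_eq
    fun h => ind C (f h) * u h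
  have h3 := (Equiv.sigmaFiberEquiv (ConjClasses.mk : H → ConjClasses H)).summable_iff.2 h1
  rw [← h2]
  refine (h3.tsum_sigma).trans ?_
  refine (tsum_congr fun D => ?_).trans tsum_zero
  obtain ⟨y, rfl⟩ := ConjClasses.exists_rep D
  have h4 : ∀ h : {h : H // ConjClasses.mk h = ConjClasses.mk y}, ind C (f h) = ind C (f y) := by
    intro h
    have : ConjClasses.mk (f h) = ConjClasses.mk (f y) :=
      congrArg (ConjClasses.map f) h.2
    unfold ind
    rw [this]
  change ∑' h : {h : H // ConjClasses.mk h = ConjClasses.mk y}, ind C (f h) * u h = 0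
  simp_rw [h4]
  rw [tsum_mul_left]
  by_cases hy : ConjClasses.mk (f y) = C
  · have h5 : ∑' h : {h : H // ConjClasses.mk h = ConjClasses.mk y}, u h = 0 := by
      rw [← h0 y hy, carrier_eq]
      exact fiber_eq (MonoidHom.id H) (ConjClasses.mk y) u
    rw [h5, mul_zero]
  · unfold ind
    rw [if_neg hy, zero_mul]

end Lim

open Lim

universe u v

/-- Every idempotent `e` over `ℓ¹(G)` is controlled by a finite part `S` of the multiplication
table: if `S` lifts to `H`, which maps to `G` by `f`, then there is an idempotent `b` over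
`ℓ¹(H)` whose image has the traces of `e`. -/
theorem transfer {G : Type u} [Group G] {q : ℕ} (e : Mat G q) (he : IsIdem e) :
    ∃ S : Finset G, ∀ (H : Type v) [Group H] (f : H →* G) (s : G → H),
      (∀ x ∈ S, f (s x) = x) → (∀ x ∈ S, ∀ y ∈ S, x * y ∈ S → s x * s y = s (x * y)) →
      ∃ b : Mat H q, IsIdem b ∧ ∀ C : ConjClasses G,
        tau C e = ∑' h : {h : H // ConjClasses.mk (f h) = C}, ∑ i, b i i h := by
  rcases Nat.eq_zero_or_pos q with rfl | hq
  · refine ⟨∅, fun H _ f s _ _ => ⟨fun i => i.elim0, ⟨fun i => i.elim0, ?_⟩, fun C => ?_⟩⟩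
    · funext i
      exact i.elim0
    · unfold tau
      simp
  · have : NeZero q := ⟨hq.ne'⟩
    exact transfer_pos e he

theorem trace_sm {H : Type*} [Group H] {q : ℕ} {b : Mat H q} (hb : InL1 b) :
    Summable fun h => ‖∑ i, b i i h‖ :=
  Summable.of_nonneg_of_le (fun _ => norm_nonneg _) (fun _ => norm_sum_le _ _)
    (summable_sum fun i _ => hb i i)

/-- If the finite parts of the multiplication table of `G` lift to groups which satisfy the
`ℓ¹`-Bass conjecture, then `G` satisfies the `ℓ¹`-Bass conjecture. -/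
theorem l1Bass_of_lifts {G : Type u} [Group G]
    (h : ∀ S : Finset G, ∃ (H : Type v) (_ : Group H), Lifts H S ∧ L1Bass H) : L1Bass G := by
  classical
  intro q e he
  obtain ⟨S, hS⟩ := transfer.{u, v} e he
  obtain ⟨H, hH, ⟨f, s, hs⟩, hB⟩ := h S
  obtain ⟨b, b1, b2⟩ := hS H f s (fun x hx => (hs x hx).1) (fun x hx => (hs x hx).2)
  obtain ⟨F, hF1, hF2⟩ := hB q b b1
  refine ⟨F.image (ConjClasses.map f), fun C hC g hg => ?_, fun C hC => ?_⟩
  · obtain ⟨D, hD, rfl⟩ := Finset.mem_image.1 hC
    obtain ⟨y, rfl⟩ := ConjClasses.exists_rep D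
    have h1 : IsOfFinOrder y := hF1 _ hD y ConjClasses.mem_carrier_mk
    have h2 : IsConj g (f y) :=
      ConjClasses.mk_eq_mk_iff_isConj.1 (ConjClasses.mem_carrier_iff_mk_eq.1 hg)
    obtain ⟨c, hc⟩ := isConj_iff.1 h2.symm
    have h3 : IsOfFinOrder (MulAut.conj c (f y)) :=
      (MulAut.conj c).toMonoidHom.isOfFinOrder (f.isOfFinOrder h1)
    rwa [MulAut.conj_apply, hc] at h3
  · rw [b2]
    refine regroup f C (trace_sm b1.1) fun y hy => ?_
    refine hF2 (ConjClasses.mk y) fun hy2 => hC ?_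
    exact Finset.mem_image.2 ⟨_, hy2, hy⟩

/-- Vanishing of the traces at `x` follows from the vanishing of the traces at the preimages of
the conjugates of `x`, in groups to which the finite parts of the multiplication table lift. -/
theorem vanishesAt_of_lifts {G : Type u} [Group G] (x : G)
    (h : ∀ S : Finset G, ∃ (H : Type v) (_ : Group H) (f : H →* G) (s : G → H),
      (∀ x ∈ S, f (s x) = x ∧ ∀ y ∈ S, x * y ∈ S → s x * s y = s (x * y)) ∧
      ∀ y : H, IsConj x (f y) → VanishesAt y) : VanishesAt x := by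
  intro q e he
  obtain ⟨S, hS⟩ := transfer.{u, v} e he
  obtain ⟨H, hH, f, s, hs, hV⟩ := h S
  obtain ⟨b, b1, b2⟩ := hS H f s (fun x hx => (hs x hx).1) (fun x hx => (hs x hx).2)
  rw [b2]
  refine regroup f _ (trace_sm b1.1) fun y hy => ?_
  exact hV y (ConjClasses.mk_eq_mk_iff_isConj.1 hy).symm q b b1

end Vale.Agent.P184.H57
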