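import Vale.Agent.P184.R3.UDefs
import Vale.Agent.P184.Ex.D

/-!
# Lifting idempotents along partial homomorphisms, in the algebra of kernels
-/

open scoped ENNReal

namespace Vale.Agent.P184.H57.Lim

open Vale.Agent.P184.Un Ker

set_option linter.unusedSectionVars false

universe u v

section Newton

variable {A : Type*} [NormedRing A]

/-- The Newton step. -/
def nw (x : A) : A := x - (2 * x - 1) * (x * x - x)

theorem nw_idem (x : A) :
    nw x * nw x - nw x = (x * x - x) * (x * x - x) * (4 * (x * x - x) - 3) := by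
  unfold nw
  noncomm_ring

theorem nw_small {x : A} {N t : ℝ} (h1 : ‖x‖ ≤ N) [NormOneClass A] (h2 : ‖x * x - x‖ ≤ t)
    (ht : t ≤ 1 / 12) :
    ‖nw x * nw x - nw x‖ ≤ t / 2 ∧ ‖nw x - x‖ ≤ (2 * N + 1) * t := by
  have h0 : 0 ≤ t := (norm_nonneg _).trans h2
  have hN : 0 ≤ N := (norm_nonneg _).trans h1
  constructor
  · rw [nw_idem]
    have a1 : ‖(4 : A)‖ ≤ 4 := by
      have := Nat.norm_cast_le (α := A) 4
      simpa using this
    have a2 : ‖(3 : A)‖ ≤ 3 := by
      have := Nat.norm_cast_le (α := A) 3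
      simpa using this
    have a3 : ‖4 * (x * x - x) - 3‖ ≤ 4 * t + 3 := by
      refine (norm_sub_le _ _).trans (add_le_add ?_ a2)
      exact (norm_mul_le _ _).trans (mul_le_mul a1 h2 (norm_nonneg _) (by norm_num))
    have a4 : ‖(x * x - x) * (x * x - x)‖ ≤ t * t :=
      (norm_mul_le _ _).trans (mul_le_mul h2 h2 (norm_nonneg _) h0)
    refine (norm_mul_le _ _).trans ((mul_le_mul a4 a3 (norm_nonneg _) (by positivity)).trans ?_)
    nlinarith
  · have e : nw x - x = -((2 * x - 1) * (x * x - x)) := by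
      unfold nw
      abel
    rw [e, norm_neg]
    have a1 : ‖(2 : A)‖ ≤ 2 := by
      have := Nat.norm_cast_le (α := A) 2
      simpa using this
    have a3 : ‖2 * x - 1‖ ≤ 2 * N + 1 := by
      refine (norm_sub_le _ _).trans (add_le_add ?_ norm_one.le)
      exact (norm_mul_le _ _).trans (mul_le_mul a1 h1 (norm_nonneg _) (by norm_num))
    exact (norm_mul_le _ _).trans (mul_le_mul a3 h2 (norm_nonneg _) (by positivity))

/-- Elements which are nearly idempotent are near idempotents. -/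
theorem exists_idem [CompleteSpace A] [NormOneClass A] {a : A} {N t : ℝ} (hN : ‖a‖ ≤ N)
    (ht : ‖a * a - a‖ ≤ t) (h : 4 * (2 * N + 3) * t ≤ 1) (C : Set A) (hC : IsClosed C)
    (hC' : ∀ x ∈ C, nw x ∈ C) (ha : a ∈ C) :
    ∃ b ∈ C, b * b = b ∧ ‖b - a‖ ≤ 2 * (2 * N + 3) * t := by
  have h0 : 0 ≤ t := (norm_nonneg _).trans ht
  have hN0 : 0 ≤ N := (norm_nonneg _).trans hN
  have ht' : t ≤ 1 / 12 := by nlinarith
  set f : ℕ → A := fun n => nw^[n] a with hf
  have fs : ∀ n, f (n + 1) = nw (f n) := fun n => Function.iterate_succ_apply' _ _ _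
  have key : ∀ n, f n ∈ C ∧ ‖f n * f n - f n‖ ≤ t * (1 / 2) ^ n ∧
      ‖f n - a‖ ≤ 2 * (2 * N + 3) * t * (1 - (1 / 2) ^ n) := by
    intro n
    induction n with
    | zero => exact ⟨ha, by simpa [hf] using ht, by simp [hf]⟩
    | succ n ih =>
      obtain ⟨i1, i2, i3⟩ := ih
      have p0 : (0 : ℝ) < (1 / 2) ^ n := by positivity
      have p1 : ((1 : ℝ) / 2) ^ n ≤ 1 := pow_le_one₀ (by norm_num) (by norm_num)
      have j1 : ‖f n‖ ≤ N + 1 := by
        have : f n = a + (f n - a) := by abel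
        rw [this]
        refine (norm_add_le _ _).trans (add_le_add hN (i3.trans ?_))
        nlinarith [mul_nonneg (mul_nonneg (by norm_num : (0:ℝ) ≤ 2) (by positivity : 0 ≤ 2 * N + 3)) h0]
      have j2 := nw_small j1 i2 (by nlinarith)
      rw [fs]
      refine ⟨hC' _ i1, j2.1.trans (le_of_eq (by rw [pow_succ]; ring)), ?_⟩
      have : nw (f n) - a = (nw (f n) - f n) + (f n - a) := by abel
      rw [this]
      refine (norm_add_le _ _).trans ((add_le_add j2.2 i3).trans (le_of_eq ?_))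
      rw [pow_succ]
      ring
  have step : ∀ n, dist (f n) (f (n + 1)) ≤ (2 * N + 3) * t * (1 / 2) ^ n := by
    intro n
    obtain ⟨i1, i2, i3⟩ := key n
    have p0 : (0 : ℝ) < (1 / 2) ^ n := by positivity
    have p1 : ((1 : ℝ) / 2) ^ n ≤ 1 := pow_le_one₀ (by norm_num) (by norm_num)
    have j1 : ‖f n‖ ≤ N + 1 := by
      have : f n = a + (f n - a) := by abel
      rw [this]
      refine (norm_add_le _ _).trans (add_le_add hN (i3.trans ?_))
      nlinarith [mul_nonneg (mul_nonneg (by norm_num : (0:ℝ) ≤ 2) (by positivity : 0 ≤ 2 * N + 3)) h0]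
    have j2 := nw_small j1 i2 (by nlinarith)
    rw [dist_comm, dist_eq_norm, fs]
    refine j2.2.trans (le_of_eq ?_)
    ring
  have hc : CauchySeq f := cauchySeq_of_le_geometric (1 / 2) _ (by norm_num) step
  obtain ⟨b, hb⟩ := cauchySeq_tendsto_of_complete hc
  refine ⟨b, hC.mem_of_tendsto hb (Filter.Eventually.of_forall fun n => (key n).1), ?_, ?_⟩
  · have h1 : Filter.Tendsto (fun n => f n * f n - f n) Filter.atTop (nhds (b * b - b)) :=
      (hb.mul hb).sub hb
    have h2 : Filter.Tendsto (fun n => f n * f n - f n) Filter.atTop (nhds 0) := by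
      refine squeeze_zero_norm (fun n => (key n).2.1) ?_
      rw [← mul_zero t]
      exact (tendsto_pow_atTop_nhds_zero_of_lt_one (by norm_num) (by norm_num)).const_mul t
    exact sub_eq_zero.1 (tendsto_nhds_unique h1 h2)
  · refine le_of_tendsto ((hb.sub_const a).norm) (Filter.Eventually.of_forall fun n => ?_)
    refine (key n).2.2.trans ?_
    have p0 : (0 : ℝ) < (1 / 2) ^ n := by positivity
    have : 0 ≤ 2 * (2 * N + 3) * t := by positivity
    nlinarith

/-- Close idempotents are similar. -/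
theorem exists_conj [CompleteSpace A] {P E : A} (hP : P * P = P) (hE : E * E = E)
    (h : ‖(2 * P - 1) * (E - P)‖ < 1) :
    ∃ v : A, (1 + (2 * P - 1) * (E - P)) * v = 1 ∧ v * (1 + (2 * P - 1) * (E - P)) = 1 ∧
      E = v * (P * (1 + (2 * P - 1) * (E - P))) := by
  have h' : ‖-((2 * P - 1) * (E - P))‖ < 1 := by rwa [norm_neg]
  set U := Units.oneSub _ h' with hU
  have e : (U : A) = 1 + (2 * P - 1) * (E - P) := by
    rw [hU, Units.val_oneSub, sub_neg_eq_add]
  refine ⟨(U⁻¹ : Aˣ), ?_, ?_, ?_⟩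
  · rw [← e, Units.mul_inv]
  · rw [← e, Units.inv_mul]
  · have e1 : P * (1 + (2 * P - 1) * (E - P)) = (1 + (2 * P - 1) * (E - P)) * E := by
      have a1 : P * (1 + (2 * P - 1) * (E - P)) =
          P + 2 * (P * P) * E - 2 * (P * P) * P - P * E + P * P := by noncomm_ring
      have a2 : (1 + (2 * P - 1) * (E - P)) * E =
          E + 2 * P * (E * E) - 2 * (P * P) * E - E * E + P * E := by noncomm_ring
      rw [a1, a2, hP, hE, mul_assoc 2 P P, hP]
      noncomm_ring
    rw [e1, ← e, Units.inv_mul_cancel_left]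

end Newton

section Kern

variable {G R : Type*} [Group G] [NormedRing R] [NormOneClass R]

/-- Constant functions. -/
noncomputable def cs (r : R) : Li G R :=
  ⟨fun _ => r, memℓp_infty ⟨‖r‖, by rintro _ ⟨p, rfl⟩; exact le_rfl⟩⟩

theorem norm_cs (r : R) : ‖(cs r : Li G R)‖ = ‖r‖ :=
  le_antisymm (lp.norm_le_of_forall_le (norm_nonneg _) fun _ => le_rfl)
    (norm_li_apply_le (cs r : Li G R) 1)

/-- Invariant kernels. -/
noncomputable def kr (a : G → R) (ha : Summable fun g => ‖a g‖) : Ker G R :=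
  Ker.mk (fun g => cs (a g)) (by simpa only [norm_cs] using ha)

theorem e_kr (a : G → R) (ha : Summable fun g => ‖a g‖) (p p' : G) :
    (kr a ha).e p p' = a (p⁻¹ * p') := rfl

theorem norm_kr (a : G → R) (ha : Summable fun g => ‖a g‖) : ‖kr a ha‖ = ∑' g, ‖a g‖ := by
  rw [norm_def]
  exact tsum_congr fun g => norm_cs _

open Classical in
theorem single_sm (g : G) (r : R) : Summable fun g' : G => ‖if g' = g then r else 0‖ :=
  summable_of_ne_finset_zero (s := {g}) fun g' hg => by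
    rw [if_neg (by simpa using hg), norm_zero]

open Classical in
/-- Translations. -/
noncomputable def pt (g : G) (r : R) : Ker G R :=
  kr (fun g' => if g' = g then r else 0) (single_sm g r)

open Classical in
theorem e_pt (g : G) (r : R) (p p' : G) :
    (pt g r).e p p' = if p⁻¹ * p' = g then r else 0 := rfl

theorem norm_pt (g : G) (r : R) : ‖pt g r‖ = ‖r‖ := by
  classical
  unfold pt
  rw [norm_kr, tsum_eq_single g fun g' hg => by rw [if_neg hg, norm_zero], if_pos rfl]

theorem pt_add (g : G) (r r' : R) : pt g (r + r') = pt g r + pt g r' := by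
  classical
  ext p p'
  rw [e_add, e_pt, e_pt, e_pt]
  split_ifs <;> simp

theorem pt_zero (g : G) : pt g (0 : R) = 0 := by
  classical
  ext p p'
  rw [e_pt, e_zero, ite_self]

/-- Translations as additive maps. -/
noncomputable def ptH (g : G) : R →+ Ker G R where
  toFun := pt g
  map_zero' := pt_zero g
  map_add' := pt_add g

theorem continuous_pt (g : G) : Continuous (pt g : R → Ker G R) :=
  AddMonoidHomClass.continuous_of_bound (ptH g) 1 fun r => by
    rw [one_mul]
    exact (norm_pt g r).le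

variable [CompleteSpace R]

theorem pt_mul (g g' : G) (r r' : R) : pt g r * pt g' r' = pt (g * g') (r * r') := by
  classical
  ext p p'
  rw [e_mul, tsum_eq_single (p * g) fun h hh => ?_]
  · rw [e_pt, e_pt, e_pt, inv_mul_cancel_left, if_pos rfl]
    have : (p * g)⁻¹ * p' = g' ↔ p⁻¹ * p' = g * g' := by
      rw [mul_inv_rev, mul_assoc, inv_mul_eq_iff_eq_mul]
    by_cases h : p⁻¹ * p' = g * g'
    · rw [if_pos h, if_pos (this.2 h)]
    · rw [if_neg h, if_neg fun h' => h (this.1 h'), mul_zero]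
  · rw [e_pt, if_neg, zero_mul]
    intro h'
    exact hh (by rw [← h', mul_inv_cancel_left])

/-- Shifts of kernels. -/
noncomputable def tl (c : G) (k : Ker G R) : Ker G R :=
  Ker.mk (fun g => ⟨fun p => (k.co g).1 (c * p), by
    obtain ⟨C, hC⟩ := (k.co g).2.bddAbove
    refine memℓp_infty ⟨C, ?_⟩
    rintro _ ⟨p, rfl⟩
    exact hC ⟨c * p, rfl⟩⟩) (by
    refine Summable.of_nonneg_of_le (fun g => norm_nonneg _) (fun g => ?_) k.summable
    exact lp.norm_le_of_forall_le (norm_nonneg _) fun p => norm_li_apply_le (k.co g) (c * p))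

theorem e_tl (c : G) (k : Ker G R) (p p' : G) : (tl c k).e p p' = k.e (c * p) (c * p') := by
  have h : (tl c k).e p p' = (k.co (p⁻¹ * p')).1 (c * p) := rfl
  rw [h, co_apply, mul_assoc, mul_inv_cancel_left]

/-- Invariance. -/
def Inv (k : Ker G R) : Prop := ∀ c p p', k.e (c * p) (c * p') = k.e p p'

theorem inv_iff {k : Ker G R} : Inv k ↔ ∀ c, tl c k = k := by
  refine ⟨fun h c => by ext p p'; rw [e_tl, h], fun h c p p' => ?_⟩
  have := congrArg (fun k' : Ker G R => k'.e p p') (h c)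
  simpa only [e_tl] using this

theorem tl_mul (c : G) (k k' : Ker G R) : tl c (k * k') = tl c k * tl c k' := by
  ext p p'
  rw [e_tl, e_mul, e_mul, ← (Equiv.mulLeft c).tsum_eq]
  exact tsum_congr fun h => by rw [Equiv.coe_mulLeft, e_tl, e_tl]

theorem Inv.mul {k k' : Ker G R} (h : Inv k) (h' : Inv k') : Inv (k * k') :=
  inv_iff.2 fun c => by rw [tl_mul, inv_iff.1 h, inv_iff.1 h']

theorem Inv.add {k k' : Ker G R} (h : Inv k) (h' : Inv k') : Inv (k + k') := fun c p p' => by
  rw [e_add, e_add, h, h']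

theorem Inv.sub {k k' : Ker G R} (h : Inv k) (h' : Inv k') : Inv (k - k') := fun c p p' => by
  rw [e_sub, e_sub, h, h']

theorem inv1 : Inv (1 : Ker G R) := fun c p p' => by
  classical
  rw [e_one, e_one]
  simp

theorem inv_kr (a : G → R) (ha : Summable fun g => ‖a g‖) : Inv (kr a ha) := fun c p p' => by
  rw [e_kr, e_kr, mul_inv_rev, mul_assoc, inv_mul_cancel_left]

theorem inv_pt (g : G) (r : R) : Inv (pt g r) := by
  classical
  exact inv_kr _ _

theorem Inv.nw {k : Ker G R} (h : Inv k) : Inv (nw k) := by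
  have h2 : Inv (2 * k - 1) := by
    rw [two_mul]
    exact (h.add h).sub inv1
  exact h.sub (h2.mul ((h.mul h).sub h))

/-- Inverses of invariant kernels are invariant. -/
theorem Inv.inv {u v : Ker G R} (h : Inv u) (h1 : u * v = 1) (h2 : v * u = 1) : Inv v := by
  refine inv_iff.2 fun c => ?_
  have h3 : tl c v * u = 1 := by
    have := tl_mul c v u
    rw [h2, inv_iff.1 h, inv_iff.1 inv1] at this
    exact this.symm
  calc tl c v = tl c v * (u * v) := by rw [h1, mul_one]
    _ = v := by rw [← mul_assoc, h3, one_mul]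

theorem inv_closed [NormedAlgebra ℂ R] : IsClosed {k : Ker G R | Inv k} := by
  have : {k : Ker G R | Inv k} =
      ⋂ c, ⋂ p, ⋂ p', {k : Ker G R | k.e (c * p) (c * p') = k.e p p'} := by
    ext k
    simp only [Set.mem_iInter, Set.mem_ofPred_eq]
    rfl
  rw [this]
  exact isClosed_iInter fun c => isClosed_iInter fun p => isClosed_iInter fun p' =>
    isClosed_eq (eL (c * p) (c * p')).continuous (eL p p').continuous

omit [CompleteSpace R] in
theorem sm_e (k : Ker G R) : Summable fun g => ‖k.e 1 g‖ := by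
  refine Summable.of_nonneg_of_le (fun g => norm_nonneg _) (fun g => ?_) k.summable
  have := norm_e_le k 1 g
  rwa [inv_one, one_mul] at this

theorem Inv.e_eq {k : Ker G R} (h : Inv k) (p p' : G) : k.e p p' = k.e 1 (p⁻¹ * p') := by
  have := h p 1 (p⁻¹ * p')
  rwa [mul_one, mul_inv_cancel_left] at this

/-! ### Forward map -/

variable {H : Type*} [Group H] (φ : H →* G)

theorem sm_pt {a : H → R} (ha : Summable fun h => ‖a h‖) :
    Summable fun h => ‖(pt (φ h) (a h) : Ker G R)‖ := by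
  simpa only [norm_pt] using ha

/-- The image of a kernel. -/
noncomputable def fw (k : Ker H R) : Ker G R := ∑' h, pt (φ h) (k.e 1 h)

theorem fw_norm (k : Ker H R) : ‖fw φ k‖ ≤ ‖k‖ := by
  have h1 := sm_pt φ (sm_e k)
  refine (norm_tsum_le_tsum_norm h1).trans ?_
  simp only [norm_pt]
  rw [norm_def]
  refine (sm_e k).tsum_le_tsum (fun g => ?_) k.summable
  have := norm_e_le k 1 g
  rwa [inv_one, one_mul] at this

theorem fw_sub (k k' : Ker H R) : fw φ (k - k') = fw φ k - fw φ k' := by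
  unfold fw
  rw [← Summable.tsum_sub (sm_pt φ (sm_e k)).of_norm (sm_pt φ (sm_e k')).of_norm]
  exact tsum_congr fun h => by rw [e_sub]; exact map_sub (ptH (φ h)) _ _

theorem fw_zero : fw φ (0 : Ker H R) = 0 := by
  unfold fw
  simp only [e_zero, pt_zero, tsum_zero]

theorem fw_add (k k' : Ker H R) : fw φ (k + k') = fw φ k + fw φ k' := by
  unfold fw
  rw [← Summable.tsum_add (sm_pt φ (sm_e k)).of_norm (sm_pt φ (sm_e k')).of_norm]
  exact tsum_congr fun h => by rw [e_add]; exact map_add (ptH (φ h)) _ _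

theorem fw_pt (h : H) (r : R) : fw φ (pt h r) = pt (φ h) r := by
  classical
  unfold fw
  rw [tsum_eq_single h fun h' hh => ?_]
  · rw [e_pt, inv_one, one_mul, if_pos rfl]
  · rw [e_pt, inv_one, one_mul, if_neg hh, pt_zero]

theorem fw_sum {ι : Type*} (s : Finset ι) (k : ι → Ker H R) :
    fw φ (∑ i ∈ s, k i) = ∑ i ∈ s, fw φ (k i) := by
  classical
  induction s using Finset.induction_on with
  | empty => simp [fw_zero]
  | insert i s hi ih => rw [Finset.sum_insert hi, Finset.sum_insert hi, fw_add, ih]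

theorem prod_eq (k k' : Ker H R) :
    fw φ k * fw φ k' = ∑' z : H × H, pt (φ (z.1 * z.2)) (k.e 1 z.1 * k'.e 1 z.2) := by
  unfold fw
  rw [tsum_mul_tsum_of_summable_norm (sm_pt φ (sm_e k)) (sm_pt φ (sm_e k'))]
  exact tsum_congr fun z => by rw [pt_mul, map_mul]

theorem sm_z (k k' : Ker H R) :
    Summable fun z : H × H => ‖k.e 1 z.1 * k'.e 1 z.2‖ := by
  refine Summable.of_nonneg_of_le (fun g => norm_nonneg _) (fun z => norm_mul_le _ _)
    ((sm_e k).mul_of_nonneg (sm_e k') (fun _ => norm_nonneg _) (fun _ => norm_nonneg _))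

theorem fw_mul (k : Ker H R) {k' : Ker H R} (h' : Inv k') :
    fw φ (k * k') = fw φ k * fw φ k' := by
  rw [prod_eq φ k k', ← (shear H).tsum_eq, ← (Equiv.prodComm H H).tsum_eq]
  have h1 : Summable fun z : H × H =>
      (pt (φ (z.1 * z.2)) (k.e 1 z.1 * k'.e 1 z.2) : Ker G R) :=
    Summable.of_norm (by simpa only [norm_pt] using sm_z k k')
  have h2 := (Equiv.prodComm H H).summable_iff.2 ((shear H).summable_iff.2 h1)
  refine Eq.trans ?_ h2.tsum_prod.symm
  unfold fw
  refine tsum_congr fun g => ?_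
  rw [e_mul]
  have h3 : Summable fun l => k.e 1 l * k'.e l g := (e_mul_summable k k' 1 g).of_norm
  have h4 := (h3.hasSum.map (ptH (φ g)) (continuous_pt (φ g))).tsum_eq
  change pt (φ g) (∑' l, k.e 1 l * k'.e l g) = _
  rw [show pt (φ g) (∑' l, k.e 1 l * k'.e l g) = ptH (φ g) (∑' l, k.e 1 l * k'.e l g) from rfl,
    ← h4]
  refine tsum_congr fun l => ?_
  change pt (φ g) (k.e 1 l * k'.e l g) = pt (φ (l * (l⁻¹ * g))) (k.e 1 l * k'.e 1 (l⁻¹ * g))
  rw [mul_inv_cancel_left, h'.e_eq l g]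

theorem inv_fw (k : Ker H R) [NormedAlgebra ℂ R] : Inv (fw φ k) := by
  refine inv_closed.mem_of_tendsto (sm_pt φ (sm_e k)).of_norm.hasSum
    (Filter.Eventually.of_forall fun s => ?_)
  classical
  induction s using Finset.induction_on with
  | empty =>
    intro c p p'
    simp [e_zero]
  | insert i s hi ih =>
    rw [Finset.sum_insert hi]
    exact Inv.add (inv_pt _ _) ih

theorem fw_id [NormedAlgebra ℂ R] {k : Ker G R} (h : Inv k) : fw (MonoidHom.id G) k = k := by
  classical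
  ext p p'
  have h1 : Summable fun g => (pt (MonoidHom.id G g) (k.e 1 g) : Ker G R) :=
    (sm_pt (MonoidHom.id G) (sm_e k)).of_norm
  have h2 := (h1.hasSum.map (eL p p') (eL p p').continuous).tsum_eq
  rw [h.e_eq p p']
  refine h2.symm.trans ?_
  rw [tsum_eq_single (p⁻¹ * p') fun g hg => ?_]
  · change (pt (p⁻¹ * p') (k.e 1 (p⁻¹ * p'))).e p p' = _
    rw [e_pt, if_pos rfl]
  · change (pt g (k.e 1 g)).e p p' = _
    rw [e_pt, if_neg (Ne.symm hg)]

/-! ### Traces -/

/-- The trace with a weight. -/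
noncomputable def tC (t : R →+ ℂ) (w : G → ℂ) (k : Ker G R) : ℂ := ∑' g, w g * t (k.e 1 g)

section tr

variable {t : R →+ ℂ} {M : ℝ} (ht : ∀ r, ‖t r‖ ≤ M * ‖r‖) {w : G → ℂ} (hw : ∀ g, ‖w g‖ ≤ 1)

include ht hw

theorem tC_sm (k : Ker G R) : Summable fun g => ‖w g * t (k.e 1 g)‖ := by
  refine Summable.of_nonneg_of_le (fun g => norm_nonneg _) (fun g => ?_) ((sm_e k).mul_left M)
  rw [norm_mul]
  have h1 := ht (k.e 1 g)
  nlinarith [norm_nonneg (t (k.e 1 g)), hw g, norm_nonneg (w g)]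

theorem tC_bound (k : Ker G R) : ‖tC t w k‖ ≤ M * ‖k‖ := by
  have h1 := tC_sm ht hw k
  refine (norm_tsum_le_tsum_norm h1).trans ?_
  have h2 : ∀ g, ‖w g * t (k.e 1 g)‖ ≤ M * ‖k.e 1 g‖ := fun g => by
    rw [norm_mul]
    have h1 := ht (k.e 1 g)
    nlinarith [norm_nonneg (t (k.e 1 g)), hw g, norm_nonneg (w g)]
  have hM : 0 ≤ M := by
    have := (norm_nonneg _).trans (ht 1)
    simpa using this
  refine (h1.tsum_le_tsum h2 ((sm_e k).mul_left M)).trans ?_
  rw [tsum_mul_left, norm_def]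
  refine mul_le_mul_of_nonneg_left ((sm_e k).tsum_le_tsum (fun g => ?_) k.summable) hM
  have := norm_e_le k 1 g
  rwa [inv_one, one_mul] at this

/-- The trace as an additive map. -/
noncomputable def tCH : Ker G R →+ ℂ where
  toFun := tC t w
  map_zero' := by simp [tC, e_zero]
  map_add' k k' := by
    unfold tC
    rw [← Summable.tsum_add (tC_sm ht hw k).of_norm (tC_sm ht hw k').of_norm]
    exact tsum_congr fun g => by rw [e_add, map_add, mul_add]

theorem tC_cont : Continuous (tCH ht hw) :=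
  AddMonoidHomClass.continuous_of_bound (tCH ht hw) M (tC_bound ht hw)

theorem tC_pt (g : G) (r : R) : tC t w (pt g r) = w g * t r := by
  classical
  unfold tC
  rw [tsum_eq_single g fun g' hg => ?_]
  · rw [e_pt, inv_one, one_mul, if_pos rfl]
  · rw [e_pt, inv_one, one_mul, if_neg hg, map_zero, mul_zero]

theorem tC_fw (k : Ker H R) : tC t w (fw φ k) = ∑' h, w (φ h) * t (k.e 1 h) := by
  have h1 := ((sm_pt φ (sm_e k)).of_norm.hasSum.map (tCH ht hw) (tC_cont ht hw)).tsum_eq
  refine h1.symm.trans (tsum_congr fun h => ?_)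
  exact tC_pt ht hw _ _

theorem tC_mul [NormedAlgebra ℂ R] {k k' : Ker G R} (hk : Inv k) (hk' : Inv k') :
    tC t w (k * k') = ∑' z : G × G, w (z.1 * z.2) * t (k.e 1 z.1 * k'.e 1 z.2) := by
  have h0 : k * k' = ∑' z : G × G, pt (z.1 * z.2) (k.e 1 z.1 * k'.e 1 z.2) := by
    have := prod_eq (MonoidHom.id G) k k'
    rw [fw_id hk, fw_id hk'] at this
    exact this
  have h1 : Summable fun z : G × G =>
      (pt (z.1 * z.2) (k.e 1 z.1 * k'.e 1 z.2) : Ker G R) :=
    Summable.of_norm (by simpa only [norm_pt] using sm_z k k')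
  have h2 := (h1.hasSum.map (tCH ht hw) (tC_cont ht hw)).tsum_eq
  rw [h0]
  refine h2.symm.trans (tsum_congr fun h => ?_)
  exact tC_pt ht hw _ _

/-- The trace property. -/
theorem tC_comm [NormedAlgebra ℂ R] (htr : ∀ a b, t (a * b) = t (b * a))
    (hcl : ∀ g h, w (g * h) = w (h * g)) {k k' : Ker G R} (hk : Inv k) (hk' : Inv k') :
    tC t w (k * k') = tC t w (k' * k) := by
  rw [tC_mul ht hw hk hk', tC_mul ht hw hk' hk, ← (Equiv.prodComm G G).tsum_eq]
  exact tsum_congr fun z => by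
    simp only [Equiv.prodComm_apply, Prod.fst_swap, Prod.snd_swap]
    rw [htr, hcl]

/-- Close idempotents have equal traces. -/
theorem tC_close [NormedAlgebra ℂ R] (htr : ∀ a b, t (a * b) = t (b * a))
    (hcl : ∀ g h, w (g * h) = w (h * g)) {P E : Ker G R} (hP : Inv P) (hE : Inv E)
    (hP2 : P * P = P) (hE2 : E * E = E) (h : ‖(2 * P - 1) * (E - P)‖ < 1) :
    tC t w E = tC t w P := by
  obtain ⟨v, h1, h2, h3⟩ := exists_conj hP2 hE2 h
  have i1 : Inv (1 + (2 * P - 1) * (E - P)) := by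
    rw [two_mul]
    exact inv1.add (((hP.add hP).sub inv1).mul (hE.sub hP))
  have i2 : Inv v := i1.inv h1 h2
  rw [h3, tC_comm ht hw htr hcl i2 (hP.mul i1), mul_assoc, h1, mul_one]

end tr

/-! ### Lifting -/

open Classical in
/-- The coefficients of `a * a - a` for finitely supported `a`. -/
noncomputable def cf (S0 : Finset G) (a : G → R) (z : G) : R :=
  (∑ p ∈ (S0 ×ˢ S0) with p.1 * p.2 = z, a p.1 * a p.2) - if z ∈ S0 then a z else 0

open Classical in
theorem lift_sq (s : G → H) (S0 S : Finset G) (a : G → R) (hS0 : S0 ⊆ S)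
    (hS : ∀ x ∈ S0, ∀ y ∈ S0, x * y ∈ S)
    (hs : ∀ x ∈ S, ∀ y ∈ S, x * y ∈ S → s x * s y = s (x * y)) :
    (∑ x ∈ S0, pt (s x) (a x)) * (∑ x ∈ S0, pt (s x) (a x)) - ∑ x ∈ S0, pt (s x) (a x) =
      ∑ z ∈ S, (pt (s z) (cf S0 a z) : Ker H R) := by
  have h1 : (∑ x ∈ S0, pt (s x) (a x)) * (∑ x ∈ S0, pt (s x) (a x)) =
      ∑ z ∈ S, ∑ p ∈ (S0 ×ˢ S0) with p.1 * p.2 = z, (pt (s z) (a p.1 * a p.2) : Ker H R) := by
    rw [Finset.sum_mul_sum, ← Finset.sum_product']
    rw [← Finset.sum_fiberwise_of_maps_to (s := S0 ×ˢ S0) (t := S) (g := fun p => p.1 * p.2)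
      (fun p hp => hS _ (Finset.mem_product.1 hp).1 _ (Finset.mem_product.1 hp).2)]
    refine Finset.sum_congr rfl fun z hz => Finset.sum_congr rfl fun p hp => ?_
    obtain ⟨hp1, hp2⟩ := Finset.mem_filter.1 hp
    obtain ⟨hp3, hp4⟩ := Finset.mem_product.1 hp1
    rw [pt_mul, hs _ (hS0 hp3) _ (hS0 hp4) (hp2 ▸ hz), hp2]
  have h2 : ∑ x ∈ S0, (pt (s x) (a x) : Ker H R) =
      ∑ z ∈ S, pt (s z) (if z ∈ S0 then a z else 0) := by
    rw [← Finset.sum_subset hS0 fun z _ hz => by rw [if_neg hz, pt_zero]]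
    exact Finset.sum_congr rfl fun x hx => by rw [if_pos hx]
  rw [h1, h2, ← Finset.sum_sub_distrib]
  refine Finset.sum_congr rfl fun z _ => ?_
  have h3 : ∑ p ∈ (S0 ×ˢ S0) with p.1 * p.2 = z, (pt (s z) (a p.1 * a p.2) : Ker H R) =
      pt (s z) (∑ p ∈ (S0 ×ˢ S0) with p.1 * p.2 = z, a p.1 * a p.2) :=
    (map_sum (ptH (s z)) _ _).symm
  rw [h3]
  exact (map_sub (ptH (R := R) (s z)) _ _).symm

theorem norm_sum_pt (s : G → H) (S : Finset G) (c : G → R) :
    ‖∑ z ∈ S, (pt (s z) (c z) : Ker H R)‖ ≤ ∑ z ∈ S, ‖c z‖ :=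
  (norm_sum_le _ _).trans (Finset.sum_le_sum fun _ _ => (norm_pt _ _).le)

theorem sum_norm_le (S : Finset G) (c : G → R) :
    ∑ z ∈ S, ‖c z‖ ≤ ‖∑ z ∈ S, (pt z (c z) : Ker G R)‖ := by
  classical
  rw [norm_def]
  refine le_trans (Finset.sum_le_sum fun z hz => ?_)
    ((∑ z ∈ S, (pt z (c z) : Ker G R)).summable.sum_le_tsum S fun _ _ => norm_nonneg _)
  have h1 : (∑ z ∈ S, (pt z (c z) : Ker G R)).e 1 z = c z := by
    have h2 : ∀ T : Finset G, (∑ z ∈ T, (pt z (c z) : Ker G R)).e 1 z =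
        ∑ y ∈ T, (pt y (c y) : Ker G R).e 1 z := by
      intro T
      induction T using Finset.induction_on with
      | empty => simp [e_zero]
      | insert i T hi ih => rw [Finset.sum_insert hi, Finset.sum_insert hi, e_add, ih]
    rw [h2, Finset.sum_eq_single z]
    · rw [e_pt, inv_one, one_mul, if_pos rfl]
    · intro y _ hy
      rw [e_pt, inv_one, one_mul, if_neg (Ne.symm hy)]
    · exact fun h => absurd hz h
  have h3 := norm_e_le (∑ z ∈ S, (pt z (c z) : Ker G R)) 1 z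
  rwa [h1, inv_one, one_mul] at h3

theorem lift_main [NormedAlgebra ℂ R] {E : Ker G R} (hE : Inv E) (hE2 : E * E = E) :
    ∃ S : Finset G, ∀ (H : Type v) [Group H] (f : H →* G) (s : G → H),
      (∀ x ∈ S, f (s x) = x) → (∀ x ∈ S, ∀ y ∈ S, x * y ∈ S → s x * s y = s (x * y)) →
      ∃ b : Ker H R, Inv b ∧ b * b = b ∧ ‖(2 * fw f b - 1) * (E - fw f b)‖ < 1 := by
  classical
  set K : ℝ := 2 * (‖E‖ + 1) + 3 with hK
  have hK3 : 3 ≤ K := by
    have := norm_nonneg E
    rw [hK]
    linarith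
  set δ : ℝ := 1 / (8 * K ^ 3) with hδ
  have hδ0 : 0 < δ := by positivity
  have hδK : K ^ 3 * δ = 1 / 8 := by
    rw [hδ]
    field_simp
  have hδK2 : K ^ 2 * δ ≤ 1 / 24 := by nlinarith [mul_pos (pow_pos (by linarith : 0 < K) 2) hδ0]
  have hδK1 : K * δ ≤ 1 / 72 := by nlinarith [mul_pos (by linarith : 0 < K) hδ0]
  have hδ1 : δ ≤ 1 / 216 := by nlinarith
  have h1 : HasSum (fun g => (pt g (E.e 1 g) : Ker G R)) E := by
    have := (sm_pt (MonoidHom.id G) (sm_e E)).of_norm.hasSum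
    rwa [show (∑' g, (pt (MonoidHom.id G g) (E.e 1 g) : Ker G R)) = E from fw_id hE] at this
  obtain ⟨S0, hS0⟩ := (Metric.tendsto_nhds.1 h1 δ hδ0).exists
  rw [dist_eq_norm] at hS0
  set a : Ker G R := ∑ x ∈ S0, pt x (E.e 1 x) with ha
  have n1 : ‖a‖ ≤ ‖E‖ + 1 := by
    have : a = E + (a - E) := by abel
    rw [this]
    refine (norm_add_le _ _).trans ?_
    linarith
  have n2 : ‖a * a - a‖ ≤ K * δ := by
    have e1 : a * a - a = a * (a - E) + (a - E) * E - (a - E) := by
      rw [sub_mul a E E, hE2]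
      noncomm_ring
    rw [e1]
    have b1 := norm_mul_le a (a - E)
    have b2 := norm_mul_le (a - E) E
    have b3 := norm_sub_le (a * (a - E) + (a - E) * E) (a - E)
    have b4 := norm_add_le (a * (a - E)) ((a - E) * E)
    have b5 := norm_nonneg a
    have b6 := norm_nonneg E
    have b7 := norm_nonneg (a - E)
    have b8 : ‖a‖ * ‖a - E‖ ≤ (‖E‖ + 1) * δ := mul_le_mul n1 hS0.le b7 (by positivity)
    have b9 : ‖a - E‖ * ‖E‖ ≤ δ * (‖E‖ + 1) :=
      mul_le_mul hS0.le (by linarith) b6 hδ0.le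
    rw [hK]
    nlinarith
  set S : Finset G := S0 ∪ (S0 ×ˢ S0).image fun p => p.1 * p.2 with hS
  refine ⟨S, fun H _ f s hs1 hs2 => ?_⟩
  have c0 : S0 ⊆ S := Finset.subset_union_left
  have c1 : ∀ x ∈ S0, ∀ y ∈ S0, x * y ∈ S := fun x hx y hy =>
    Finset.mem_union_right _ (Finset.mem_image.2 ⟨(x, y), Finset.mem_product.2 ⟨hx, hy⟩, rfl⟩)
  set at' : Ker H R := ∑ x ∈ S0, pt (s x) (E.e 1 x) with hat
  have d1 : a * a - a = ∑ z ∈ S, (pt z (cf S0 (fun g => E.e 1 g) z) : Ker G R) :=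
    lift_sq (fun x => x) S0 S (fun g => E.e 1 g) c0 c1 fun _ _ _ _ _ => rfl
  have d2 : at' * at' - at' = ∑ z ∈ S, (pt (s z) (cf S0 (fun g => E.e 1 g) z) : Ker H R) :=
    lift_sq s S0 S (fun g => E.e 1 g) c0 c1 hs2
  have d3 : ‖at' * at' - at'‖ ≤ K * δ := by
    rw [d2]
    refine (norm_sum_pt _ _ _).trans ((sum_norm_le _ _).trans ?_)
    rw [← d1]
    exact n2
  have d4 : ‖at'‖ ≤ ‖E‖ + 1 :=
    (norm_sum_pt _ _ _).trans ((sum_norm_le _ _).trans n1)
  have d5 : Inv at' := by
    have : ∀ T : Finset G, Inv (∑ x ∈ T, (pt (s x) (E.e 1 x) : Ker H R)) := by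
      intro T
      induction T using Finset.induction_on with
      | empty =>
        intro c p p'
        simp [e_zero]
      | insert i T hi ih =>
        rw [Finset.sum_insert hi]
        exact (inv_pt _ _).add ih
    exact this S0
  obtain ⟨b, b1, b2, b3⟩ := exists_idem d4 d3 (by rw [← hK]; nlinarith) {k : Ker H R | Inv k}
    inv_closed (fun x hx => Inv.nw hx) d5
  refine ⟨b, b1, b2, ?_⟩
  have f1 : fw f at' = a := by
    rw [hat, fw_sum]
    exact Finset.sum_congr rfl fun x hx => by rw [fw_pt, hs1 x (c0 hx)]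
  have f2 : ‖fw f b - a‖ ≤ 2 * K * (K * δ) := by
    rw [← f1, ← fw_sub]
    exact (fw_norm f _).trans b3
  have f3 : ‖E - fw f b‖ ≤ 2 * K * (K * δ) + δ := by
    have : E - fw f b = -(a - E) - (fw f b - a) := by abel
    rw [this]
    refine (norm_sub_le _ _).trans ?_
    rw [norm_neg]
    linarith
  have f4 : ‖fw f b‖ ≤ ‖E‖ + 1 := by
    have : fw f b = E - (E - fw f b) := by abel
    rw [this]
    refine (norm_sub_le _ _).trans ?_
    nlinarith
  have f5 : ‖2 * fw f b - 1‖ ≤ K := by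
    have a1 : ‖(2 : Ker G R)‖ ≤ 2 := by
      have := Nat.norm_cast_le (α := Ker G R) 2
      simpa using this
    have a2 : ‖2 * fw f b‖ ≤ 2 * (‖E‖ + 1) :=
      (norm_mul_le _ _).trans (mul_le_mul a1 f4 (norm_nonneg _) (by norm_num))
    refine (norm_sub_le _ _).trans ?_
    rw [norm_one]
    linarith
  calc ‖(2 * fw f b - 1) * (E - fw f b)‖ ≤ K * (2 * K * (K * δ) + δ) :=
        (norm_mul_le _ _).trans (mul_le_mul f5 f3 (norm_nonneg _) (by linarith))
    _ = 2 * (K ^ 3 * δ) + K * δ := by ring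
    _ < 1 := by rw [hδK]; linarith

end Kern

end Vale.Agent.P184.H57.Lim
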