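import Vale.Agent.P184.Ex.LimX

/-!
# Local detection of elements by exact groups
-/

open scoped ENNReal

namespace Vale.Agent.P184.H57

open Vale.Agent.P184.Un

universe u v

namespace Lim

open Ker

section near

variable {G : Type u} {R : Type*} [Group G] [NormedRing R] [NormOneClass R] [CompleteSpace R]

theorem lift_near [NormedAlgebra ℂ R] {E : Ker G R} (hE : Inv E) (hE2 : E * E = E) {η : ℝ}
    (hη : 0 < η) :
    ∃ S : Finset G, ∀ (H : Type v) [Group H] (f : H →* G) (s : G → H),
      (∀ x ∈ S, f (s x) = x) → (∀ x ∈ S, ∀ y ∈ S, x * y ∈ S → s x * s y = s (x * y)) →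
      ∃ b : Ker H R, Inv b ∧ b * b = b ∧ ‖(2 * fw f b - 1) * (E - fw f b)‖ < 1 ∧
        ∃ S0 ⊆ S, ‖b - ∑ x ∈ S0, pt (s x) (E.e 1 x)‖ ≤ η := by
  classical
  set K : ℝ := 2 * (‖E‖ + 1) + 3 with hK
  have hK3 : 3 ≤ K := by
    have := norm_nonneg E
    rw [hK]
    linarith
  set δ : ℝ := min (1 / (8 * K ^ 3)) (η / (2 * K ^ 2)) with hδ
  have hδ0 : 0 < δ := lt_min (by positivity) (by positivity)
  have hδK : K ^ 3 * δ ≤ 1 / 8 := by
    have h1 : δ ≤ 1 / (8 * K ^ 3) := min_le_left _ _
    have h2 : K ^ 3 * δ ≤ K ^ 3 * (1 / (8 * K ^ 3)) := mul_le_mul_of_nonneg_left h1 (by positivity)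
    refine h2.trans (le_of_eq ?_)
    field_simp
  have hδη : 2 * K * (K * δ) ≤ η := by
    have h1 : δ ≤ η / (2 * K ^ 2) := min_le_right _ _
    have h2 : 2 * K ^ 2 * δ ≤ 2 * K ^ 2 * (η / (2 * K ^ 2)) :=
      mul_le_mul_of_nonneg_left h1 (by positivity)
    calc 2 * K * (K * δ) = 2 * K ^ 2 * δ := by ring
      _ ≤ _ := h2
      _ = η := by field_simp
  have hδK2 : K ^ 2 * δ ≤ 1 / 24 := by nlinarith [mul_pos (pow_pos (by linarith : 0 < K) 2) hδ0]
  have hδK1 : K * δ ≤ 1 / 72 := by nlinarith [mul_pos (by linarith : 0 < K) hδ0]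
  have hδ1 : δ ≤ 1 / 216 := by nlinarith
  have h1 : HasSum (fun g => (pt g (E.e 1 g) : Ker G R)) E := by
    have := (sm_pt (MonoidHom.id G) (sm_e E)).of_norm.hasSum
    rwa [show (∑' g, (pt (MonoidHom.id G g) (E.e 1 g) : Ker G R)) = E from fw_id hE] at this
  obtain ⟨S0, hS0⟩ := (Metric.tendsto_nhds.1 h1 δ hδ0).exists
  rw [dist_eq_norm] at hS0
  set a : Ker G R := ∑ x ∈ S0, pt x (E.e 1 x) with ha
  have n1 : ‖a‖ ≤ ‖E‖ + 1 := by
    have : a = E + (a - E) := by abel
    rw [this]
    refine (norm_add_le _ _).trans ?_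
    linarith
  have n2 : ‖a * a - a‖ ≤ K * δ := by
    have e1 : a * a - a = a * (a - E) + (a - E) * E - (a - E) := by
      rw [sub_mul a E E, hE2]
      noncomm_ring
    rw [e1]
    have b1 := norm_mul_le a (a - E)
    have b2 := norm_mul_le (a - E) E
    have b3 := norm_sub_le (a * (a - E) + (a - E) * E) (a - E)
    have b4 := norm_add_le (a * (a - E)) ((a - E) * E)
    have b5 := norm_nonneg a
    have b6 := norm_nonneg E
    have b7 := norm_nonneg (a - E)
    have b8 : ‖a‖ * ‖a - E‖ ≤ (‖E‖ + 1) * δ := mul_le_mul n1 hS0.le b7 (by positivity)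
    have b9 : ‖a - E‖ * ‖E‖ ≤ δ * (‖E‖ + 1) :=
      mul_le_mul hS0.le (by linarith) b6 hδ0.le
    rw [hK]
    nlinarith
  set S : Finset G := S0 ∪ (S0 ×ˢ S0).image fun p => p.1 * p.2 with hS
  refine ⟨S, fun H _ f s hs1 hs2 => ?_⟩
  have c0 : S0 ⊆ S := Finset.subset_union_left
  have c1 : ∀ x ∈ S0, ∀ y ∈ S0, x * y ∈ S := fun x hx y hy =>
    Finset.mem_union_right _ (Finset.mem_image.2 ⟨(x, y), Finset.mem_product.2 ⟨hx, hy⟩, rfl⟩)
  set at' : Ker H R := ∑ x ∈ S0, pt (s x) (E.e 1 x) with hat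
  have d1 : a * a - a = ∑ z ∈ S, (pt z (cf S0 (fun g => E.e 1 g) z) : Ker G R) :=
    lift_sq (fun x => x) S0 S (fun g => E.e 1 g) c0 c1 fun _ _ _ _ _ => rfl
  have d2 : at' * at' - at' = ∑ z ∈ S, (pt (s z) (cf S0 (fun g => E.e 1 g) z) : Ker H R) :=
    lift_sq s S0 S (fun g => E.e 1 g) c0 c1 hs2
  have d3 : ‖at' * at' - at'‖ ≤ K * δ := by
    rw [d2]
    refine (norm_sum_pt _ _ _).trans ((sum_norm_le _ _).trans ?_)
    rw [← d1]
    exact n2
  have d4 : ‖at'‖ ≤ ‖E‖ + 1 :=
    (norm_sum_pt _ _ _).trans ((sum_norm_le _ _).trans n1)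
  have d5 : Inv at' := by
    have : ∀ T : Finset G, Inv (∑ x ∈ T, (pt (s x) (E.e 1 x) : Ker H R)) := by
      intro T
      induction T using Finset.induction_on with
      | empty =>
        intro c p p'
        simp [e_zero]
      | insert i T hi ih =>
        rw [Finset.sum_insert hi]
        exact (inv_pt _ _).add ih
    exact this S0
  obtain ⟨b, b1, b2, b3⟩ := exists_idem d4 d3 (by rw [← hK]; nlinarith) {k : Ker H R | Inv k}
    inv_closed (fun x hx => Inv.nw hx) d5
  refine ⟨b, b1, b2, ?_, S0, c0, b3.trans hδη⟩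
  have f1 : fw f at' = a := by
    rw [hat, fw_sum]
    exact Finset.sum_congr rfl fun x hx => by rw [fw_pt, hs1 x (c0 hx)]
  have f2 : ‖fw f b - a‖ ≤ 2 * K * (K * δ) := by
    rw [← f1, ← fw_sub]
    exact (fw_norm f _).trans b3
  have f3 : ‖E - fw f b‖ ≤ 2 * K * (K * δ) + δ := by
    have : E - fw f b = -(a - E) - (fw f b - a) := by abel
    rw [this]
    refine (norm_sub_le _ _).trans ?_
    rw [norm_neg]
    linarith
  have f4 : ‖fw f b‖ ≤ ‖E‖ + 1 := by
    have : fw f b = E - (E - fw f b) := by abel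
    rw [this]
    refine (norm_sub_le _ _).trans ?_
    nlinarith
  have f5 : ‖2 * fw f b - 1‖ ≤ K := by
    have a1 : ‖(2 : Ker G R)‖ ≤ 2 := by
      have := Nat.norm_cast_le (α := Ker G R) 2
      simpa using this
    have a2 : ‖2 * fw f b‖ ≤ 2 * (‖E‖ + 1) :=
      (norm_mul_le _ _).trans (mul_le_mul a1 f4 (norm_nonneg _) (by norm_num))
    refine (norm_sub_le _ _).trans ?_
    rw [norm_one]
    linarith
  calc ‖(2 * fw f b - 1) * (E - fw f b)‖ ≤ K * (2 * K * (K * δ) + δ) :=
        (norm_mul_le _ _).trans (mul_le_mul f5 f3 (norm_nonneg _) (by linarith))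
    _ = 2 * (K ^ 3 * δ) + K * δ := by ring
    _ < 1 := by linarith

end near

open scoped Matrix.Norms.Operator

/-- Summation over the classes with a property. -/
theorem regroup' {H : Type*} [Group H] (P : ConjClasses H → Prop) [DecidablePred P] {u : H → ℂ}
    (hu : Summable fun h => ‖u h‖)
    (h0 : ∀ y : H, P (ConjClasses.mk y) → ∑' h : (ConjClasses.mk y).carrier, u h = 0) :
    ∑' h : H, (if P (ConjClasses.mk h) then (1 : ℂ) else 0) * u h = 0 := by
  have h1 : Summable fun h => (if P (ConjClasses.mk h) then (1 : ℂ) else 0) * u h :=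
    Summable.of_norm_bounded hu fun h => by
      refine (norm_mul_le _ _).trans ?_
      refine mul_le_of_le_one_left (norm_nonneg _) ?_
      split_ifs <;> simp
  have h2 := (Equiv.sigmaFiberEquiv (ConjClasses.mk : H → ConjClasses H)).tsum_eq
    fun h => (if P (ConjClasses.mk h) then (1 : ℂ) else 0) * u h
  have h3 := (Equiv.sigmaFiberEquiv (ConjClasses.mk : H → ConjClasses H)).summable_iff.2 h1
  rw [← h2]
  refine (h3.tsum_sigma).trans ?_
  refine (tsum_congr fun D => ?_).trans tsum_zero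
  obtain ⟨y, rfl⟩ := ConjClasses.exists_rep D
  change ∑' h : {h : H // ConjClasses.mk h = ConjClasses.mk y},
    (if P (ConjClasses.mk (h : H)) then (1 : ℂ) else 0) * u h = 0
  have h4 : ∀ h : {h : H // ConjClasses.mk h = ConjClasses.mk y},
      (if P (ConjClasses.mk (h : H)) then (1 : ℂ) else 0) * u h =
        (if P (ConjClasses.mk y) then (1 : ℂ) else 0) * u h := by
    intro h
    rw [h.2]
  simp_rw [h4]
  rw [tsum_mul_left]
  by_cases hy : P (ConjClasses.mk y)
  · have h5 : ∑' h : {h : H // ConjClasses.mk h = ConjClasses.mk y}, u h = 0 := by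
      rw [← h0 y hy, carrier_eq]
      exact fiber_eq (MonoidHom.id H) (ConjClasses.mk y) u
    rw [h5, mul_zero]
  · rw [if_neg hy, zero_mul]

end Lim

open Lim Ker
open scoped Matrix.Norms.Operator

/-- The traces at the class of `x` vanish if the finite parts of the multiplication table of `G`
lift to groups where the traces vanish at the lifts of the conjugates of `x`. -/
theorem vanishesAt_of_localLifts {G : Type u} [Group G] (x : G)
    (h : ∀ S : Finset G, ∃ (H : Type v) (_ : Group H) (f : H →* G) (s : G → H),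
      (∀ x ∈ S, f (s x) = x ∧ ∀ y ∈ S, x * y ∈ S → s x * s y = s (x * y)) ∧
      ∀ y ∈ S, IsConj x y → VanishesAt (s y)) : VanishesAt x := by
  classical
  intro q e he
  rcases Nat.eq_zero_or_pos q with rfl | hq
  · unfold tau
    simp
  have : NeZero q := ⟨hq.ne'⟩
  set E : Ker G (MR q) := kr (cm e) (cm_sm he.1) with hE
  have i1 : Inv E := inv_kr _ _
  have o1 : ofK E = e := by
    funext i j g
    change (kr (cm e) (cm_sm he.1)).e 1 g i j = _
    rw [e_kr, inv_one, one_mul]
    rfl
  have i2 : E * E = E := ofK_inj (i1.mul i1) i1 (by rw [← ofK_mul E i1, o1, he.2])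
  set C := ConjClasses.mk x with hC
  have key : ∀ η : ℝ, 0 < η → ‖tau C e‖ ≤ q * η := by
    intro η hη
    obtain ⟨S, hS⟩ := lift_near.{u, v} i1 i2 hη
    obtain ⟨H, hH, f, s, hs, hV⟩ := h S
    obtain ⟨b, b1, b2, b3, S0, hS0, b4⟩ :=
      hS H f s (fun x hx => (hs x hx).1) (fun x hx => (hs x hx).2)
    have c1 : fw f b * fw f b = fw f b := by rw [← fw_mul f b b1, b2]
    have c2 := tC_close (t := trH q) trH_le (w := ind C) (norm_ind C)
      (fun a b => Matrix.trace_mul_comm a b) (ind_mul C) (inv_fw f b) i1 c1 i2 b3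
    rw [tC_fw f trH_le (norm_ind C)] at c2
    have c3 : tau C e = tC (trH q) (ind C) E := by
      unfold tau tC
      rw [carrier_eq C fun g => ∑ i, e i i g]
      refine tsum_congr fun g => ?_
      congr 1
      rw [hE, e_kr, inv_one, one_mul]
      rfl
    have hb1 : IsIdem (ofK b) := ⟨ofK_l1 b, by rw [ofK_mul b b1, b2]⟩
    -- the classes over `C` which meet the lifts
    set P : ConjClasses H → Prop := fun D =>
      ConjClasses.map f D = C ∧ ∃ y ∈ S0, IsConj x y ∧ ConjClasses.mk (s y) = D with hP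
    set Q : ConjClasses H → Prop := fun D => ConjClasses.map f D = C ∧ ¬ P D with hQ
    set w1 : H → ℂ := fun h => if P (ConjClasses.mk h) then 1 else 0 with hw1
    set w2 : H → ℂ := fun h => if Q (ConjClasses.mk h) then 1 else 0 with hw2
    have w2le : ∀ h, ‖w2 h‖ ≤ 1 := fun h => by
      rw [hw2]
      dsimp only
      split_ifs <;> simp
    have w1le : ∀ h, ‖w1 h‖ ≤ 1 := fun h => by
      rw [hw1]
      dsimp only
      split_ifs <;> simp
    have hw : ∀ h, ind C (f h) = w1 h + w2 h := by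
      intro h
      have e1 : (ConjClasses.mk (f h) = C) ↔ ConjClasses.map f (ConjClasses.mk h) = C := Iff.rfl
      rw [hw1, hw2]
      unfold ind
      dsimp only
      by_cases h1 : ConjClasses.mk (f h) = C
      · by_cases h2 : P (ConjClasses.mk h)
        · have h3 : ¬ Q (ConjClasses.mk h) := fun h3 => h3.2 h2
          rw [if_pos h1, if_pos h2, if_neg h3, add_zero]
        · have h3 : Q (ConjClasses.mk h) := ⟨h1, h2⟩
          rw [if_pos h1, if_neg h2, if_pos h3, zero_add]
      · have h2 : ¬ P (ConjClasses.mk h) := fun h2 => h1 h2.1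
        have h3 : ¬ Q (ConjClasses.mk h) := fun h3 => h1 h3.1
        rw [if_neg h1, if_neg h2, if_neg h3, add_zero]
    have s1 := tC_sm (t := trH q) trH_le w1le b
    have s2 := tC_sm (t := trH q) trH_le w2le b
    have d1 : tau C e = tC (trH q) w1 b + tC (trH q) w2 b := by
      rw [c3, c2]
      unfold tC
      rw [← Summable.tsum_add s1.of_norm s2.of_norm]
      exact tsum_congr fun h => by rw [hw, add_mul]
    have d2 : tC (trH q) w1 b = 0 := by
      have h1 : ∀ y : H, P (ConjClasses.mk y) →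
          ∑' h : (ConjClasses.mk y).carrier, (fun h => ∑ i, ofK b i i h) h = 0 := by
        intro y hy
        obtain ⟨_, z, hz, hz2, hz3⟩ := hy
        have := hV z (hS0 hz) hz2 q (ofK b) hb1
        rw [hz3] at this
        exact this
      exact regroup' P (u := fun h => ∑ i, ofK b i i h) (trace_sm hb1.1) h1
    have d3 : tC (trH q) w2 (∑ x ∈ S0, (pt (s x) (E.e 1 x) : Ker H (MR q))) = 0 := by
      have h1 : tC (trH q) w2 (∑ x ∈ S0, (pt (s x) (E.e 1 x) : Ker H (MR q))) =
          ∑ x ∈ S0, tC (trH q) w2 (pt (s x) (E.e 1 x) : Ker H (MR q)) :=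
        map_sum (tCH (t := trH q) trH_le w2le) _ _
      rw [h1]
      refine Finset.sum_eq_zero fun y hy => ?_
      rw [tC_pt (t := trH q) trH_le w2le]
      have h2 : w2 (s y) = 0 := by
        rw [hw2]
        dsimp only
        rw [if_neg]
        rintro ⟨h3, h4⟩
        refine h4 ⟨h3, y, hy, ?_, rfl⟩
        have h5 : ConjClasses.mk (f (s y)) = C := h3
        rw [(hs y (hS0 hy)).1] at h5
        exact (ConjClasses.mk_eq_mk_iff_isConj.1 h5).symm
      rw [h2, zero_mul]
    have d4 : tC (trH q) w2 b =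
        tC (trH q) w2 (b - ∑ x ∈ S0, (pt (s x) (E.e 1 x) : Ker H (MR q))) := by
      have h1 := map_sub (tCH (t := trH q) trH_le w2le) b
        (∑ x ∈ S0, (pt (s x) (E.e 1 x) : Ker H (MR q)))
      change tC (trH q) w2 (b - ∑ x ∈ S0, (pt (s x) (E.e 1 x) : Ker H (MR q))) =
        tC (trH q) w2 b - tC (trH q) w2 (∑ x ∈ S0, (pt (s x) (E.e 1 x) : Ker H (MR q))) at h1
      rw [h1, d3, sub_zero]
    rw [d1, d2, zero_add, d4]
    exact (tC_bound (t := trH q) trH_le w2le _).trans
      (mul_le_mul_of_nonneg_left b4 (Nat.cast_nonneg q))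
  have h0 : ‖tau C e‖ ≤ 0 := by
    refine le_of_forall_pos_le_add fun η hη => ?_
    have hq' : (0 : ℝ) < q := Nat.cast_pos.2 hq
    refine (key (η / q) (by positivity)).trans (le_of_eq ?_)
    rw [zero_add]
    field_simp
  exact norm_le_zero_iff.1 h0

/-- For all homomorphisms from groups to `L`, the traces vanish at the preimages of `l`. -/
def UVAt {L : Type u} [Group L] (l : L) : Prop :=
  ∀ (H : Type u) [Group H] (g : H →* L) (y : H), g y = l → VanishesAt y

/-- Universal vanishing is a local property: if the finite parts of the multiplication table of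
`G` map to groups, such that traces vanish universally at the image of `x`, then traces vanish
at `x`. -/
theorem vanishesAt_of_loc {G : Type u} [Group G] (x : G)
    (h : ∀ S : Finset G, ∃ (L : Type u) (_ : Group L) (l : G → L),
      (∀ a ∈ S, ∀ b ∈ S, l (a * b) = l a * l b) ∧ UVAt (l x)) : VanishesAt x := by
  classical
  refine vanishesAt_of_localLifts.{u, u} x fun S => ?_
  have hsel : ∀ y : G, ∃ c : G, IsConj x y → c * x = y * c := by
    intro y
    by_cases hy : IsConj x y
    · obtain ⟨c, hc⟩ := isConj_iff.1 hy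
      exact ⟨c, fun _ => by rw [← hc]; group⟩
    · exact ⟨1, fun h => absurd h hy⟩
  choose c hc using hsel
  obtain ⟨L, hL, l, hl, hU⟩ := h (S ∪ S.image c ∪ {x})
  have m1 : ∀ y ∈ S, y ∈ S ∪ S.image c ∪ {x} := fun y hy =>
    Finset.mem_union_left _ (Finset.mem_union_left _ hy)
  have m2 : ∀ y ∈ S, c y ∈ S ∪ S.image c ∪ {x} := fun y hy =>
    Finset.mem_union_left _ (Finset.mem_union_right _ (Finset.mem_image_of_mem c hy))
  have m3 : x ∈ S ∪ S.image c ∪ {x} := Finset.mem_union_right _ (Finset.mem_singleton_self x)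
  refine ⟨G × L, inferInstance, MonoidHom.fst G L, fun y => (y, l y), fun y hy => ⟨rfl, ?_⟩, ?_⟩
  · intro z hz _
    change (y * z, l y * l z) = (y * z, l (y * z))
    rw [hl y (m1 y hy) z (m1 z hz)]
  · intro y hy hxy
    have h1 : l y = l (c y) * l x * (l (c y))⁻¹ := by
      rw [eq_mul_inv_iff_mul_eq, ← hl y (m1 y hy) _ (m2 y hy), ← hc y hxy,
        hl _ (m2 y hy) x m3]
    have h2 := hU (G × L)
      (((MulAut.conj (l (c y)))⁻¹ : MulAut L).toMonoidHom.comp (MonoidHom.snd G L)) (y, l y) (by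
        change (MulAut.conj (l (c y)))⁻¹ (l y) = l x
        rw [MulAut.inv_apply, MulEquiv.symm_apply_eq, MulAut.conj_apply, h1])
    exact h2

/-- Universal vanishing is a local property. -/
theorem uvAt_of_loc {G : Type u} [Group G] (x : G)
    (h : ∀ S : Finset G, ∃ (L : Type u) (_ : Group L) (l : G → L),
      (∀ a ∈ S, ∀ b ∈ S, l (a * b) = l a * l b) ∧ UVAt (l x)) : UVAt x := by
  classical
  intro H _ g y hy
  refine vanishesAt_of_loc y fun S => ?_
  obtain ⟨L, hL, l, hl, hU⟩ := h (S.image g)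
  refine ⟨L, hL, fun z => l (g z), fun a ha b hb => ?_, by
    change UVAt (l (g y))
    rwa [hy]⟩
  change l (g (a * b)) = l (g a) * l (g b)
  rw [map_mul]
  exact hl _ (Finset.mem_image_of_mem g ha) _ (Finset.mem_image_of_mem g hb)

/-- The element `x` of `G` is locally detected by groups with property A: for each finite subset
`S` of `G`, there is a map from `G` to such a group, multiplicative on `S`, which maps `x` to an
element of infinite order. -/
def LocDetected {G : Type u} [Group G] (x : G) : Prop :=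
  ∀ S : Finset G, ∃ (L : Type u) (_ : Group L) (l : G → L), PropertyA L ∧
    (∀ a ∈ S, ∀ b ∈ S, l (a * b) = l a * l b) ∧ ¬ IsOfFinOrder (l x)

/-- Elements detected locally by homomorphisms to groups with property A. -/
theorem vanishesAt_of_locDetected {G : Type u} [Group G] {x : G} (h : LocDetected x) :
    VanishesAt x := by
  refine vanishesAt_of_loc x fun S => ?_
  obtain ⟨L, hL, l, hA, hl, hx⟩ := h S
  refine ⟨L, hL, l, hl, fun H _ g y hy => ?_⟩
  exact vanishesAt_of_propertyA hA g y (by rwa [hy])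

/-- The `ℓ¹`-Bass conjecture for groups with finitely many classes of elements of finite order,
where the elements of infinite order are locally detected. -/
theorem l1Bass_of_locDetected {G : Type u} [Group G]
    (hf : {C : ConjClasses G | ∀ g ∈ C.carrier, IsOfFinOrder g}.Finite)
    (h : ∀ x : G, ¬ IsOfFinOrder x → LocDetected x) : L1Bass G := by
  intro q e he
  refine ⟨hf.toFinset, fun C hC => (hf.mem_toFinset.1 hC), fun C hC => ?_⟩
  obtain ⟨x, rfl⟩ := ConjClasses.mk_surjective C
  refine vanishesAt_of_locDetected (h x fun hx => hC ?_) q e he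
  rw [hf.mem_toFinset]
  intro y hy
  rw [ConjClasses.mem_carrier_iff_mk_eq] at hy
  obtain ⟨c, rfl⟩ := isConj_iff.1 (ConjClasses.mk_eq_mk_iff_isConj.1 hy).symm
  exact (MulAut.conj c).toMonoidHom.isOfFinOrder hx

end Vale.Agent.P184.H57
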