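import Vale.Agent.P184.Ex.FH
import Vale.Agent.P184.Ex.Lim

/-!
# Limits of exact groups
-/

namespace Vale.Agent.P184.H57

open Vale.Agent.P184.Un

universe u v

/-- The finite parts of the multiplication table of `G` lift to groups with property A. -/
def LimExact (G : Type u) [Group G] : Prop :=
  ∀ S : Finset G, ∃ (H : Type v) (_ : Group H), Lifts H S ∧ PropertyA H

/-- The `ℓ¹`-Bass conjecture for limits of exact groups. -/
theorem l1Bass_of_limExact {G : Type u} [Group G] (h : LimExact.{u, v} G) : L1Bass G := by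
  refine l1Bass_of_lifts.{u, v} fun S => ?_
  obtain ⟨H, hH, h1, h2⟩ := h S
  exact ⟨H, hH, h1, l1Bass_of_propertyA h2⟩

/-- The finite parts of the multiplication table of `G` lift to groups, which have homomorphisms
to groups with property A such that the images of the elements over the conjugates of `x` have
infinite order. -/
def LimExactAt {G : Type u} [Group G] (x : G) : Prop :=
  ∀ S : Finset G, ∃ (H : Type v) (_ : Group H) (f : H →* G) (s : G → H),
    (∀ x ∈ S, f (s x) = x ∧ ∀ y ∈ S, x * y ∈ S → s x * s y = s (x * y)) ∧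
    ∀ y : H, IsConj x (f y) → ∃ (L : Type v) (_ : Group L) (g : H →* L),
      PropertyA L ∧ ¬ IsOfFinOrder (g y)

/-- Vanishing of the traces at elements with infinite order in limits of exact groups. -/
theorem vanishesAt_of_limExactAt {G : Type u} [Group G] {x : G} (h : LimExactAt.{u, v} x) :
    VanishesAt x := by
  refine vanishesAt_of_lifts.{u, v} x fun S => ?_
  obtain ⟨H, hH, f, s, h1, h2⟩ := h S
  refine ⟨H, hH, f, s, h1, fun y hy => ?_⟩
  obtain ⟨L, hL, g, hA, hy2⟩ := h2 y hy
  exact vanishesAt_of_propertyA hA g y hy2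

/-- Vanishing of the traces at the elements of infinite order of limits of exact groups. -/
theorem vanishesAt_of_limExact {G : Type u} [Group G] (h : LimExact.{u, v} G) {x : G}
    (hx : ¬ IsOfFinOrder x) : VanishesAt x := by
  refine vanishesAt_of_limExactAt.{u, v} fun S => ?_
  obtain ⟨H, hH, ⟨f, s, hs⟩, hA⟩ := h S
  refine ⟨H, hH, f, s, hs, fun y hy => ⟨H, hH, MonoidHom.id H, hA, fun hy2 => hx ?_⟩⟩
  obtain ⟨c, hc⟩ := isConj_iff.1 hy.symm
  have h3 : IsOfFinOrder (MulAut.conj c (f y)) :=
    (MulAut.conj c).toMonoidHom.isOfFinOrder (f.isOfFinOrder hy2)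
  rwa [MulAut.conj_apply, hc] at h3

end Vale.Agent.P184.H57
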