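import Mathlib
import Vale.Agent.P184.Ex.E1

/-!
# E4 : lists, products and Pfaffians
-/

namespace Vale.Agent.P184.H552

open Vale.Agent.P184.H57

section lists

variable {α : Type*}

theorem ofFn_split {n : ℕ} (f : Fin (n + 1) → α) (p : Fin (n + 1)) :
    List.ofFn f = (List.ofFn fun k => f (p.succAbove k)).take p ++
      f p :: (List.ofFn fun k => f (p.succAbove k)).drop p := by
  induction n with
  | zero =>
    have hp : p = 0 := Fin.ext (by omega)
    subst hp
    simp
  | succ n ih =>
    refine Fin.cases ?_ (fun q => ?_) p
    · simp [List.ofFn_succ]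
    · have h := ih (fun k => f k.succ) q
      rw [List.ofFn_succ, h]
      rw [List.ofFn_succ (f := fun k => f (q.succ.succAbove k))]
      simp [Fin.succ_succAbove_succ]

theorem take_ofFn_succAbove {n : ℕ} (f : Fin (n + 1) → α) (p : Fin (n + 1)) :
    (List.ofFn fun k => f (p.succAbove k)).take p = (List.ofFn f).take p := by
  rw [ofFn_split f p, List.take_append_of_le_length]
  · rw [List.take_take, min_self]
  · rw [List.length_take, List.length_ofFn]
    omega

theorem drop_ofFn_succAbove {n : ℕ} (f : Fin (n + 1) → α) (p : Fin (n + 1)) :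
    (List.ofFn fun k => f (p.succAbove k)).drop p = (List.ofFn f).drop (p + 1) := by
  rw [ofFn_split f p, List.drop_append]
  have h1 : ((List.ofFn fun k => f (p.succAbove k)).take p).length = p := by
    rw [List.length_take, List.length_ofFn]
    omega
  rw [h1, List.drop_of_length_le (i := (p : ℕ) + 1) (by rw [h1]; omega)]
  simp

end lists

section prods

variable {M : Type*} [Monoid M]

/-- product of the first factors -/
def pre {n : ℕ} (f : Fin n → M) (l : ℕ) : M := ((List.ofFn f).take l).prod

/-- product of the last factors -/
def post {n : ℕ} (f : Fin n → M) (l : ℕ) : M := ((List.ofFn f).drop l).prod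

theorem prod_insertNth {n : ℕ} (f : Fin n → M) (p : Fin (n + 1)) (X : M) :
    (List.ofFn (Fin.insertNth (α := fun _ => M) p X f)).prod = pre f p * X * post f p := by
  rw [ofFn_split _ p]
  simp [pre, post, mul_assoc]

theorem prod_eq {n : ℕ} (f : Fin (n + 1) → M) (p : Fin (n + 1)) :
    (List.ofFn f).prod = pre (fun k => f (p.succAbove k)) p * f p *
      post (fun k => f (p.succAbove k)) p := by
  rw [ofFn_split _ p]
  simp [pre, post, mul_assoc]

theorem pre_succAbove {n : ℕ} (f : Fin (n + 1) → M) (p : Fin (n + 1)) :
    pre (fun k => f (p.succAbove k)) p = pre f p := by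
  unfold pre
  rw [take_ofFn_succAbove]

theorem post_succAbove {n : ℕ} (f : Fin (n + 1) → M) (p : Fin (n + 1)) :
    post (fun k => f (p.succAbove k)) p = post f (p + 1) := by
  unfold post
  rw [drop_ofFn_succAbove]

theorem prod_eq' {n : ℕ} (f : Fin (n + 1) → M) (p : Fin (n + 1)) :
    (List.ofFn f).prod = pre f p * f p * post f (p + 1) := by
  rw [prod_eq f p, pre_succAbove, post_succAbove]

theorem prod_replace {n : ℕ} (f : Fin (n + 1) → M) (p : Fin (n + 1)) (X : M) :
    (List.ofFn fun k => if k = p then X else f k).prod = pre f p * X * post f (p + 1) := by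
  rw [prod_eq _ p]
  have h1 : (fun k => (fun k => if k = p then X else f k) (p.succAbove k)) =
      fun k => f (p.succAbove k) := by
    funext k
    simp [Fin.succAbove_ne]
  rw [h1, pre_succAbove, post_succAbove]
  simp

theorem pre_succ {n : ℕ} (f : Fin n → M) (l : Fin n) :
    pre f (l + 1) = pre f l * f l := by
  unfold pre
  rw [List.take_succ_eq_append_getElem (by simp), List.prod_append]
  simp

theorem post_eq {n : ℕ} (f : Fin n → M) (l : Fin n) : post f l = f l * post f (l + 1) := by
  unfold post
  rw [List.drop_eq_getElem_cons (by simp), List.prod_cons]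
  simp

end prods

end Vale.Agent.P184.H552
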