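import Vale.Agent.P184.Ex.Cont

/-!
# E4 : the integrals `kI`
-/

open MeasureTheory
open scoped ENNReal

namespace Vale.Agent.P184.H552

open Vale.Agent.P184.H57 Vale.Agent.P184.H57.Ker

variable {G R : Type*} [Group G] [NormedRing R] [NormOneClass R] [NormedAlgebra ℂ R]
  [CompleteSpace R] (D : TData G R) (ψ : Bump D.κ)

theorem bump_cont {κ : ℝ} (ψ : Bump κ) : Continuous ψ.g :=
  continuous_iff_continuousAt.2 fun u => (ψ.deriv u).continuousAt

theorem integrand_cont {N : ℕ} (c : Fin N → G) (b : Fin N → Bool) (φ : ℝ → ℝ) (hφ : Continuous φ)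
    (hs : ∀ u, ψ.r ≤ |u - 1| → φ u = 0) (K : (Fin N → ℝ) → Ker G R)
    (hK : ContinuousOn K (rg D c)) (p p' : G) :
    ContinuousOn (fun t : Fin N → ℝ => (φ (∑ l, t l) : ℂ) * D.T ((K t).e p p')) (orth b) := by
  intro t0 ht0
  have hsum : Continuous fun t : Fin N → ℝ => ∑ l, t l :=
    continuous_finsetSum _ fun l _ => continuous_apply l
  have habs : Continuous fun t : Fin N → ℝ => |∑ l, t l - 1| :=
    (hsum.sub continuous_const).abs
  by_cases h0 : |∑ l, t0 l - 1| < D.κ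
  · have h1 : rg D c ∈ nhdsWithin t0 (orth b) := by
      have h2 : {t : Fin N → ℝ | |∑ l, t l - 1| < D.κ} ∈ nhds t0 :=
        (isOpen_lt habs continuous_const).mem_nhds h0
      filter_upwards [mem_nhdsWithin_of_mem_nhds h2, self_mem_nhdsWithin] with t ht1 ht2
      exact (reg_iff c fun l => (ht2 l).1).2 ht1
    have h3 : ContinuousWithinAt K (orth b) t0 :=
      (hK t0 ((reg_iff c fun l => (ht0 l).1).2 h0)).mono_of_mem_nhdsWithin h1
    have h4 : ContinuousWithinAt (fun t => D.T ((K t).e p p')) (orth b) t0 :=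
      ((D.T.comp (eL p p')).continuous.continuousAt).comp_continuousWithinAt h3
    exact ((Complex.continuous_ofReal.comp (hφ.comp hsum)).continuousWithinAt).mul h4
  · have h1 : {t : Fin N → ℝ | ψ.r < |∑ l, t l - 1|} ∈ nhds t0 :=
      (isOpen_lt continuous_const habs).mem_nhds (lt_of_lt_of_le ψ.r_lt (not_lt.1 h0))
    have h2 : (fun t : Fin N → ℝ => (φ (∑ l, t l) : ℂ) * D.T ((K t).e p p')) =ᶠ[nhds t0]
        fun _ => 0 := by
      filter_upwards [h1] with t ht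
      rw [hs _ (le_of_lt ht)]
      simp
    exact (continuousAt_const.congr h2.symm).continuousWithinAt

theorem integrand_supp {N : ℕ} (φ : ℝ → ℝ) (hs : ∀ u, ψ.r ≤ |u - 1| → φ u = 0) (t : Fin N → ℝ)
    (ht : 1 + D.κ ≤ ∑ j, t j) (X : ℂ) : (φ (∑ l, t l) : ℂ) * X = 0 := by
  rw [hs _ ?_]
  · simp
  · have := ψ.r_lt
    have h2 : ∑ j, t j - 1 ≤ |∑ j, t j - 1| := le_abs_self _
    linarith

theorem kI_integrable {N : ℕ} (c : Fin N → G) (b : Fin N → Bool) (K : (Fin N → ℝ) → Ker G R)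
    (hK : ContinuousOn K (rg D c)) (p p' : G) :
    Integrable (fun t : Fin N → ℝ => (ψ.g (∑ l, t l) : ℂ) * D.T ((K t).e p p')) (muP b) :=
  muP_integrable b (1 + D.κ) _
    (integrand_cont D ψ c b ψ.g (bump_cont ψ) ψ.supp K hK p p')
    fun t _ h => integrand_supp D ψ ψ.g ψ.supp t h _

theorem g_integrable {N : ℕ} (b : Fin N → Bool) :
    Integrable (fun t : Fin N → ℝ => |ψ.g (∑ l, t l)|) (muP b) := by
  refine muP_integrable b (1 + D.κ) _ ?_ ?_
  · exact ((bump_cont ψ).comp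
      (continuous_finsetSum _ fun l _ => continuous_apply l)).abs.continuousOn
  · intro t _ h
    rw [ψ.supp, abs_zero]
    have := ψ.r_lt
    have h2 : ∑ j, t j - 1 ≤ |∑ j, t j - 1| := le_abs_self _
    linarith

/-- the mass of the bump function -/
noncomputable def gm {N : ℕ} (b : Fin N → Bool) : ℝ := ∫ t, |ψ.g (∑ l, t l)| ∂muP b

theorem gm_nonneg {N : ℕ} (b : Fin N → Bool) : 0 ≤ gm D ψ b :=
  integral_nonneg fun _ => abs_nonneg _

/-- a pointwise bound of the integrand -/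
theorem integrand_le {N : ℕ} (c : Fin N → G) (b : Fin N → Bool) (K : (Fin N → ℝ) → Ker G R)
    (p p' : G) (C : ℝ)
    (hC : ∀ t, (∀ l, 0 ≤ t l) → Reg D.κ (sN c t) → ‖(K t).e p p'‖ ≤ C) (t : Fin N → ℝ)
    (ht : t ∈ orth b) :
    ‖(ψ.g (∑ l, t l) : ℂ) * D.T ((K t).e p p')‖ ≤ C * (‖D.T‖ * |ψ.g (∑ l, t l)|) := by
  by_cases h0 : |∑ l, t l - 1| < D.κ
  · have h1 := hC t (fun l => (ht l).1) ((reg_iff c fun l => (ht l).1).2 h0)
    rw [norm_mul, Complex.norm_real, Real.norm_eq_abs]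
    have h2 : ‖D.T ((K t).e p p')‖ ≤ ‖D.T‖ * C :=
      (D.T.le_opNorm _).trans (mul_le_mul_of_nonneg_left h1 (norm_nonneg _))
    calc |ψ.g (∑ l, t l)| * ‖D.T ((K t).e p p')‖ ≤ |ψ.g (∑ l, t l)| * (‖D.T‖ * C) :=
          mul_le_mul_of_nonneg_left h2 (abs_nonneg _)
      _ = C * (‖D.T‖ * |ψ.g (∑ l, t l)|) := by ring
  · have h1 : ψ.g (∑ l, t l) = 0 := ψ.supp _ (le_of_lt (lt_of_lt_of_le ψ.r_lt (not_lt.1 h0)))
    rw [h1]
    simp

theorem kI_bound {N : ℕ} (c : Fin N → G) (b : Fin N → Bool) (y : G)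
    (K : (Fin N → ℝ) → Ker G R) (C : ℝ)
    (hC : ∀ t, (∀ l, 0 ≤ t l) → Reg D.κ (sN c t) →
      ‖(K t).e (D.ρ y) (D.x * D.ρ y)‖ ≤ C) :
    ‖kI D ψ b y K‖ ≤ C * (‖D.T‖ * gm D ψ b) := by
  unfold kI gm
  rw [← integral_const_mul, ← integral_const_mul]
  refine norm_integral_le_of_norm_le (((g_integrable D ψ b).const_mul _).const_mul _) ?_
  filter_upwards [muP_ae b] with t ht
  exact integrand_le D ψ c b K _ _ C hC t ht

/-- exchange of a sum and the integral -/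
theorem kI_hasSum {ι : Type*} {N : ℕ} (c : Fin N → G) (b : Fin N → Bool) (y : G)
    (Kf : ι → (Fin N → ℝ) → Ker G R) (K : (Fin N → ℝ) → Ker G R)
    (hc : ∀ i, ContinuousOn (Kf i) (rg D c)) (bd : ι → ℝ) (hbs : Summable bd)
    (hb0 : ∀ i, 0 ≤ bd i)
    (hbd : ∀ i t, (∀ l, 0 ≤ t l) → Reg D.κ (sN c t) →
      ‖(Kf i t).e (D.ρ y) (D.x * D.ρ y)‖ ≤ bd i)
    (hsum : ∀ t, (∀ l, 0 ≤ t l) → Reg D.κ (sN c t) →
      HasSum (fun i => (Kf i t).e (D.ρ y) (D.x * D.ρ y)) ((K t).e (D.ρ y) (D.x * D.ρ y))) :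
    HasSum (fun i => kI D ψ b y (Kf i)) (kI D ψ b y K) := by
  have h1 := hasSum_integral (μ := muP b)
    (F := fun i (t : Fin N → ℝ) => (ψ.g (∑ l, t l) : ℂ) *
      D.T ((Kf i t).e (D.ρ y) (D.x * D.ρ y))) bd hbs hb0
    (fun t => ‖D.T‖ * |ψ.g (∑ l, t l)|) ((g_integrable D ψ b).const_mul _)
    (fun i => kI_integrable D ψ c b (Kf i) (hc i) _ _)
    (by
      filter_upwards [muP_ae b] with t ht i
      exact integrand_le D ψ c b (Kf i) _ _ (bd i) (hbd i) t ht)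
  have h2 : kI D ψ b y K = ∫ t, ∑' i, (ψ.g (∑ l, t l) : ℂ) *
      D.T ((Kf i t).e (D.ρ y) (D.x * D.ρ y)) ∂muP b := by
    unfold kI
    refine integral_congr_ae ?_
    filter_upwards [muP_ae b] with t ht
    by_cases h0 : |∑ l, t l - 1| < D.κ
    · have h3 := hsum t (fun l => (ht l).1) ((reg_iff c fun l => (ht l).1).2 h0)
      exact ((h3.mapL D.T).mul_left _).tsum_eq.symm
    · have h3 : ψ.g (∑ l, t l) = 0 := ψ.supp _ (le_of_lt (lt_of_lt_of_le ψ.r_lt (not_lt.1 h0)))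
      simp [h3]
  rw [h2]
  exact h1

/-- linearity -/
theorem kI_sum {ι : Type*} (S : Finset ι) {N : ℕ} (c : Fin N → G) (b : Fin N → Bool) (y : G)
    (a : ι → ℂ) (Kf : ι → (Fin N → ℝ) → Ker G R) (hc : ∀ i ∈ S, ContinuousOn (Kf i) (rg D c)) :
    kI D ψ b y (fun t => ∑ i ∈ S, a i • Kf i t) = ∑ i ∈ S, a i * kI D ψ b y (Kf i) := by
  unfold kI
  simp only [← integral_const_mul]
  rw [← integral_finsetSum]
  · refine integral_congr_ae (Filter.Eventually.of_forall fun t => ?_)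
    have h1 : (∑ i ∈ S, a i • Kf i t).e (D.ρ y) (D.x * D.ρ y) =
        ∑ i ∈ S, a i • (Kf i t).e (D.ρ y) (D.x * D.ρ y) := by
      have h2 := map_sum (eL (G := G) (R := R) (D.ρ y) (D.x * D.ρ y)) (fun i => a i • Kf i t) S
      simp only [map_smul] at h2
      exact h2
    simp only [h1, map_sum, map_smul, Finset.mul_sum, smul_eq_mul]
    refine Finset.sum_congr rfl fun i _ => ?_
    ring
  · intro i hi
    exact (kI_integrable D ψ c b (Kf i) (hc i hi) _ _).const_mul _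

theorem kI_congr {N : ℕ} (c : Fin N → G) (b : Fin N → Bool) (y : G)
    (K K' : (Fin N → ℝ) → Ker G R)
    (h : ∀ t, (∀ l, 0 ≤ t l) → Reg D.κ (sN c t) → K t = K' t) :
    kI D ψ b y K = kI D ψ b y K' := by
  unfold kI
  refine integral_congr_ae ?_
  filter_upwards [muP_ae b] with t ht
  by_cases h0 : |∑ l, t l - 1| < D.κ
  · rw [h t (fun l => (ht l).1) ((reg_iff c fun l => (ht l).1).2 h0)]
  · have h3 : ψ.g (∑ l, t l) = 0 := ψ.supp _ (le_of_lt (lt_of_lt_of_le ψ.r_lt (not_lt.1 h0)))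
    simp [h3]

/-- variables of forms are left out -/
theorem kI_insert {N : ℕ} (b : Fin (N + 1) → Bool) (p : Fin (N + 1)) (hp : b p = false) (y : G)
    (K : (Fin (N + 1) → ℝ) → Ker G R) :
    kI D ψ b y K = kI D ψ (fun l => b (p.succAbove l)) y fun s => K (p.insertNth 0 s) := by
  unfold kI
  rw [muP_insert b p hp]
  simp only [sum_insertNth]

end Vale.Agent.P184.H552
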