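import Vale.Agent.P184.Ex.Prob

/-! P184, block LAB (helper428), part 3: the orbit space of left multiplication by `x`, random labels. -/

open Finset MeasureTheory

namespace Vale.Agent.P184.H428

section orbit

variable {G : Type*} [Group G] (x : G)

/-- the set of left `⟨x⟩`-orbits in `G` -/
abbrev Orb : Type _ := Quotient (QuotientGroup.rightRel (Subgroup.zpowers x))

/-- the orbit of an element -/
def orb (h : G) : Orb x := Quotient.mk _ h

theorem orb_eq_iff {g h : G} : orb x g = orb x h ↔ ∃ i : ℤ, h = x ^ i * g := by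
  unfold orb
  rw [Quotient.eq, QuotientGroup.rightRel_apply, Subgroup.mem_zpowers_iff]
  constructor
  · rintro ⟨i, hi⟩
    exact ⟨i, by rw [hi]; group⟩
  · rintro ⟨i, hi⟩
    exact ⟨i, by rw [hi]; group⟩

theorem orb_mul (h : G) : orb x (x * h) = orb x h := by
  symm
  rw [orb_eq_iff]
  exact ⟨1, by simp⟩

/-- the representative of an orbit -/
noncomputable def rep (v : Orb x) : G := Quotient.out v

theorem orb_rep (v : Orb x) : orb x (rep x v) = v := Quotient.out_eq v

theorem exists_ind (h : G) : ∃ i : ℤ, h = x ^ i * rep x (orb x h) :=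
  (orb_eq_iff x).1 (orb_rep x (orb x h))

/-- the exponent of `h` over the representative of its orbit -/
noncomputable def ind (h : G) : ℤ := Classical.choose (exists_ind x h)

theorem ind_spec (h : G) : h = x ^ ind x h * rep x (orb x h) := Classical.choose_spec (exists_ind x h)

variable (R : ℕ)

theorem ind_mul (hR : ∀ i : ℤ, x ^ i = 1 → (R : ℤ) ∣ i) (h : G) :
    ((ind x (x * h) : ℤ) : ZMod R) = (ind x h : ZMod R) + 1 := by
  have h1 := ind_spec x (x * h)
  rw [orb_mul] at h1
  have h2 := ind_spec x h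
  have h3 : x ^ (ind x (x * h) - (ind x h + 1)) = 1 := by
    have : x ^ (ind x (x * h)) * rep x (orb x h) = x ^ (ind x h + 1) * rep x (orb x h) := by
      rw [← h1]
      conv_lhs => rw [h2]
      group
    have h4 := mul_right_cancel this
    rw [zpow_sub, h4, mul_inv_cancel]
  have h5 := hR _ h3
  rw [← ZMod.intCast_zmod_eq_zero_iff_dvd] at h5
  push_cast at h5
  linear_combination h5

/-- the neighbours of an orbit -/
noncomputable def nb (F : Finset G) (v : Orb x) : Finset (Orb x) := by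
  classical
  exact ((F ∪ F.image fun g => g⁻¹).image (fun f => orb x (rep x v * f))).filter (fun w => w ≠ v)

theorem orb_mul_right {g h : G} (hgh : orb x g = orb x h) (f : G) : orb x (g * f) = orb x (h * f) := by
  rw [orb_eq_iff] at hgh ⊢
  obtain ⟨i, rfl⟩ := hgh
  exact ⟨i, by group⟩

theorem mem_nb {F : Finset G} {h : G} {w : Orb x} :
    w ∈ nb x F (orb x h) ↔ (∃ f, (f ∈ F ∨ f⁻¹ ∈ F) ∧ orb x (h * f) = w) ∧ w ≠ orb x h := by
  classical
  unfold nb
  simp only [Finset.mem_filter, Finset.mem_image, Finset.mem_union]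
  have e (f : G) : orb x (rep x (orb x h) * f) = orb x (h * f) :=
    orb_mul_right x (orb_rep x _) f
  simp only [e]
  constructor
  · rintro ⟨⟨f, hf, hw⟩, hne⟩
    refine ⟨⟨f, ?_, hw⟩, hne⟩
    rcases hf with hf | ⟨g, hg, rfl⟩
    · exact Or.inl hf
    · exact Or.inr (by simpa using hg)
  · rintro ⟨⟨f, hf, hw⟩, hne⟩
    refine ⟨⟨f, ?_, hw⟩, hne⟩
    rcases hf with hf | hf
    · exact Or.inl hf
    · exact Or.inr ⟨f⁻¹, hf, by simp⟩

theorem nb_card (F : Finset G) (v : Orb x) : (nb x F v).card ≤ 2 * F.card := by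
  classical
  unfold nb
  refine (Finset.card_filter_le _ _).trans (Finset.card_image_le.trans ?_)
  refine (Finset.card_union_le _ _).trans ?_
  have : (F.image fun g => g⁻¹).card ≤ F.card := Finset.card_image_le
  omega

theorem nb_symm (F : Finset G) (v w : Orb x) (h : w ∈ nb x F v) : v ∈ nb x F w := by
  obtain ⟨g, rfl⟩ : ∃ g, orb x g = v := ⟨rep x v, orb_rep x v⟩
  rw [mem_nb] at h
  obtain ⟨⟨f, hf, rfl⟩, hne⟩ := h
  rw [mem_nb]
  refine ⟨⟨f⁻¹, ?_, by simp⟩, fun h => hne h.symm⟩
  rcases hf with hf | hf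
  · exact Or.inr (by simpa using hf)
  · exact Or.inl hf

theorem orb_rep_mul (c : G) (hc : c * x = x * c) (h : G) :
    orb x (c * rep x (orb x h)) = orb x (c * h) := by
  have h1 := ind_spec x h
  conv_rhs => rw [h1]
  rw [orb_eq_iff]
  have hcx : c * x ^ ind x h = x ^ ind x h * c := ((show Commute c x from hc).zpow_right _)
  exact ⟨ind x h, by rw [← mul_assoc, ← mul_assoc, hcx]⟩

theorem inv_comm {c : G} (hc : c * x = x * c) : c⁻¹ * x = x * c⁻¹ :=
  (show Commute c x from hc).inv_left

/-- left multiplication by an element commuting with `x`, on orbits -/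
noncomputable def lorb (c : G) (hc : c * x = x * c) : Orb x ≃ Orb x where
  toFun v := orb x (c * rep x v)
  invFun v := orb x (c⁻¹ * rep x v)
  left_inv v := by
    change orb x (c⁻¹ * rep x (orb x (c * rep x v))) = v
    rw [orb_rep_mul x c⁻¹ (inv_comm x hc), inv_mul_cancel_left]
    exact orb_rep x v
  right_inv v := by
    change orb x (c * rep x (orb x (c⁻¹ * rep x v))) = v
    rw [orb_rep_mul x c hc, mul_inv_cancel_left]
    exact orb_rep x v

theorem lorb_orb (c : G) (hc : c * x = x * c) (h : G) : lorb x c hc (orb x h) = orb x (c * h) :=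
  orb_rep_mul x c hc h

theorem lorb_symm_orb (c : G) (hc : c * x = x * c) (h : G) :
    (lorb x c hc).symm (orb x h) = orb x (c⁻¹ * h) := by
  rw [Equiv.symm_apply_eq, lorb_orb]
  simp

theorem lorb_nb (F : Finset G) (c : G) (hc : c * x = x * c) (v w : Orb x) :
    w ∈ nb x F v ↔ lorb x c hc w ∈ nb x F (lorb x c hc v) := by
  obtain ⟨g, rfl⟩ : ∃ g, orb x g = v := ⟨rep x v, orb_rep x v⟩
  rw [lorb_orb, mem_nb, mem_nb]
  constructor
  · rintro ⟨⟨f, hf, hw⟩, hne⟩
    refine ⟨⟨f, hf, by rw [← hw, lorb_orb, mul_assoc]⟩, ?_⟩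
    rw [← lorb_orb x c hc]
    exact fun h => hne ((lorb x c hc).injective h)
  · rintro ⟨⟨f, hf, hw⟩, hne⟩
    refine ⟨⟨f, hf, ?_⟩, ?_⟩
    · apply (lorb x c hc).injective
      rw [← hw, lorb_orb, mul_assoc]
    · rintro rfl
      exact hne (lorb_orb x c hc g)

end orbit

end Vale.Agent.P184.H428
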