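import Mathlib

set_option linter.all false

/-! Pfaffians of lists of vectors for an alternating bilinear form, defined through the exterior
algebra: the scalar part of the exponential of the contraction. -/

noncomputable section

namespace Vale.Agent.P184.H460

open CliffordAlgebra

variable {V : Type*} [AddCommGroup V] [Module ℝ V]

/-- the wedge product of a list of vectors -/
def wd (L : List V) : ExteriorAlgebra ℝ V := (L.map (ExteriorAlgebra.ι ℝ)).prod

theorem wd_nil : wd ([] : List V) = 1 := rfl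

theorem wd_cons (v : V) (L : List V) : wd (v :: L) = ExteriorAlgebra.ι ℝ v * wd L := by
  simp [wd]

theorem wd_append (L M : List V) : wd (L ++ M) = wd L * wd M := by
  simp [wd]

theorem wd_singleton (v : V) : wd [v] = ExteriorAlgebra.ι ℝ v := by
  simp [wd]

theorem iota_sq (v : V) : ExteriorAlgebra.ι ℝ v * ExteriorAlgebra.ι ℝ v = 0 :=
  ExteriorAlgebra.ι_sq_zero v

theorem iota_swap (u v : V) : ExteriorAlgebra.ι ℝ u * ExteriorAlgebra.ι ℝ v =
    - (ExteriorAlgebra.ι ℝ v * ExteriorAlgebra.ι ℝ u) := by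
  have h := ExteriorAlgebra.ι_add_mul_swap (R := ℝ) u v
  exact eq_neg_of_add_eq_zero_left h

/-- moving a vector through a wedge product -/
theorem iota_wd (v : V) (L : List V) : ExteriorAlgebra.ι ℝ v * wd L =
    (-1 : ℝ) ^ L.length • (wd L * ExteriorAlgebra.ι ℝ v) := by
  induction L with
  | nil => simp [wd_nil]
  | cons a L ih =>
      rw [wd_cons, ← mul_assoc, iota_swap, neg_mul, mul_assoc, ih, List.length_cons, pow_succ]
      simp [mul_assoc]

variable (B : LinearMap.BilinForm ℝ V) (hB : B.IsAlt)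

theorem toQ_alt (hB : B.IsAlt) : (-B).toQuadraticMap = (0 : QuadraticForm ℝ V) - 0 := by
  ext v
  simp [LinearMap.BilinMap.toQuadraticMap_apply, hB v]

/-- the Pfaffian of a list of vectors -/
def pf (hB : B.IsAlt) (L : List V) : ℝ :=
  ExteriorAlgebra.algebraMapInv
    (changeForm (Q := (0 : QuadraticForm ℝ V)) (Q' := 0) (toQ_alt B hB) (wd L))

/-- the linear functional on the exterior algebra behind the Pfaffian -/
def pfL (hB : B.IsAlt) : ExteriorAlgebra ℝ V →ₗ[ℝ] ℝ :=
  (ExteriorAlgebra.algebraMapInv (R := ℝ) (M := V)).toLinearMap ∘ₗ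
    (changeForm (Q := (0 : QuadraticForm ℝ V)) (Q' := 0) (toQ_alt B hB))

theorem pf_eq (hB : B.IsAlt) (L : List V) : pf B hB L = pfL B hB (wd L) := rfl

theorem pf_nil (hB : B.IsAlt) : pf B hB [] = 1 := by
  simp [pf, wd_nil]


theorem contract_cons (d : Module.Dual ℝ V) (a : V) (x : ExteriorAlgebra ℝ V) :
    contractLeft (Q := (0 : QuadraticForm ℝ V)) d (ExteriorAlgebra.ι ℝ a * x) =
      d a • x - ExteriorAlgebra.ι ℝ a * contractLeft (Q := (0 : QuadraticForm ℝ V)) d x :=
  contractLeft_ι_mul (Q := (0 : QuadraticForm ℝ V)) d a x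

theorem contract_wd (d : Module.Dual ℝ V) (L : List V) :
    contractLeft (Q := (0 : QuadraticForm ℝ V)) d (wd L) =
      ∑ k : Fin L.length, ((-1 : ℝ) ^ (k : ℕ) * d (L.get k)) • wd (L.eraseIdx k) := by
  induction L with
  | nil => simp [wd_nil, contractLeft_one]
  | cons a L ih =>
      rw [wd_cons, contract_cons, ih]
      simp only [List.length_cons]
      rw [Fin.sum_univ_succ]
      simp only [Fin.val_zero, pow_zero, one_mul, List.get_cons_zero, List.eraseIdx_cons_zero,
        Fin.val_succ, List.eraseIdx_cons_succ, wd_cons, Finset.mul_sum,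
        sub_eq_add_neg]
      congr 1
      rw [← Finset.sum_neg_distrib]
      refine Finset.sum_congr rfl fun k _ => ?_
      rw [mul_smul_comm, ← neg_smul]
      congr 1
      have : (a :: L).get k.succ = L.get k := rfl
      rw [this]
      ring

theorem algebraMapInv_iota (v : V) :
    ExteriorAlgebra.algebraMapInv (R := ℝ) (M := V) (ExteriorAlgebra.ι ℝ v) = 0 := by
  simp [ExteriorAlgebra.algebraMapInv]

theorem pf_cons (hB : B.IsAlt) (v : V) (L : List V) : pf B hB (v :: L) =
    ∑ k : Fin L.length, (-1 : ℝ) ^ (k : ℕ) * B v (L.get k) * pf B hB (L.eraseIdx k) := by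
  have h1 : pf B hB (v :: L) = - ExteriorAlgebra.algebraMapInv
      (contractLeft (Q := (0 : QuadraticForm ℝ V)) ((-B) v)
      (changeForm (Q := (0 : QuadraticForm ℝ V)) (Q' := 0) (toQ_alt B hB) (wd L))) := by
    rw [pf, wd_cons]
    have h := changeForm_ι_mul (Q := (0 : QuadraticForm ℝ V)) (Q' := 0) (toQ_alt B hB) v (wd L)
    refine (congrArg ExteriorAlgebra.algebraMapInv h).trans ?_
    rw [map_sub, map_mul]
    have h0 : ExteriorAlgebra.algebraMapInv (R := ℝ) (M := V) (CliffordAlgebra.ι 0 v) = 0 :=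
      algebraMapInv_iota v
    rw [h0, zero_mul, zero_sub]
  rw [h1, ← changeForm_contractLeft, contract_wd]
  simp only [map_sum, map_smul, smul_eq_mul, LinearMap.neg_apply, pf]
  rw [← Finset.sum_neg_distrib]
  refine Finset.sum_congr rfl fun k _ => ?_
  ring

end Vale.Agent.P184.H460
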