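import Vale.Agent.P184.Ex.Ins

/-!
# E4a, E4c : integration by parts and cancellation of the second derivatives
-/

open MeasureTheory
open scoped ENNReal

namespace Vale.Agent.P184.H552

open Vale.Agent.P184.H57 Vale.Agent.P184.H57.Ker

variable {G R : Type*} [Group G] [NormedRing R] [NormOneClass R] [NormedAlgebra ℂ R]
  [CompleteSpace R] (D : TData G R) (ψ : Bump D.κ)

/-- the term with the derivative of the bump function -/
noncomputable def gI {N : ℕ} (w : Fin N → Lt) (y : G) (c : Fin N → G)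
    (u : Fin N → Option D.E) : ℂ :=
  ∫ t, (ψ.g' (∑ l, t l) : ℂ) * D.T ((D.Pw w c u t).e (D.ρ y) (D.x * D.ρ y)) ∂muP (TData.mark w)

/-- Stokes for fixed points and labels. -/
def SpecSt : Prop := ∀ {N : ℕ} (w : Fin (N + 1) → Lt) (y : G) (c : Fin (N + 1) → G)
  (u : Fin (N + 1) → Option D.E) (i : Fin (N + 1)), w i ≠ Lt.a →
  gI D ψ w y c u + kI D ψ (TData.mark w) y (fun t => D.dPw w c u t (c i)) =
    -kI D ψ (fun k => TData.mark w (i.succAbove k)) y (fun s => D.Pw w c u (i.insertNth 0 s))

theorem e_zero' (p p' : G) : (0 : Ker G R).e p p' = 0 := map_zero (eL (G := G) (R := R) p p')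

theorem kI_zero {N : ℕ} (b : Fin N → Bool) (y : G) : kI D ψ b y (fun _ => 0) = 0 := by
  unfold kI
  simp [e_zero']

/-- exchange of two entries -/
theorem Pf_exch {ι : Type*} (X Y Z : List ((ι → ℝ) ⊕ ι)) (a b : (ι → ℝ) ⊕ ι) :
    Pf (X ++ a :: (Y ++ b :: Z)) = -Pf (X ++ b :: (Y ++ a :: Z)) := by
  rw [Pf_move X Y (b :: Z) a, Pf_move X Y (a :: Z) b, Pf_swap]
  ring

/-- a form `θ_i` with no mark `i` gives zero -/
theorem pf1_form {N : ℕ} (w : Fin N → Lt) (c : Fin N → G) (u : Fin N → Option D.E) (i : Fin N)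
    (v : D.E) (hw : w i = .a) (hu : u i = some v) : pf1 D w c u i = 0 := by
  unfold pf1
  have h1 : ∀ s ∈ (.inl (fun _ => 1) :: List.ofFn (D.sy w c u) :
      List ((Fin N → ℝ) ⊕ Fin N)), s ≠ .inr i := by
    intro s hs
    rw [List.mem_cons, List.mem_ofFn] at hs
    rcases hs with rfl | ⟨k, rfl⟩
    · exact Sum.inl_ne_inr
    · by_cases hk : k = i
      · subst hk
        unfold TData.sy
        rw [hw, hu]
        exact Sum.inl_ne_inr
      · exact sy_ne D w c u i k hk
  have h2 := Pf_swap (ι := Fin N) [] (List.ofFn (D.sy w c u)) (.inl (fun _ => 1))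
    (.inl (Pi.single i 1))
  rw [List.nil_append, List.nil_append] at h2
  rw [h2, Pf, neg_eq_zero]
  refine Finset.sum_eq_zero fun k _ => ?_
  have h3 : pr (.inl (Pi.single i 1)) ((Sum.inl (fun _ => 1) :: List.ofFn (D.sy w c u)).get k) =
      0 := by
    have h4 := h1 _ (List.get_mem _ k)
    generalize ((Sum.inl (fun _ => 1) :: List.ofFn (D.sy w c u)).get k :
      (Fin N → ℝ) ⊕ Fin N) = s at h4 ⊢
    rcases s with f | j
    · rfl
    · show (Pi.single i 1 : Fin N → ℝ) j = 0
      rw [Pi.single_apply, if_neg]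
      rintro rfl
      exact h4 rfl
  rw [h3]
  ring

/-- vanishing letters -/
theorem pre_zero {N : ℕ} (f : Fin N → Ker G R) (i : Fin N) (hi : f i = 0) (m : ℕ)
    (hm : (i : ℕ) < m) : pre f m = 0 := by
  induction m with
  | zero => omega
  | succ m ih =>
    by_cases hmN : m < N
    · rw [show m + 1 = ((⟨m, hmN⟩ : Fin N) : ℕ) + 1 from rfl, pre_succ]
      by_cases h : (i : ℕ) < m
      · rw [ih h, zero_mul]
      · have : i = ⟨m, hmN⟩ := Fin.ext (by simp only; omega)
        rw [← this, hi, mul_zero]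
    · have h1 : pre f (m + 1) = pre f m := by
        unfold pre
        rw [List.take_of_length_le (by rw [List.length_ofFn]; omega),
          List.take_of_length_le (by rw [List.length_ofFn]; omega)]
      rw [h1]
      exact ih (by have := i.2; omega)

theorem post_zero {N : ℕ} (f : Fin N → Ker G R) (i : Fin N) (hi : f i = 0) (m : ℕ)
    (hm : m ≤ (i : ℕ)) : post f m = 0 := by
  obtain ⟨d, hd⟩ := Nat.exists_eq_add_of_le hm
  induction d generalizing m with
  | zero =>
    have : m = (i : ℕ) := by omega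
    subst this
    rw [post_eq, hi, zero_mul]
  | succ d ih =>
    have h1 : m < N := by have := i.2; omega
    rw [show m = ((⟨m, h1⟩ : Fin N) : ℕ) from rfl, post_eq]
    show f _ * post f (m + 1) = 0
    rw [ih (m + 1) (by omega) (by omega), mul_zero]

end Vale.Agent.P184.H552
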