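import Vale.Agent.P184.Ex.Stk

/-!
# E4 : assembly of the integration by parts
-/

open MeasureTheory
open scoped ENNReal

namespace Vale.Agent.P184.H552

open Vale.Agent.P184.H57 Vale.Agent.P184.H57.Ker

variable {G R : Type*} [Group G] [NormedRing R] [NormOneClass R] [NormedAlgebra ℂ R]
  [CompleteSpace R] (D : TData G R) (ψ : Bump D.κ)

/-- The second derivatives cancel. -/
def SpecSec : Prop := ∀ {N : ℕ} (w : Fin (N + 1) → Lt) (y : G) (c : Fin (N + 1) → G)
  (l : Fin (N + 1)), w l = Lt.a → ∀ u0 : Fin N → Option D.E,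
  ∑ v : D.E, ∑ i : Fin (N + 1),
    (pf1 D w c (l.insertNth (some v) u0 : Fin (N + 1) → Option D.E) i : ℂ) *
    kI D ψ (TData.mark w) y
      (secK D w c (l.insertNth (some v) u0 : Fin (N + 1) → Option D.E) l v i) = 0

theorem kI_add {N : ℕ} (c : Fin N → G) (b : Fin N → Bool) (y : G)
    (K K' : (Fin N → ℝ) → Ker G R) (hK : ContinuousOn K (rg D c))
    (hK' : ContinuousOn K' (rg D c)) :
    kI D ψ b y (fun t => K t + K' t) = kI D ψ b y K + kI D ψ b y K' := by
  have h := kI_sum D ψ (Finset.univ : Finset Bool) c b y (fun _ => 1)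
    (fun z => if z then K else K') (by
      intro z _
      cases z
      · exact hK'
      · exact hK)
  simpa using h

theorem kI_neg {N : ℕ} (b : Fin N → Bool) (y : G) (K : (Fin N → ℝ) → Ker G R) :
    kI D ψ b y (fun t => -K t) = -kI D ψ b y K := by
  unfold kI
  rw [← integral_neg]
  refine integral_congr_ae (Filter.Eventually.of_forall fun t => ?_)
  simp only [e_neg, map_neg, mul_neg]

/-- the summands of the derivative -/
noncomputable def dK {N : ℕ} (w : Fin N → Lt) (c : Fin N → G) (u : Fin N → Option D.E)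
    (l i : Fin N) (t : Fin N → ℝ) : Ker G R :=
  pre (fk D w c u t) l * D.dlk (sN c t) (c i) (w l) (c l) (u l) * post (fk D w c u t) (l + 1)

theorem dK_cont {N : ℕ} (w : Fin N → Lt) (c : Fin N → G) (u : Fin N → Option D.E)
    (l i : Fin N) : ContinuousOn (dK D w c u l i) (rg D c) :=
  ((takeprod_cont (fun l t => fk D w c u t l) (fun _ => lk_cont D c _ _ _) l).mul
    (dlk_cont D c _ _ _ _)).mul
    (dropprod_cont (fun l t => fk D w c u t l) (fun _ => lk_cont D c _ _ _) (l + 1))

theorem kI_dPw {N : ℕ} (w : Fin (N + 1) → Lt) (c : Fin (N + 1) → G)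
    (u : Fin (N + 1) → Option D.E) (b : Fin (N + 1) → Bool) (y : G) (i : Fin (N + 1)) :
    kI D ψ b y (fun t => D.dPw w c u t (c i)) = ∑ l, kI D ψ b y (dK D w c u l i) := by
  have h := kI_sum D ψ (Finset.univ : Finset (Fin (N + 1))) c b y (fun _ => 1)
    (fun l => dK D w c u l i) fun l _ => dK_cont D w c u l i
  simp only [one_mul, one_smul] at h
  rw [← h]
  congr 1
  funext t
  unfold TData.dPw
  exact Finset.sum_congr rfl fun l _ => prod_replace (fk D w c u t) l _

/-- the term of the letter `l` without second derivatives -/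
noncomputable def Mt {N : ℕ} (w : Fin N → Lt) (c : Fin N → G) (u : Fin N → Option D.E) (y : G)
    (l i : Fin N) : ℂ :=
  match w l with
  | .x => 0
  | .y => -kI D ψ (TData.mark w) y (insK D w c u l i) +
      kI D ψ (TData.mark w) y (insK D w c u (l + 1) i)
  | .a => -kI D ψ (TData.mark w) y (insK D w c u l i)

/-- the term of the letter `l` with second derivatives -/
noncomputable def St {N : ℕ} (w : Fin N → Lt) (c : Fin N → G) (u : Fin N → Option D.E) (y : G)
    (l i : Fin N) : ℂ :=
  match w l, u l with
  | .a, some v => kI D ψ (TData.mark w) y (secK D w c u l v i)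
  | _, _ => 0

theorem insK_zero {N : ℕ} (w : Fin N → Lt) (c : Fin N → G) (u : Fin N → Option D.E) (y : G)
    (b : Fin N → Bool) (l i : Fin N) (m : ℕ) (h : ∀ t, fk D w c u t l = 0) :
    kI D ψ b y (insK D w c u m i) = 0 := by
  have h1 : insK D w c u m i = fun _ => 0 := by
    funext t
    unfold insK
    by_cases hm : (l : ℕ) < m
    · rw [pre_zero (fk D w c u t) l (h t) m hm, zero_mul, zero_mul]
    · rw [post_zero (fk D w c u t) l (h t) m (by omega), mul_zero]
  rw [h1, kI_zero]

theorem kI_dK {N : ℕ} (w : Fin N → Lt) (c : Fin N → G) (u : Fin N → Option D.E) (y : G)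
    (l i : Fin N) :
    kI D ψ (TData.mark w) y (dK D w c u l i) = Mt D ψ w c u y l i + St D ψ w c u y l i := by
  rcases hw : w l with _ | _ | _ <;> rcases hu : u l with _ | v
  · have h1 : dK D w c u l i = fun _ => 0 := by
      funext t
      unfold dK
      rw [hw, hu]
      simp [TData.dlk]
    have h2 : Mt D ψ w c u y l i = 0 := by
      unfold Mt
      simp only [hw]
      rw [insK_zero D ψ w c u y _ l i l, neg_zero]
      intro t
      unfold fk
      rw [hw, hu]
      rfl
    have h3 : St D ψ w c u y l i = 0 := by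
      unfold St
      simp only [hw, hu]
    rw [h1, kI_zero, h2, h3, add_zero]
  · have h1 : dK D w c u l i = fun t => -insK D w c u l i t + secK D w c u l v i t := by
      funext t
      unfold dK insK secK
      rw [post_eq (fk D w c u t) l]
      have h4 : fk D w c u t l = D.lk (sN c t) .a (c l) (some v) := by
        unfold fk
        rw [hw, hu]
      rw [hw, hu, h4]
      simp only [TData.dlk]
      rw [mul_add, add_mul]
      congr 1
      simp only [mul_neg, neg_mul, mul_assoc]
    have h2 : Mt D ψ w c u y l i = -kI D ψ (TData.mark w) y (insK D w c u l i) := by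
      unfold Mt
      simp only [hw]
    have h3 : St D ψ w c u y l i = kI D ψ (TData.mark w) y (secK D w c u l v i) := by
      unfold St
      simp only [hw, hu]
    have h5 := kI_add D ψ c (TData.mark w) y (fun t => -insK D w c u l i t) _
      (insK_cont D c w u l i).neg (secK_cont D c w u l v i)
    rw [h1, h5, h2, h3, kI_neg]
  · have h1 : dK D w c u l i = fun _ => 0 := by
      funext t
      unfold dK
      rw [hw, hu]
      simp [TData.dlk]
    have h2 : Mt D ψ w c u y l i = 0 := by
      unfold Mt
      simp only [hw]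
    have h3 : St D ψ w c u y l i = 0 := by
      unfold St
      simp only [hw, hu]
    rw [h1, kI_zero, h2, h3, add_zero]
  · have h1 : dK D w c u l i = fun _ => 0 := by
      funext t
      unfold dK
      rw [hw, hu]
      simp [TData.dlk]
    have h2 : Mt D ψ w c u y l i = 0 := by
      unfold Mt
      simp only [hw]
    have h3 : St D ψ w c u y l i = 0 := by
      unfold St
      simp only [hw, hu]
    rw [h1, kI_zero, h2, h3, add_zero]
  · have h1 : dK D w c u l i = fun t => -insK D w c u l i t + insK D w c u (l + 1) i t := by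
      funext t
      unfold dK insK
      rw [post_eq (fk D w c u t) l, pre_succ (fk D w c u t) l]
      have h4 : fk D w c u t l = D.lk (sN c t) .y (c l) none := by
        unfold fk
        rw [hw, hu]
      rw [hw, hu, h4]
      simp only [TData.dlk]
      rw [mul_add, add_mul]
      congr 1
      · simp only [mul_neg, neg_mul, mul_assoc]
      · simp only [mul_assoc]
    have h2 : Mt D ψ w c u y l i = -kI D ψ (TData.mark w) y (insK D w c u l i) +
        kI D ψ (TData.mark w) y (insK D w c u (l + 1) i) := by
      unfold Mt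
      simp only [hw]
    have h3 : St D ψ w c u y l i = 0 := by
      unfold St
      simp only [hw, hu]
    have h5 := kI_add D ψ c (TData.mark w) y (fun t => -insK D w c u l i t) _
      (insK_cont D c w u l i).neg (insK_cont D c w u (l + 1) i)
    rw [h1, h5, h2, h3, kI_neg, add_zero]
  · have h1 : dK D w c u l i = fun _ => 0 := by
      funext t
      unfold dK
      rw [hw, hu]
      simp [TData.dlk]
    have h0 : ∀ t, fk D w c u t l = 0 := by
      intro t
      unfold fk
      rw [hw, hu]
      rfl
    have h2 : Mt D ψ w c u y l i = 0 := by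
      unfold Mt
      simp only [hw]
      rw [insK_zero D ψ w c u y _ l i l h0, insK_zero D ψ w c u y _ l i (l + 1) h0, neg_zero,
        add_zero]
    have h3 : St D ψ w c u y l i = 0 := by
      unfold St
      simp only [hw, hu]
    rw [h1, kI_zero, h2, h3, add_zero]

/-- the sum over the labels, with the label `l` apart -/
theorem sum_option {N : ℕ} (l : Fin (N + 1)) (F : (Fin (N + 1) → Option D.E) → ℂ)
    (h0 : ∀ u, u l = none → F u = 0) :
    ∑ u, F u = ∑ u0 : Fin N → Option D.E, ∑ v : D.E, F (l.insertNth (some v) u0) := by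
  rw [← (Fin.insertNthEquiv (fun _ => Option D.E) l).sum_comp, Fintype.sum_prod_type,
    Fintype.sum_option]
  have h1 : ∑ u0 : Fin N → Option D.E,
      F ((Fin.insertNthEquiv (fun _ => Option D.E) l) (none, u0)) = 0 := by
    refine Finset.sum_eq_zero fun u0 _ => h0 _ ?_
    simp
  rw [h1, zero_add, Finset.sum_comm]
  rfl

/-- the second derivatives cancel, summed over all labels -/
theorem sum_St (hC : SpecSec D ψ) {N : ℕ} (w : Fin (N + 1) → Lt) (y : G) (c : Fin (N + 1) → G)
    (l : Fin (N + 1)) :
    ∑ u : Fin (N + 1) → Option D.E, ∑ i : Fin (N + 1), (pf1 D w c u i : ℂ) *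
      St D ψ w c u y l i = 0 := by
  by_cases hl : w l = .a
  · rw [sum_option D l]
    · refine Finset.sum_eq_zero fun u0 _ => ?_
      rw [← hC w y c l hl u0]
      refine Finset.sum_congr rfl fun v _ => Finset.sum_congr rfl fun i _ => ?_
      congr 1
      unfold St
      simp only [hl, Fin.insertNth_apply_same]
    · intro u hu
      refine Finset.sum_eq_zero fun i _ => ?_
      unfold St
      simp only [hl, hu, mul_zero]
  · refine Finset.sum_eq_zero fun u _ => Finset.sum_eq_zero fun i _ => ?_
    have : St D ψ w c u y l i = 0 := by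
      unfold St
      split
      · rename_i h _
        exact absurd h hl
      · rfl
    rw [this, mul_zero]

/-- words with a vanishing letter -/
theorem gI_zero {N : ℕ} (w : Fin (N + 1) → Lt) (c : Fin (N + 1) → G)
    (u : Fin (N + 1) → Option D.E) (y : G) (i : Fin (N + 1)) (hw : w i = .a) (hu : u i = none) :
    gI D ψ w y c u = 0 := by
  have h0 : ∀ t, D.Pw w c u t = 0 := by
    intro t
    show (List.ofFn (fk D w c u t)).prod = 0
    rw [prod_eq' _ i]
    have : fk D w c u t i = 0 := by
      unfold fk
      rw [hw, hu]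
      rfl
    rw [this, mul_zero, zero_mul]
  unfold gI
  simp [h0, e_zero']

theorem dK_zero {N : ℕ} (w : Fin N → Lt) (c : Fin N → G)
    (u : Fin N → Option D.E) (y : G) (b : Fin N → Bool) (i j l : Fin N) (hw : w i = .a)
    (hu : u i = none) : kI D ψ b y (dK D w c u l j) = 0 := by
  have h0 : ∀ t, fk D w c u t i = 0 := by
    intro t
    unfold fk
    rw [hw, hu]
    rfl
  have h1 : dK D w c u l j = fun _ => 0 := by
    funext t
    unfold dK
    rcases lt_trichotomy i l with h | h | h
    · rw [pre_zero (fk D w c u t) i (h0 t) l h, zero_mul, zero_mul]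
    · subst h
      rw [hw, hu]
      simp [TData.dlk]
    · rw [post_zero (fk D w c u t) i (h0 t) (l + 1) (by have := Fin.lt_def.1 h; omega), mul_zero]
  rw [h1, kI_zero]

theorem specStk (hS : SpecSt D ψ) (hC : SpecSec D ψ) : SpecStk D ψ := by
  intro N w y c
  have h1 : ∀ (u : Fin (N + 1) → Option D.E) (i : Fin (N + 1)),
      ∑ l : Fin (N + 1), Mt D ψ w c u y l i =
      kI D ψ (TData.mark w) y (fun t => D.dPw w c u t (c i)) -
        ∑ l : Fin (N + 1), St D ψ w c u y l i := by
    intro u i
    rw [kI_dPw, eq_sub_iff_add_eq, ← Finset.sum_add_distrib]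
    exact Finset.sum_congr rfl fun l _ => (kI_dK D ψ w c u y l i).symm
  have h2 : ∑ u : Fin (N + 1) → Option D.E, ∑ i : Fin (N + 1), (pf1 D w c u i : ℂ) *
      ∑ l : Fin (N + 1), St D ψ w c u y l i = 0 := by
    simp only [Finset.mul_sum]
    have h3 : ∀ u : Fin (N + 1) → Option D.E, ∑ i : Fin (N + 1), ∑ l : Fin (N + 1),
        (pf1 D w c u i : ℂ) * St D ψ w c u y l i =
        ∑ l : Fin (N + 1), ∑ i : Fin (N + 1), (pf1 D w c u i : ℂ) * St D ψ w c u y l i :=
      fun u => Finset.sum_comm
    simp only [h3]
    rw [Finset.sum_comm]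
    exact Finset.sum_eq_zero fun l _ => sum_St D ψ hC w y c l
  have h4 : ∑ u : Fin (N + 1) → Option D.E, ∑ i : Fin (N + 1), (pf1 D w c u i : ℂ) *
      gI D ψ w y c u = 0 := by
    refine Finset.sum_eq_zero fun u _ => ?_
    rw [← Finset.sum_mul]
    have := sum_pf1_one D w c u
    rw [← Complex.ofReal_sum, this]
    simp
  have h5 : ∑ u : Fin (N + 1) → Option D.E, ∑ i : Fin (N + 1), (pf1 D w c u i : ℂ) *
      ∑ l : Fin (N + 1), Mt D ψ w c u y l i =
      ∑ i : Fin (N + 1), ∑ u : Fin (N + 1) → Option D.E, (pf1 D w c u i : ℂ) *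
        (gI D ψ w y c u + kI D ψ (TData.mark w) y (fun t => D.dPw w c u t (c i))) := by
    rw [Finset.sum_comm (s := (Finset.univ : Finset (Fin (N + 1))))]
    simp only [h1, mul_sub, mul_add, Finset.sum_sub_distrib, Finset.sum_add_distrib]
    rw [h2, h4, sub_zero, zero_add]
  refine Eq.trans h5 ?_
  rw [← Finset.sum_neg_distrib]
  refine Finset.sum_congr rfl fun i _ => ?_
  by_cases hi : w i = .a
  · rw [if_pos hi, neg_zero]
    refine Finset.sum_eq_zero fun u _ => ?_
    rcases hu : u i with _ | v
    · rw [gI_zero D ψ w c u y i hi hu, kI_dPw, Finset.sum_eq_zero, add_zero, mul_zero]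
      exact fun l _ => dK_zero D ψ w c u y _ i i l hi hu
    · rw [pf1_form D w c u i v hi hu]
      simp
  · rw [if_neg hi, ← Finset.sum_neg_distrib]
    refine Finset.sum_congr rfl fun u _ => ?_
    rw [hS w y c u i hi]
    ring

end Vale.Agent.P184.H552
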